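import Crest.Agent.X212.Smo49.Rm
import Crest.Agent.X212.Cor42.Rep
import Crest.Agent.X212.Cor42.Arc
import Crest.Agent.X212.Lad50.Rad
import Crest.Agent.X212.Smo49.Box
import Crest.Agent.X212.Glb47.Push
import Crest.Agent.R105.Iod1_690
import Crest.Agent.R096.Ed13_276
import Crest.Agent.X212.Smo49.Wrap
import Crest.Agent.X212.Glb47.Box
import Crest.Agent.X212.Prf6.Loc

-- ▼ part X212/Sm25/Pert
section

/-!
Row 212, layer H, package SM2 (helper25), part 1: the files `Smo49/Pert`, `Smo49/Rm` in any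
dimension (a reflection `ρ` replaces `-1`).
-/

set_option autoImplicit false
set_option linter.style.longLine false
set_option linter.unusedSectionVars false

open Set Metric Filter Topology MeasureTheory
open scoped NNReal ContDiff Manifold

namespace Crest.Agent.X212.Sm25

open Crest.Agent.R096.P5Spec_205 (HomeoOn MollAt)
open Crest.Agent.R096.Str_696 (LocPL)
open Crest.Agent.X212.Smo49 hiding pert plize rm

variable {E : Type*} [NormedAddCommGroup E] [InnerProductSpace ℝ E] [MeasureSpace E]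
  [BorelSpace E] [FiniteDimensional ℝ E] [(volume : Measure E).IsAddHaarMeasure]
  {ρ : E ≃L[ℝ] E}

/-- the convex class up to the reflection `ρ` -/
def SM (ρ : E ≃L[ℝ] E) (h : E → E) (x : E) : Prop := MollAt h x ∨ MollAt (fun y => ρ (h y)) x

theorem SM.congr {h h' : E → E} {x : E} (hx : SM ρ h x) (he : h' =ᶠ[𝓝 x] h) : SM ρ h' x := by
  rcases hx with hx | hx
  · exact Or.inl (moll_congr hx he)
  · exact Or.inr (moll_congr hx (he.mono fun y hy => by simp only [hy]))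

theorem det_comp (A B : E →L[ℝ] E) : (A.comp B).det = A.det * B.det :=
  LinearMap.det_comp (A : E →ₗ[ℝ] E) (B : E →ₗ[ℝ] E)

theorem fderiv_lin (ρ : E ≃L[ℝ] E) (h : E → E) (x : E) :
    fderiv ℝ (fun y => ρ (h y)) x = (ρ : E →L[ℝ] E).comp (fderiv ℝ h x) :=
  ρ.comp_fderiv (f := h) (x := x)

theorem det_symm_neg (hρ : (ρ : E →L[ℝ] E).det < 0) : (ρ.symm : E →L[ℝ] E).det < 0 := by
  have h1 := det_comp (ρ : E →L[ℝ] E) (ρ.symm : E →L[ℝ] E)
  rw [ρ.coe_comp_coe_symm] at h1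
  have h2 : (ContinuousLinearMap.id ℝ E).det = 1 := LinearMap.det_id
  rw [h2] at h1
  by_contra hn
  nlinarith [mul_nonneg (neg_nonneg.2 hρ.le) (not_lt.1 hn)]

theorem moll_not_both (hρ : (ρ : E →L[ℝ] E).det < 0) {h : E → E} {x : E} (h1 : MollAt h x)
    (h2 : MollAt (fun y => ρ (h y)) x) : False := by
  obtain ⟨r, hr, K, -, -, hdet, -, hae⟩ := h1
  obtain ⟨r', hr', K', -, -, hdet', -, hae'⟩ := h2
  have h3 : ∀ᵐ y ∂(volume : Measure E), y ∉ ball x (min r r') := by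
    filter_upwards [hae, hae'] with y hy hy' hb
    have h4 := hdet _ (hy (ball_subset_ball (min_le_left _ _) hb))
    have h5 := hdet' _ (hy' (ball_subset_ball (min_le_right _ _) hb))
    rw [fderiv_lin, det_comp] at h5
    nlinarith
  have h4 := measure_eq_zero_iff_ae_notMem.2 h3
  exact (measure_ball_pos volume x (lt_min hr hr')).ne' h4

theorem moll_lin (hρ : (ρ : E →L[ℝ] E).det < 0) {f : E → E} {A : E →L[ℝ] E} {x : E} {r : ℝ}
    (hr : 0 < r) {c : ℝ≥0} (hf : ApproximatesLinearOn f A (ball x r) c)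
    (hdet : ∀ B ∈ closedBall A (c : ℝ), B.det < 0) : MollAt (fun y => ρ (f y)) x := by
  have : ProperSpace (E →L[ℝ] E) := FiniteDimensional.proper_real _
  have hL : LipschitzOnWith c (f - ⇑A) (ball x r) :=
    ApproximatesLinearOn.approximatesLinearOn_iff_lipschitzOnWith.1 hf
  have hL2 : LipschitzOnWith (‖A‖₊ + c) f (ball x r) := lipschitzOnWith_iff_restrict.2 hf.lipschitz
  let T : (E →L[ℝ] E) →L[ℝ] (E →L[ℝ] E) := ContinuousLinearMap.compL ℝ E E E (ρ : E →L[ℝ] E)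
  refine ⟨r, hr, T '' closedBall A c, (convex_closedBall _ _).linear_image T.toLinearMap,
    (isCompact_closedBall _ _).image T.continuous, ?_,
    ⟨_, (ρ : E →L[ℝ] E).lipschitz.comp_lipschitzOnWith hL2⟩, ?_⟩
  · rintro _ ⟨B, hB, rfl⟩
    show 0 < ((ρ : E →L[ℝ] E).comp B).det
    rw [det_comp]
    exact mul_pos_of_neg_of_neg hρ (hdet B hB)
  filter_upwards [hL2.ae_differentiableWithinAt_of_mem (μ := volume)] with y hy hyx
  have hd := (hy hyx).differentiableAt (isOpen_ball.mem_nhds hyx)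
  have h1 := norm_fderiv_le_of_lipschitzOn ℝ (isOpen_ball.mem_nhds hyx) hL
  rw [fderiv_sub hd A.differentiableAt, A.fderiv] at h1
  exact ⟨fderiv ℝ f y, by rwa [mem_closedBall, dist_eq_norm], (fderiv_lin ρ f y).symm⟩

theorem sm_of_smOn (hρ : (ρ : E →L[ℝ] E).det < 0) {h : E → E} {U : Set E} (hU : IsOpen U)
    (hs : SmOn h U) {x : E} (hx : x ∈ U) : SM ρ h x := by
  have hcd : ContDiffAt ℝ 1 h x := (hs.1.contDiffAt (hU.mem_nhds hx)).of_le (by simp)
  rcases lt_or_gt_of_ne (hs.2 x hx) with hlt | hlt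
  · refine Or.inr (R096.Mo_119.mollAt_of_contDiffAt (μ := volume)
      ((ρ : E →L[ℝ] E).contDiff.contDiffAt.comp x hcd) ?_)
    rw [fderiv_lin, det_comp]; exact mul_pos_of_neg_of_neg hρ hlt
  · exact Or.inl (R096.Mo_119.mollAt_of_contDiffAt (μ := volume) hcd hlt)

theorem homeo_lin (ρ : E ≃L[ℝ] E) {h : E → E} {Om La : Set E} (hh : HomeoOn h Om La) :
    HomeoOn (fun x => ρ (h x)) Om (ρ '' La) := by
  obtain ⟨k, hk, hkl⟩ := hh.inv
  refine ⟨(ρ.injective.injOn.bijOn_image).comp hh.bij, ρ.continuous.comp_continuousOn hh.cont,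
    fun y => k (ρ.symm y), hk.comp ρ.symm.continuous.continuousOn ?_, fun x hx => by
      simp [hkl x hx]⟩
  rintro _ ⟨y, hy, rfl⟩
  simpa using hy

theorem homeo_lin' (ρ : E ≃L[ℝ] E) {h : E → E} {Om La : Set E} (hh : HomeoOn h Om (ρ '' La)) :
    HomeoOn (fun x => ρ.symm (h x)) Om La := by
  have := homeo_lin ρ.symm hh
  rwa [image_image, show (fun x => ρ.symm (ρ x)) = id from funext ρ.symm_apply_apply,
    image_id] at this

theorem isOpen_lin (ρ : E ≃L[ℝ] E) {La : Set E} (h : IsOpen La) : IsOpen (ρ '' La) :=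
  ρ.toHomeomorph.isOpenMap _ h

/-- small Lipschitz perturbations with compact support -/
theorem pert [Nontrivial E] (hρ : (ρ : E →L[ℝ] E).det < 0) {h : E → E} {Om La U K : Set E} (hOm : IsOpen Om)
    (hLa : IsOpen La) (hh : HomeoOn h Om La) (hU : IsOpen U) (hUO : U ⊆ Om) (hs : SmOn h U)
    (hK : IsCompact K) (hKU : K ⊆ U) :
    ∃ ε > 0, ∀ d : E → E, (∀ x ∉ K, d x = 0) → (∀ x, ‖d x‖ ≤ ε) →
      (∀ x y, ‖d x - d y‖ ≤ ε * ‖x - y‖) →
      HomeoOn (fun x => h x + d x) Om La ∧ ∀ x ∈ U, SM ρ (fun x => h x + d x) x := by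
  have : CompleteSpace E := FiniteDimensional.complete ℝ E
  obtain ⟨t, ht, hQ⟩ := exists_Qp hU hs hK hKU
  have ht' : (0 : ℝ) < t := ht
  obtain ⟨k, hk, hkl, hkr⟩ := inv_spec hh
  have hKO : K ⊆ Om := hKU.trans hUO
  have hKi : IsCompact (h '' K) := hK.image_of_continuousOn (hh.cont.mono hKO)
  have hKL : h '' K ⊆ La := by rintro _ ⟨x, hx, rfl⟩; exact hh.bij.mapsTo (hKO hx)
  obtain ⟨s, hs0, hss⟩ := Metric.mem_uniformity_dist.1 (hKi.uniformContinuousAt_of_continuousAt k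
    (fun a ha => hk.continuousAt (hLa.mem_nhds (hKL ha))) (Metric.dist_mem_uniformity ht'))
  obtain ⟨β, βc, β0, β1, βL⟩ := exists_beta hLa
  obtain ⟨b, hb0, hb⟩ : ∃ b > 0, ∀ z ∈ h '' K, b ≤ β z := by
    rcases (h '' K).eq_empty_or_nonempty with he | hne
    · exact ⟨1, one_pos, by rw [he]; exact fun z hz => hz.elim⟩
    · obtain ⟨z, hz, hzm⟩ := hKi.exists_isMinOn hne βc.continuousOn
      exact ⟨β z, β0 z (hKL hz), fun w hw => hzm hw⟩
  refine ⟨min (min t (s / 4)) (min b 1), by positivity, fun d hd0 hd1 hd2 => ?_⟩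
  have e1 : min (min (t : ℝ) (s / 4)) (min b 1) ≤ t := (min_le_left _ _).trans (min_le_left _ _)
  have e2 : min (min (t : ℝ) (s / 4)) (min b 1) ≤ s / 4 := (min_le_left _ _).trans (min_le_right _ _)
  have e3 : min (min (t : ℝ) (s / 4)) (min b 1) ≤ b := (min_le_right _ _).trans (min_le_left _ _)
  have e4 : min (min (t : ℝ) (s / 4)) (min b 1) ≤ 1 := (min_le_right _ _).trans (min_le_right _ _)
  have hdt : ∀ x y, ‖d x - d y‖ ≤ t * ‖x - y‖ := fun x y =>
    (hd2 x y).trans (mul_le_mul_of_nonneg_right e1 (norm_nonneg _))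
  have hdc : Continuous d := by
    refine (LipschitzWith.of_dist_le_mul (K := t) fun x y => ?_).continuous
    rw [dist_eq_norm, dist_eq_norm]; exact hdt x y
  have happ : ∀ {a : E} {A : E →L[ℝ] E} {c : ℝ≥0}, ApproximatesLinearOn h A (ball a t) c →
      ApproximatesLinearOn (fun x => h x + d x) A (ball a t) (c + t) := by
    intro a A c H x hx y hy
    have e : h x + d x - (h y + d y) - A (x - y) = (h x - h y - A (x - y)) + (d x - d y) := by abel
    rw [e]
    refine (norm_add_le _ _).trans ?_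
    rw [NNReal.coe_add, add_mul]
    exact add_le_add (H x hx y hy) (hdt x y)
  have hoff : ∀ x ∉ K, (fun x => h x + d x) =ᶠ[𝓝 x] h := by
    intro x hx
    filter_upwards [hK.isClosed.isOpen_compl.mem_nhds hx] with y hy
    rw [hd0 y hy, add_zero]
  have hinj1 : ∀ a ∈ K, ∀ y ∈ Om, h a + d a = h y + d y → a = y := by
    intro a ha y hy e
    obtain ⟨-, A, c, h2, h3, -⟩ := hQ a ha
    refine (happ h2).injOn (Or.inr h3) (mem_ball_self ht') ?_ e
    have h4 : dist (h a) (h y) < s := by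
      rw [dist_eq_norm]
      have e' : h a - h y = d y - d a := by rw [sub_eq_sub_iff_add_eq_add, e, add_comm]
      rw [e']
      linarith [norm_sub_le (d y) (d a), hd1 y, hd1 a]
    have h5 := hss h4 (mem_image_of_mem h ha)
    simp only [mem_ofPred_eq, hkl a (hKO ha), hkl y hy] at h5
    rw [mem_ball, dist_comm]; exact h5
  refine ⟨homeo_of_close hOm hLa hh (hh.cont.add hdc.continuousOn) ?_ ?_ ?_ ?_, fun x hx => ?_⟩
  · intro x hx y hy e
    by_cases hxK : x ∈ K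
    · exact hinj1 x hxK y hy e
    · by_cases hyK : y ∈ K
      · exact (hinj1 y hyK x hx e.symm).symm
      · simp only [hd0 x hxK, hd0 y hyK, add_zero] at e
        exact hh.bij.injOn hx hy e
  · intro x hx
    by_cases hxK : x ∈ K
    · obtain ⟨-, A, c, h2, h3, -⟩ := hQ x hxK
      exact ((happ h2).map_nhds_eq A.toNonlinearRightInverse (ball_mem_nhds x ht') (Or.inr h3)).ge
    · rw [map_congr (hoff x hxK), hd0 x hxK, add_zero]
      intro N hN
      obtain ⟨N', hN', hNo, hxN⟩ := _root_.mem_nhds_iff.1 (inter_mem (mem_map.1 hN) (hOm.mem_nhds hx))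
      refine mem_of_superset ((isOpen_image hLa hh hNo fun y hy => (hN' hy).2).mem_nhds
        (mem_image_of_mem h hxN)) ?_
      rintro _ ⟨y, hy, rfl⟩
      exact (hN' hy).1
  · intro x _
    rw [add_sub_cancel_left]; exact (hd1 x).trans e4
  · intro x _ y hy
    rw [add_sub_cancel_left]
    by_cases hxK : x ∈ K
    · exact (hd1 x).trans (e3.trans ((hb _ (mem_image_of_mem h hxK)).trans (βL _ y hy)))
    · rw [hd0 x hxK, norm_zero]; positivity
  · by_cases hxK : x ∈ K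
    · obtain ⟨-, A, c, h2, -, h4 | h4⟩ := hQ x hxK
      · exact Or.inl (moll_of_approx ht' (happ h2) h4)
      · exact Or.inr (moll_lin hρ ht' (happ h2) h4)
    · exact (sm_of_smOn hρ hU hs hx).congr (hoff x hxK)

/-- **smooth ⟹ piecewise affine near a compact set** -/
theorem plize [Nontrivial E] (hρ : (ρ : E →L[ℝ] E).det < 0) {h : E → E} {Om La U C : Set E} (hOm : IsOpen Om)
    (hLa : IsOpen La) (hh : HomeoOn h Om La) (hU : IsOpen U) (hUO : U ⊆ Om) (hs : SmOn h U)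
    (hC : IsCompact C) (hCU : C ⊆ U) :
    ∃ (h₁ : E → E) (K V : Set E), HomeoOn h₁ Om La ∧ IsCompact K ∧ K ⊆ U ∧ (∀ x ∉ K, h₁ x = h x) ∧
      (∀ x ∈ U, SM ρ h₁ x) ∧ IsOpen V ∧ C ⊆ V ∧ LocPL h₁ V := by
  obtain ⟨χ, K, χs, hK, hKU, χ0, χ1, χ01⟩ := exists_bump hC hU hCU
  obtain ⟨ψ, K', ψs, hK', hK'U, ψ0, ψ1, -⟩ := exists_bump hK hU hKU
  obtain ⟨ε, hε, H⟩ := pert hρ hOm hLa hh hU hUO hs hK hKU
  have χsupp : HasCompactSupport χ := HasCompactSupport.intro hK χ0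
  obtain ⟨L, hL⟩ := χs.lipschitzWith_of_hasCompactSupport χsupp (by simp)
  set φ : E → E := fun x => ψ x • h x with hφ
  have φs : ContDiff ℝ 2 φ := by
    rw [contDiff_iff_contDiffAt]
    intro x
    by_cases hx : x ∈ U
    · exact ((ψs.contDiffAt.smul (hs.1.contDiffAt (hU.mem_nhds hx))).of_le (by norm_cast))
    · refine (contDiffAt_const (c := (0 : E))).congr_of_eventuallyEq ?_
      filter_upwards [hK'.isClosed.isOpen_compl.mem_nhds fun h' => hx (hK'U h')] with y hy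
      simp only [hφ, ψ0 y hy, zero_smul]
  have φsupp : HasCompactSupport φ :=
    HasCompactSupport.intro hK' fun x hx => by simp only [hφ, ψ0 x hx, zero_smul]
  have hL0 : (0 : ℝ) ≤ L := L.2
  have hε' : 0 < ε / (1 + L) := by positivity
  obtain ⟨g, gs, g0, g1⟩ := exists_sel φs φsupp hK hε'
  have hεε : ε / (1 + L) * (1 + L) = ε := by field_simp
  have hχL : ∀ x y, |χ x - χ y| ≤ L * ‖x - y‖ := fun x y => by
    have := hL.dist_le_mul x y
    rwa [Real.dist_eq, dist_eq_norm] at this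
  have hχ1 : ∀ x, |χ x| ≤ 1 := fun x => by rw [abs_of_nonneg (χ01 x).1]; exact (χ01 x).2
  have hone : ∀ x y, y ∉ K → ‖χ x • (g x - φ x) - χ y • (g y - φ y)‖ ≤ ε * ‖x - y‖ := by
    intro x y hy
    by_cases hx : x ∈ K
    · have h1 := hχL x y
      rw [χ0 y hy, sub_zero] at h1
      rw [χ0 y hy, zero_smul, sub_zero, norm_smul, Real.norm_eq_abs]
      calc |χ x| * ‖g x - φ x‖ ≤ (L * ‖x - y‖) * (ε / (1 + L)) :=
            mul_le_mul h1 (g0 x hx) (norm_nonneg _) (by positivity)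
        _ ≤ ((1 + L) * ‖x - y‖) * (ε / (1 + L)) := by gcongr; linarith
        _ = ε * ‖x - y‖ := by field_simp
    · rw [χ0 y hy, χ0 x hx, zero_smul, zero_smul, sub_zero, norm_zero]; positivity
  obtain ⟨H1, H2⟩ := H (fun x => χ x • (g x - φ x)) (fun x hx => by rw [χ0 x hx, zero_smul])
    (fun x => by
      by_cases hx : x ∈ K
      · rw [norm_smul, Real.norm_eq_abs]
        calc |χ x| * ‖g x - φ x‖ ≤ 1 * (ε / (1 + L)) :=
              mul_le_mul (hχ1 x) (g0 x hx) (norm_nonneg _) zero_le_one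
          _ ≤ (1 + L) * (ε / (1 + L)) := by gcongr; linarith
          _ = ε := by field_simp
      · rw [χ0 x hx, zero_smul, norm_zero]; exact hε.le)
    (fun x y => by
      by_cases hy : y ∈ K
      · by_cases hx : x ∈ K
        · have e : χ x • (g x - φ x) - χ y • (g y - φ y) =
              χ x • ((g x - φ x) - (g y - φ y)) + (χ x - χ y) • (g y - φ y) := by
            rw [smul_sub (χ x) (g x - φ x), sub_smul]; abel
          rw [e]
          refine (norm_add_le _ _).trans ?_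
          rw [norm_smul, norm_smul, Real.norm_eq_abs, Real.norm_eq_abs]
          have a1 : |χ x| * ‖(g x - φ x) - (g y - φ y)‖ ≤ 1 * (ε / (1 + L) * ‖x - y‖) :=
            mul_le_mul (hχ1 x) (g1 x hx y hy) (norm_nonneg _) zero_le_one
          have a2 : |χ x - χ y| * ‖g y - φ y‖ ≤ (L * ‖x - y‖) * (ε / (1 + L)) :=
            mul_le_mul (hχL x y) (g0 y hy) (norm_nonneg _) (by positivity)
          have a3 : 1 * (ε / (1 + L) * ‖x - y‖) + (L * ‖x - y‖) * (ε / (1 + L)) = ε * ‖x - y‖ := by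
            field_simp
          linarith
        · rw [norm_sub_rev, norm_sub_rev x y]; exact hone y x hx
      · exact hone x y hy)
  obtain ⟨V, hVo, hCV, hV⟩ := mem_nhdsSet_iff_exists.1 χ1
  refine ⟨fun x => h x + χ x • (g x - φ x), K, V, H1, hK, hKU,
    fun x hx => by simp only [χ0 x hx, zero_smul, add_zero], H2, hVo, hCV, fun x hx => ?_⟩
  obtain ⟨r, hr, hrV⟩ := Metric.isOpen_iff.1 hVo x hx
  have he : ∀ y ∈ ball x r, h y + χ y • (g y - φ y) = g y := by
    intro y hy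
    have h1 : χ y = 1 := hV (hrV hy)
    have h2 : y ∈ K := by
      by_contra hn
      rw [χ0 y hn] at h1
      exact zero_ne_one h1
    have h3 : ψ y = 1 := ψ1.self_of_nhdsSet y h2
    simp only [hφ, h1, h3, one_smul]
    abel
  obtain ⟨gc, S, hS⟩ := gs
  exact ⟨r, hr, S, gc.continuousOn.congr he, fun y hy => by
    obtain ⟨a, ha, e⟩ := hS y
    exact ⟨a, ha, (he y hy).trans e⟩⟩

/-- **relative mollification**, any orientation: `h` is in the convex class on `O` and smooth on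
`O \ Q`, `Q` compact in the open set `W`. -/
theorem rm (hρ : (ρ : E →L[ℝ] E).det < 0) {h : E → E} {Om La O Q W : Set E} (hLa : IsOpen La)
    (hh : HomeoOn h Om La) (hO : IsOpen O) (hOO : O ⊆ Om) (hm : ∀ x ∈ O, SM ρ h x)
    (hQ : IsCompact Q) (hW : IsOpen W) (hQW : Q ⊆ W) (hs : ContDiffOn ℝ ∞ h (O \ Q)) :
    ∃ (g : E → E) (K : Set E), HomeoOn g Om La ∧ SmOn g O ∧ IsCompact K ∧ K ⊆ W ∧
      (∀ x ∉ O, g x = h x) ∧ ∀ x ∉ K, g x = h x := by
  obtain ⟨χ, K, χs, hK, hKW, χ0, χ1, χ01⟩ := exists_bump hQ hW hQW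
  have χsupp : HasCompactSupport χ := HasCompactSupport.intro hK χ0
  obtain ⟨L, hL⟩ := χs.lipschitzWith_of_hasCompactSupport χsupp (by simp)
  have hM : ∀ x, ‖fderiv ℝ χ x‖ ≤ L := fun x => norm_fderiv_le_of_lipschitz ℝ hL
  have hχ1 : ∀ x ∈ Q, χ =ᶠ[𝓝 x] fun _ => 1 := fun x hx => χ1.filter_mono (nhds_le_nhdsSet hx)
  set O1 : Set E := O ∩ {x | MollAt h x} with hO1
  set O2 : Set E := O ∩ {x | MollAt (fun y => ρ (h y)) x} with hO2
  have o1 : IsOpen O1 := hO.inter (isOpen_iff_mem_nhds.2 fun x hx => moll_ev hx)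
  have o2 : IsOpen O2 := hO.inter (isOpen_iff_mem_nhds.2 fun x hx => moll_ev hx)
  have hdisj : ∀ x ∈ O1, x ∉ O2 := fun x h1 h2 => moll_not_both hρ h1.2 h2.2
  obtain ⟨g, g1, g2, g3, g4, g5⟩ := rm_pos hLa hh o1 (inter_subset_left.trans hOO)
    (fun x hx => hx.2) χs χ01 L.2 hM (hO.sdiff hQ.isClosed) hs fun x hx => by
      by_cases hxQ : x ∈ Q
      · exact Or.inr (hχ1 x hxQ)
      · exact Or.inl ⟨hx.1, hxQ⟩
  have e2 : ∀ x ∈ O2, g x = h x := fun x hx => g4 x fun h' => hdisj x h' hx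
  obtain ⟨f, f1, f2, f3, f4, f5⟩ := rm_pos (S := O2 \ Q) (isOpen_lin ρ hLa) (homeo_lin ρ g1) o2
    (inter_subset_left.trans hOO) (fun x hx => moll_congr hx.2 (by
      filter_upwards [o2.mem_nhds hx] with y hy
      rw [e2 y hy])) χs χ01 L.2 hM (o2.sdiff hQ.isClosed)
    ((ρ : E →L[ℝ] E).contDiff.comp_contDiffOn
      ((hs.mono fun x hx => ⟨hx.1.1, hx.2⟩).congr fun x hx => e2 x hx.1)) fun x hx => by
      by_cases hxQ : x ∈ Q
      · exact Or.inr (hχ1 x hxQ)
      · exact Or.inl ⟨hx, hxQ⟩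
  have e1 : ∀ x ∈ O1, (fun x => ρ.symm (f x)) =ᶠ[𝓝 x] g := fun x hx => by
    filter_upwards [o1.mem_nhds hx] with y hy
    rw [f4 y (hdisj y hy), ρ.symm_apply_apply]
  refine ⟨fun x => ρ.symm (f x), K, homeo_lin' ρ f1, ⟨fun x hx => ?_, fun x hx => ?_⟩, hK, hKW,
    fun x hx => ?_, fun x hx => ?_⟩
  · rcases hm x hx with h1 | h1
    · exact ((g2.contDiffAt (o1.mem_nhds ⟨hx, h1⟩)).congr_of_eventuallyEq
        (e1 x ⟨hx, h1⟩)).contDiffWithinAt
    · exact ((ρ.symm : E →L[ℝ] E).contDiff.contDiffAt.comp x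
        (f2.contDiffAt (o2.mem_nhds ⟨hx, h1⟩))).contDiffWithinAt
  · rcases hm x hx with h1 | h1
    · rw [(e1 x ⟨hx, h1⟩).fderiv_eq]; exact (g3 x ⟨hx, h1⟩).ne'
    · rw [fderiv_lin, det_comp]; exact mul_ne_zero (det_symm_neg hρ).ne (f3 x ⟨hx, h1⟩).ne'
  · show ρ.symm (f x) = h x
    rw [f4 x fun h' => hx h'.1, ρ.symm_apply_apply, g4 x fun h' => hx h'.1]
  · show ρ.symm (f x) = h x
    rw [f5 x (χ0 x hx), ρ.symm_apply_apply, g5 x (χ0 x hx)]

end Crest.Agent.X212.Sm25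
end

-- ▼ part X212/Sm25/PLH
section

/-!
Row 212, layer H, package SM2 (helper25), part 4: piecewise linear handle straightening in the
plane (indices one and two), from the PL Schoenflies theorem.
-/

set_option autoImplicit false
set_option linter.style.longLine false

open Set Metric Filter Topology Function

namespace Crest.Agent.X212.Sm25

open Crest.Agent.R096 Crest.Agent.R096.Ce_537 Crest.Agent.X212.Lad50 Crest.Agent.X212.Cor42
open Crest.Agent.X212.Smo49 (PLAt plAt_of_univ str_iff sq sqi plAt_sq plAt_sqi)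

variable {H : ℝ × ℝ → ℝ × ℝ}

theorem sep (hH : IsOpenEmbedding H) {K : Set (ℝ × ℝ)} (hK : IsCompact K)
    (hc : IsPreconnected Kᶜ) : IsPreconnected (H '' K)ᶜ := by
  have hs : IsOpen (H '' K)ᶜ := (hK.image hH.continuous).isClosed.isOpen_compl
  have hsub : H '' Kᶜ ⊆ (H '' K)ᶜ := by
    rintro _ ⟨x, hx, rfl⟩ ⟨y, hy, e⟩
    exact hx (hH.injective e ▸ hy)
  have key : ∀ u v : Set (ℝ × ℝ), IsOpen u → IsOpen v → (H '' K)ᶜ ⊆ u ∪ v →
      (H '' K)ᶜ ∩ (u ∩ v) = ∅ → H '' Kᶜ ⊆ u → (H '' K)ᶜ ⊆ u := by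
    intro u v hu hv h1 h2 h3
    have h4 : ∀ x ∈ (H '' K)ᶜ, x ∈ u → x ∉ v := fun x a b c => by
      have : x ∈ (H '' K)ᶜ ∩ (u ∩ v) := ⟨a, b, c⟩
      rw [h2] at this; exact this
    have h5 : ∀ y, H y ∉ (H '' K)ᶜ ∩ v := fun y hy =>
      h4 _ hy.1 (h3 ⟨y, fun h => hy.1 ⟨y, h, rfl⟩, rfl⟩) hy.2
    have e : ((H '' K)ᶜ ∩ v)ᶜ = ((H '' K)ᶜ ∩ u) ∪ range H := by
      ext x
      constructor
      · intro hx
        by_cases a : x ∈ H '' K
        · exact Or.inr (image_subset_range _ _ a)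
        · exact Or.inl ⟨a, (h1 a).resolve_right fun c => hx ⟨a, c⟩⟩
      · rintro (hx | ⟨y, rfl⟩)
        exacts [fun c => h4 x hx.1 hx.2 c.2, h5 y]
    have cl : IsClopen ((H '' K)ᶜ ∩ v) :=
      ⟨⟨by rw [e]; exact (hs.inter hu).union hH.isOpen_range⟩, hs.inter hv⟩
    rcases isClopen_iff.1 cl with c | c
    · intro x hx
      refine (h1 hx).resolve_right fun d => ?_
      have : x ∈ (H '' K)ᶜ ∩ v := ⟨hx, d⟩
      rw [c] at this; exact this
    · exact absurd (c ▸ mem_univ (H 0)) (h5 0)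
  refine isPreconnected_iff_subset_of_disjoint.2 fun u v hu hv h1 h2 => ?_
  rcases isPreconnected_iff_subset_of_disjoint.1 (hc.image H hH.continuous.continuousOn) u v hu hv
    (hsub.trans h1) (by
      refine eq_empty_of_subset_empty fun x hx => ?_
      rw [← h2]; exact ⟨hsub hx.1, hx.2⟩) with c | c
  · exact Or.inl (key u v hu hv h1 h2 c)
  · exact Or.inr (key v u hv hu (by rwa [union_comm]) (by rwa [inter_comm v]) c)

theorem compl_ball (c : ℝ × ℝ) : IsPreconnected (closedBall c 1)ᶜ := by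
  have h1 : IsPathConnected (sphere (0 : ℝ × ℝ) 1) := isPathConnected_sphere (by
    rw [← Module.finrank_eq_rank]; simp) 0 zero_le_one
  have h2 := (h1.isConnected.isPreconnected.prod (isPreconnected_Ioi (a := (1 : ℝ)))).image
    (fun p : (ℝ × ℝ) × ℝ => c + p.2 • p.1) (by fun_prop)
  convert h2 using 1
  ext y
  rw [mem_compl_iff, mem_closedBall_iff_norm, not_le]
  constructor
  · intro hy
    have h0 : ‖y - c‖ ≠ 0 := by linarith
    refine ⟨(‖y - c‖⁻¹ • (y - c), ‖y - c‖), ⟨?_, hy⟩, ?_⟩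
    · rw [mem_sphere_zero_iff_norm, norm_smul, norm_inv, norm_norm, inv_mul_cancel₀ h0]
    · simp only [smul_smul, mul_inv_cancel₀ h0, one_smul, add_sub_cancel]
  · rintro ⟨⟨u, t⟩, ⟨hu, ht⟩, rfl⟩
    have ht' : 1 < t := ht
    rw [add_sub_cancel_left, norm_smul, mem_sphere_zero_iff_norm.1 hu, mul_one,
      Real.norm_of_nonneg (by linarith)]
    exact ht'

theorem fill (hH : IsOpenEmbedding H) (c : ℝ × ℝ) {D J : Set (ℝ × ℝ)} (hD : IsCompact D)
    (hU : IsOpen (D \ J)) (hJ : J ⊆ H '' closedBall c 1) : D ⊆ H '' closedBall c 1 := by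
  have hK := isCompact_closedBall c 1
  rcases sides hD.isClosed hU (sep hH hK (compl_ball c))
    (disjoint_left.2 fun x hx h => hx (hJ h)) with h | h
  · refine absurd (eq_univ_of_forall fun x => ?_) (hD.union (hK.image hH.continuous)).ne_univ
    by_cases hx : x ∈ H '' closedBall c 1
    exacts [Or.inr hx, Or.inl (h hx).1]
  · intro x hx
    by_contra hn
    exact h hn hx

theorem fill_int (hH : IsOpenEmbedding H) (c : ℝ × ℝ) {U : Set (ℝ × ℝ)} (hU : IsOpen U)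
    (h : U ⊆ H '' closedBall c 1) {x : ℝ × ℝ} (hx : H x ∈ U) : x ∈ ball c 1 := by
  rw [← interior_closedBall c one_ne_zero]
  refine interior_maximal (fun y hy => ?_) (hU.preimage hH.continuous) hx
  obtain ⟨z, hz, e⟩ := h hy
  exact hH.injective e ▸ hz

/-- lifting of a map at bounded distance -/
theorem exists_lift (hH : IsOpenEmbedding H) {G : ℝ × ℝ → ℝ × ℝ} (hG : Continuous G)
    (hi : Injective G) {C : ℝ} (hb : ∀ x, ∃ y, H y = G x ∧ ‖y - x‖ ≤ C) :
    ∃ u : (ℝ × ℝ) ≃ₜ (ℝ × ℝ), (∀ x, H (u x) = G x) ∧ ∀ x, ‖u x - x‖ ≤ C := by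
  choose u h1 h2 using hb
  have hc : Continuous u := hH.isEmbedding.continuous_iff.2 (by rwa [show H ∘ u = G from funext h1])
  have hui : Injective u := fun x y e => hi (by rw [← h1, e, h1])
  have ho : IsOpenMap u := fun U hU =>
    R105.Iod1_690.isOpen_image_fd rfl hU hc.continuousOn hui.injOn
  have hp : IsProperMap u := by
    refine isProperMap_iff_tendsto_cocompact.2 ⟨hc, ?_⟩
    rw [← Metric.cobounded_eq_cocompact, ← tendsto_norm_atTop_iff_cobounded]
    refine tendsto_atTop_mono (f := fun x => ‖x‖ + -C) (fun x => ?_)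
      (tendsto_atTop_add_const_right _ _ tendsto_norm_cobounded_atTop)
    have := norm_sub_norm_le x (u x)
    rw [norm_sub_rev] at this
    linarith [h2 x]
  have hs : Surjective u := range_eq_univ.1
    (IsClopen.eq_univ ⟨hp.isClosed_range, ho.isOpen_range⟩ (range_nonempty u))
  exact ⟨(Equiv.ofBijective u ⟨hui, hs⟩).toHomeomorphOfContinuousOpen hc ho, h1, h2⟩

/-- index two -/
theorem pl2 (hH : IsOpenEmbedding H) (hp : ∀ x ∈ sphere (0 : ℝ × ℝ) 1, PLAt H x) :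
    ∃ ψ : (ℝ × ℝ) ≃ₜ (ℝ × ℝ), (∀ x ∉ closedBall (0 : ℝ × ℝ) 1, ψ x = x) ∧
      ∀ x ∈ closedBall (0 : ℝ × ℝ) 1, PLAt (H ∘ ψ) x := by
  classical
  obtain ⟨D, Φ, hΦ, hD, hU⟩ := exists_disc (plOn_of_locPL hp (isCompact_sphere _ _) Subset.rfl)
    hH.injective.injOn
  have hDK := fill hH 0 hD.isCompact hU (image_mono sphere_subset_closedBall)
  let G : ℝ × ℝ → ℝ × ℝ := fun x => if x ∈ closedBall (0 : ℝ × ℝ) 1 then Φ.f x else H x
  have g1 : ∀ x ∈ closedBall (0 : ℝ × ℝ) 1, G x = Φ.f x := fun x hx => if_pos hx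
  have g2 : ∀ x ∈ (ball (0 : ℝ × ℝ) 1)ᶜ, G x = H x := fun x hx => by
    by_cases h : x ∈ closedBall (0 : ℝ × ℝ) 1
    · rw [g1 x h, hΦ (by rw [← closedBall_sdiff_ball]; exact ⟨h, hx⟩)]
    · exact if_neg h
  have g3 : ∀ x ∉ closedBall (0 : ℝ × ℝ) 1, G x = H x := fun x hx => if_neg hx
  have hc : Continuous G := by
    rw [← continuousOn_univ, ← union_compl_self (ball (0 : ℝ × ℝ) 1)]
    exact ((Φ.pf.1.congr g1).union_of_isClosed (hH.continuous.continuousOn.congr g2)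
      isClosed_closedBall isOpen_ball.isClosed_compl).mono
      (union_subset_union_left _ ball_subset_closedBall)
  have hne : ∀ x ∈ closedBall (0 : ℝ × ℝ) 1, ∀ y ∉ closedBall (0 : ℝ × ℝ) 1, G x ≠ G y := by
    intro x hx y hy e
    obtain ⟨z, hz, e'⟩ := hDK (Φ.mf hx)
    rw [← g1 x hx, e, g3 y hy] at e'
    exact hy (hH.injective e' ▸ hz)
  obtain ⟨u, h1, -⟩ := exists_lift hH hc (C := 2) (fun x y e => by
    by_cases a : x ∈ closedBall (0 : ℝ × ℝ) 1 <;> by_cases b : y ∈ closedBall (0 : ℝ × ℝ) 1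
    · exact Φ.injOn a b (by rw [← g1 x a, e, g1 y b])
    · exact absurd e (hne x a y b)
    · exact absurd e.symm (hne y b x a)
    · exact hH.injective (by rw [← g3 x a, e, g3 y b])) (fun x => by
    by_cases a : x ∈ closedBall (0 : ℝ × ℝ) 1
    · obtain ⟨z, hz, e'⟩ := hDK (Φ.mf a)
      refine ⟨z, by rw [e', g1 x a], (norm_sub_le _ _).trans ?_⟩
      linarith [mem_closedBall_zero_iff.1 a, mem_closedBall_zero_iff.1 hz]
    · exact ⟨x, (g3 x a).symm, by simp⟩)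
  refine ⟨u, fun x hx => hH.injective (by rw [h1, g3 x hx]), fun x hx => ?_⟩
  rw [show H ∘ u = G from funext h1]
  have p1 : PLOn G (closedBall 0 1) := Φ.pf.congr g1
  by_cases a : x ∈ ball (0 : ℝ × ℝ) 1
  · exact PLAt.of_nhds (mem_of_superset (isOpen_ball.mem_nhds a) ball_subset_closedBall) p1
  · obtain ⟨r, hr, h2⟩ := hp x (by rw [← closedBall_sdiff_ball]; exact ⟨hx, a⟩)
    have p2 : PLOn G (closedBall x (r / 2) ∩ (ball 0 1)ᶜ) :=
      (h2.mono fun y hy => closedBall_subset_ball (by linarith) hy.1).congr fun y hy => g2 y hy.2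
    refine PLAt.of_nhds ?_ (p1.union p2 isClosed_closedBall
      (isClosed_closedBall.inter isOpen_ball.isClosed_compl))
    filter_upwards [closedBall_mem_nhds x (show 0 < r / 2 by linarith)] with y hy
    by_cases b : y ∈ ball (0 : ℝ × ℝ) 1
    exacts [Or.inl (ball_subset_closedBall b), Or.inr ⟨hy, b⟩]

theorem ray {p : ℝ × ℝ} (hp : PLAt H p) (v : ℝ × ℝ) : ∃ ε : ℝ, 0 < ε ∧ ε ≤ 1 ∧
    ∀ z ∈ segment ℝ (H p) (H (p + ε • v)), ∃ t ∈ Icc 0 ε, z = H (p + t • v) := by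
  obtain ⟨r, S, Hc, hr, hc, h⟩ := (str_iff (Om := {p}).2 fun x hx => hx ▸ hp).conic (mem_singleton p)
  have h0 : 0 < r / (‖v‖ + 1) := by positivity
  have key : ∀ t : ℝ, 0 ≤ t → t ≤ r / (‖v‖ + 1) → H (p + t • v) = H p + t • Hc v := by
    intro t t0 t1
    rw [h _ ?_, hc.homog t v t0]
    rw [le_div_iff₀ (by positivity)] at t1
    rw [norm_smul, Real.norm_of_nonneg t0]
    rcases t0.eq_or_lt with rfl | t0
    · simpa using hr
    · nlinarith
  set ε := min (r / (‖v‖ + 1)) 1 with hε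
  have e0 : 0 < ε := lt_min h0 one_pos
  have e1 : ε ≤ r / (‖v‖ + 1) := min_le_left _ _
  refine ⟨ε, e0, min_le_right _ _, ?_⟩
  rintro z ⟨a, b, ha, hb, hab, rfl⟩
  have hb1 : b * ε ≤ ε := by nlinarith
  refine ⟨b * ε, ⟨by positivity, hb1⟩, ?_⟩
  rw [key ε e0.le e1, key _ (by positivity) (hb1.trans e1), smul_add, ← add_assoc, ← add_smul, hab,
    one_smul, smul_smul]

/-- one rung of the ladder -/
theorem rung (hH : IsOpenEmbedding H) (hp : ∀ x : ℝ × ℝ, |x.1| = 1 → PLAt H x) (n : ℝ) :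
    ∃ a : ℝ → ℝ × ℝ, PLOn (fun t => H (a t)) (Icc (-1) 1) ∧ InjOn a (Icc (-1) 1) ∧
      (∀ t, |t| = 1 → a t = (t, n)) ∧ (∀ t, |t| < 1 → |(a t).1| < 1) ∧
      ∀ t, |t| ≤ 1 → |(a t).2 - n| < 1 / 3 := by
  set O := H '' (Ioo (-1) 1 ×ˢ Ioo (n - 1 / 3) (n + 1 / 3)) with hOd
  have hO : IsOpen O := hH.isOpenMap _ (isOpen_Ioo.prod isOpen_Ioo)
  have hOc : IsPreconnected O :=
    (isPreconnected_Ioo.prod isPreconnected_Ioo).image H hH.continuous.continuousOn
  have ha : H (-1, n) ∉ O := by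
    rintro ⟨y, hy, e⟩
    rw [hH.injective e] at hy
    exact lt_irrefl _ hy.1.1
  have hm : ∀ t : ℝ, -1 < t → t < 1 → H (t, n) ∈ O := fun t a b =>
    ⟨_, ⟨⟨a, b⟩, by constructor <;> linarith⟩, rfl⟩
  obtain ⟨ε, e0, e1, e2⟩ := ray (hp (-1, n) (by simp)) (1, 0)
  obtain ⟨η, f0, f1, f2⟩ := ray (hp (1, n) (by simp)) (-1, 0)
  simp only [Prod.smul_mk, smul_eq_mul, mul_one, mul_zero, Prod.mk_add_mk, add_zero, mul_neg] at e2 f2
  have r0 : Rch (H (-1, n)) O (H (-1 + ε, n)) := by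
    refine rch_seg (fun e => ?_) fun z hz h1 _ => ?_
    · have := congrArg Prod.fst (hH.injective e)
      simp only at this; linarith
    · obtain ⟨t, ht, rfl⟩ := e2 z hz
      have : t ≠ 0 := fun c => h1 (by rw [c, add_zero])
      exact hm _ (by linarith [ht.1.lt_of_ne this.symm]) (by linarith [ht.2])
  have o1 : IsOpen {y | y ∈ O ∧ Rch (H (-1, n)) O y} := isOpen_iff_mem_nhds.2 fun y hy => by
    filter_upwards [rch_ball hO ha hy.1] with z hz using ⟨hz.1, hz.2.2 hy.2⟩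
  have o2 : IsOpen {y | y ∈ O ∧ ¬Rch (H (-1, n)) O y} := isOpen_iff_mem_nhds.2 fun y hy => by
    filter_upwards [rch_ball hO ha hy.1] with z hz using ⟨hz.1, fun h => hy.2 (hz.2.1 h)⟩
  have r1 : Rch (H (-1, n)) O (H (1 + -η, n)) := by
    rcases hOc.subset_or_subset o1 o2 (disjoint_left.2 fun y a b => b.2 a.2) (fun y hy => by
      by_cases c : Rch (H (-1, n)) O y
      exacts [Or.inl ⟨hy, c⟩, Or.inr ⟨hy, c⟩]) with c | c
    · exact (c (hm _ (by linarith) (by linarith))).2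
    · exact absurd r0 (c (hm _ (by linarith) (by linarith))).2
  have r2 : Rch (H (-1, n)) O (H (1, n)) := by
    refine r1.step (fun h => ?_) fun z hz h1 => ?_
    · obtain ⟨t, ht, e⟩ := f2 _ (by rwa [segment_symm])
      have := congrArg Prod.fst (hH.injective e)
      simp only at this; linarith [ht.2]
    · obtain ⟨t, ht, rfl⟩ := f2 z (by rwa [segment_symm])
      have : t ≠ 0 := fun c => h1 (by rw [c, neg_zero, add_zero])
      exact hm _ (by linarith [ht.2]) (by linarith [ht.1.lt_of_ne this.symm])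
  obtain ⟨L, hL, γ, h1, h2, h3, h4, h5⟩ := r2
  have hI : MapsTo (fun t : ℝ => L / 2 * (t + 1)) (Icc (-1) 1) (Icc 0 L) := fun t ht =>
    ⟨by nlinarith [ht.1], by nlinarith [ht.2]⟩
  have hI' : ∀ t : ℝ, |t| < 1 → γ (L / 2 * (t + 1)) ∈ O := fun t ht =>
    h5 _ ⟨by nlinarith [(abs_lt.1 ht).1], by nlinarith [(abs_lt.1 ht).2]⟩
  have hE : ∀ t : ℝ, |t| = 1 → γ (L / 2 * (t + 1)) = H (t, n) := fun t ht => by
    rcases (abs_eq zero_le_one).1 ht with rfl | rfl
    · rw [← h4]; congr 1; ring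
    · rw [← h3]; congr 1; ring
  have hR : ∀ t : ℝ, |t| ≤ 1 → H (invFun H (γ (L / 2 * (t + 1)))) = γ (L / 2 * (t + 1)) := by
    intro t ht
    refine invFun_eq ?_
    rcases ht.eq_or_lt with c | c
    exacts [⟨_, (hE t c).symm⟩, image_subset_range _ _ (hI' t c)]
  have hin : ∀ t : ℝ, |t| < 1 →
      invFun H (γ (L / 2 * (t + 1))) ∈ Ioo (-1 : ℝ) 1 ×ˢ Ioo (n - 1 / 3) (n + 1 / 3) := fun t ht => by
    obtain ⟨y, hy, e⟩ := hI' t ht
    rwa [← e, leftInverse_invFun hH.injective]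
  have hE' : ∀ t : ℝ, |t| = 1 → invFun H (γ (L / 2 * (t + 1))) = (t, n) := fun t ht => by
    rw [hE t ht, leftInverse_invFun hH.injective]
  refine ⟨fun t => invFun H (γ (L / 2 * (t + 1))), (h1.comp (pl_mul _ (pl_add (plOn_id _)
    (plOn_const _ _))) hI).congr fun t ht => hR t (abs_le.2 ht), fun s hs t ht e => ?_, hE',
    fun t ht => abs_lt.2 (hin t ht).1, fun t ht => ?_⟩
  · have e' := congrArg H e
    simp only [hR s (abs_le.2 hs), hR t (abs_le.2 ht)] at e'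
    have h6 : L / 2 * (s + 1) = L / 2 * (t + 1) := h2 (hI hs) (hI ht) e'
    have := mul_left_cancel₀ (by positivity) h6
    linarith
  · rcases ht.eq_or_lt with c | c
    · simp only [hE' t c]; norm_num
    · have := (hin t c).2
      rw [abs_lt]; constructor <;> linarith [this.1, this.2]

end Crest.Agent.X212.Sm25
end

-- ▼ part X212/Sm25/Ldr
section

/-!
Row 212, layer H, package SM2 (helper25), part 5: the ladder (PL handles of index one in the plane).
-/

set_option autoImplicit false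
set_option linter.style.longLine false

open Set Metric Filter Topology Function

namespace Crest.Agent.X212.Sm25

open Crest.Agent.R096 Crest.Agent.R096.Ce_537 Crest.Agent.X212.Lad50 Crest.Agent.X212.Cor42
open Crest.Agent.X212.Smo49 (PLAt plAt_of_univ str_iff sq sqi plAt_sq plAt_sqi)

variable {H : ℝ × ℝ → ℝ × ℝ}

/-- a ladder: `s` straightens the rungs -/
structure Ldr (H s : ℝ × ℝ → ℝ × ℝ) : Prop where
  emb : IsOpenEmbedding H
  pt : ∀ x : ℝ × ℝ, |x.1| = 1 → PLAt H x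
  out : ∀ x : ℝ × ℝ, 1 ≤ |x.1| → s x = x
  pl : ∀ n : ℤ, PLOn (fun t : ℝ => H (s (t, n))) (Icc (-1) 1)
  inj : ∀ n : ℤ, InjOn (fun t : ℝ => s (t, n)) (Icc (-1) 1)
  ins : ∀ (n : ℤ) (t : ℝ), |t| < 1 → |(s (t, n)).1| < 1
  ht : ∀ (n : ℤ) (t : ℝ), |t| ≤ 1 → |(s (t, n)).2 - n| < 1 / 3

theorem exists_ldr (hH : IsOpenEmbedding H) (hp : ∀ x : ℝ × ℝ, |x.1| = 1 → PLAt H x) :
    ∃ s, Ldr H s := by
  choose a a1 a2 a3 a4 a5 using rung hH hp
  let s : ℝ × ℝ → ℝ × ℝ := fun x => if |x.1| < 1 then a x.2 x.1 else x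
  have e : ∀ t n : ℝ, |t| ≤ 1 → s (t, n) = a n t := fun t n ht => by
    rcases ht.eq_or_lt with c | c
    · rw [a3 n t c]; exact if_neg c.not_lt
    · exact if_pos c
  refine ⟨s, hH, hp, fun x hx => if_neg (not_lt.2 hx), fun n => (a1 n).congr fun t ht => ?_,
    fun n => (a2 n).congr fun t ht => (e t n (abs_le.2 ht)).symm, fun n t ht => ?_, fun n t ht => ?_⟩
  · simp only [e t n (abs_le.2 ht)]
  · rw [e t n ht.le]; exact a4 n t ht
  · rw [e t n ht]; exact a5 n t ht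

/-- the parametrisation of a block -/
noncomputable def bl (n : ℤ) (z : ℝ × ℝ) : ℝ × ℝ := (z.1, n + (z.2 + 1) / 2)
/-- its inverse -/
noncomputable def lb (n : ℤ) (x : ℝ × ℝ) : ℝ × ℝ := (x.1, 2 * (x.2 - n) - 1)

theorem bl_lb (n : ℤ) (x : ℝ × ℝ) : bl n (lb n x) = x := by
  ext <;> simp only [bl, lb]; ring

theorem lb_bl (n : ℤ) (x : ℝ × ℝ) : lb n (bl n x) = x := by
  ext <;> simp only [bl, lb]; ring

/-- the graph of the ladder together with the outside -/
def Gam : Set (ℝ × ℝ) := {x | 1 ≤ |x.1| ∨ ∃ n : ℤ, x.2 = n}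

theorem bl_mem (n : ℤ) {z : ℝ × ℝ} (hz : z ∈ sphere (0 : ℝ × ℝ) 1) : bl n z ∈ Gam := by
  rcases (mem_dsq.1 hz).2.2 with c | c
  · exact Or.inl c.ge
  · rcases (abs_eq zero_le_one).1 c with c | c
    · exact Or.inr ⟨n + 1, by simp [bl, c]⟩
    · exact Or.inr ⟨n, by simp [bl, c]⟩

namespace Ldr

variable {s : ℝ × ℝ → ℝ × ℝ} (L : Ldr H s)
include L

theorem cases {x : ℝ × ℝ} (hx : x ∈ Gam) : (1 ≤ |x.1| ∧ s x = x) ∨
    ∃ n : ℤ, |x.1| < 1 ∧ x = (x.1, (n : ℝ)) ∧ |(s x).1| < 1 ∧ |(s x).2 - n| < 1 / 3 := by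
  rcases le_or_gt 1 |x.1| with c | c
  · exact Or.inl ⟨c, L.out x c⟩
  · obtain ⟨n, hn⟩ := hx.resolve_left (not_le.2 c)
    have e : x = (x.1, (n : ℝ)) := Prod.ext rfl hn
    exact Or.inr ⟨n, c, e, by rw [e]; exact L.ins n _ c, by rw [e]; exact L.ht n _ c.le⟩

theorem injOn : InjOn s Gam := by
  intro x hx y hy e
  rcases L.cases hx with ⟨a1, a2⟩ | ⟨n, a1, a2, a3, a4⟩ <;>
    rcases L.cases hy with ⟨b1, b2⟩ | ⟨m, b1, b2, b3, b4⟩
  · rwa [a2, b2] at e
  · rw [← e, a2] at b3; exact absurd b3 (not_lt.2 a1)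
  · rw [e, b2] at a3; exact absurd a3 (not_lt.2 b1)
  · rw [e] at a4
    have h1 : |(n : ℝ) - m| < 1 := by
      rw [abs_lt] at a4 b4 ⊢; constructor <;> linarith [a4.1, a4.2, b4.1, b4.2]
    have h2 : |n - m| < 1 := by exact_mod_cast h1
    obtain rfl : n = m := by rw [abs_lt] at h2; omega
    rw [a2, b2] at e ⊢
    rw [L.inj n (abs_le.1 a1.le) (abs_le.1 b1.le) e]

theorem pl_bd (n : ℤ) : PLOn (fun z => H (s (bl n z))) (sphere 0 1) := by
  have p1 : ∀ (m : ℤ) (c : ℝ), n + (c + 1) / 2 = m →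
      PLOn (fun z => H (s (bl n z))) {z | |z.1| ≤ 1 ∧ z.2 = c} := fun m c hm =>
    ((L.pl m).comp (pl_fst (plOn_id _)) fun z hz => abs_le.1 hz.1).congr fun z hz => by
      simp only [bl, hz.2, hm]
  have c1 : ∀ c : ℝ, IsClosed {z : ℝ × ℝ | |z.1| ≤ 1 ∧ z.2 = c} := fun c =>
    IsClosed.inter (s₁ := {z : ℝ × ℝ | |z.1| ≤ 1}) (isClosed_le (by fun_prop) continuous_const)
      (isClosed_eq continuous_snd continuous_const)
  have c2 : IsClosed {z : ℝ × ℝ | 1 ≤ |z.1|} := isClosed_le continuous_const (by fun_prop)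
  have pb : PLOn (bl n) univ := pl_prod (pl_fst (plOn_id _)) (pl_add (plOn_const _ _)
    ((pl_mul (1 / 2) (pl_add (pl_snd (plOn_id _)) (plOn_const 1 _))).congr fun z _ => by ring))
  have p2 : PLOn (fun z => H (s (bl n z))) (sphere 0 1 ∩ {z | 1 ≤ |z.1|}) := by
    refine (plOn_of_locPL (f := fun z => H (bl n z)) (fun z hz => ?_)
      ((isCompact_sphere _ _).inter_right c2) Subset.rfl).congr fun z hz => ?_
    · exact (L.pt (bl n z) (le_antisymm (mem_dsq.1 hz.1).1 hz.2)).comp (plAt_of_univ pb z)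
    · simp only [L.out (bl n z) hz.2]
  refine (((p1 (n + 1) 1 (by push_cast; ring)).union (p1 n (-1) (by ring)) (c1 _) (c1 _)).union p2
    ((c1 _).union (c1 _)) (isClosed_sphere.inter c2)).mono fun z hz => ?_
  obtain ⟨z1, -, c | c⟩ := mem_dsq.1 hz
  · exact Or.inr ⟨hz, c.ge⟩
  · exact Or.inl (((abs_eq zero_le_one).1 c).imp (fun c => ⟨z1, c⟩) fun c => ⟨z1, c⟩)

theorem inj_bd (n : ℤ) : InjOn (fun z => H (s (bl n z))) (sphere 0 1) := fun z hz w hw e => by
  rw [← lb_bl n z, L.injOn (bl_mem n hz) (bl_mem n hw) (L.emb.injective e), lb_bl]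

theorem bd_sub (n : ℤ) : (fun z => H (s (bl n z))) '' sphere 0 1 ⊆
    H '' closedBall (0, (n : ℝ) + 1 / 2) 1 := by
  rintro _ ⟨z, hz, rfl⟩
  refine ⟨_, ?_, rfl⟩
  obtain ⟨z1, z2, -⟩ := mem_dsq.1 hz
  rw [mem_closedBall, Prod.dist_eq, max_le_iff, Real.dist_eq, Real.dist_eq, sub_zero]
  rw [abs_le] at z2
  rcases L.cases (bl_mem n hz) with ⟨-, a2⟩ | ⟨m, -, a2, a3, a4⟩
  · rw [a2]
    exact ⟨z1, by simp only [bl]; rw [abs_le]; constructor <;> linarith [z2.1, z2.2]⟩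
  · have : (n : ℝ) + (z.2 + 1) / 2 = m := congrArg Prod.snd a2
    rw [abs_lt] at a4
    exact ⟨a3.le, by rw [abs_le]; constructor <;> linarith [z2.1, z2.2, a4.1, a4.2]⟩

section Tile
variable {n : ℤ} {D : Set (ℝ × ℝ)} (hD : IsBall 2 D ((fun z => H (s (bl n z))) '' sphere 0 1))
  (hU : IsOpen (D \ (fun z => H (s (bl n z))) '' sphere 0 1))
include hD hU

theorem tile_sub : D ⊆ H '' closedBall (0, (n : ℝ) + 1 / 2) 1 :=
  fill L.emb _ hD.isCompact hU (L.bd_sub n)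

theorem strip_lt {x : ℝ × ℝ} (hx : H x ∈ D \ (fun z => H (s (bl n z))) '' sphere 0 1) :
    |x.1| < 1 := by
  have := fill_int L.emb _ hU (sdiff_subset.trans (L.tile_sub hD hU)) hx
  rw [mem_ball, Prod.dist_eq, max_lt_iff, Real.dist_eq, sub_zero] at this
  exact this.1

theorem gam_not_mem {x : ℝ × ℝ} (hx : x ∈ Gam) :
    H (s x) ∉ D \ (fun z => H (s (bl n z))) '' sphere 0 1 := by
  intro hm
  rcases L.cases hx with ⟨a1, a2⟩ | ⟨m, a1, a2, -, -⟩
  · rw [a2] at hm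
    exact absurd (L.strip_lt hD hU hm) (not_lt.2 a1)
  by_cases hn : m = n ∨ m = n + 1
  · refine hm.2 ⟨lb n x, mem_dsq.2 ?_, by simp only [bl_lb]⟩
    rw [a2]
    rcases hn with rfl | rfl <;> norm_num [lb, a1.le]
  have hC : IsPreconnected ((fun t : ℝ => H (s (t, m))) '' Icc (-1) 1) :=
    isPreconnected_Icc.image _ (L.pl m).1
  rcases sides hD.isClosed hU hC (disjoint_left.2 (by
    rintro _ ⟨t, -, rfl⟩ ⟨z, hz, e⟩
    have e1 := congrArg Prod.snd (L.injOn (bl_mem n hz) (Or.inr ⟨m, rfl⟩) (L.emb.injective e))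
    have c := abs_le.1 (mem_dsq.1 hz).2.1
    simp only [bl] at e1
    have c0 : (n : ℝ) ≤ m := by linarith [c.1]
    have c1 : (m : ℝ) ≤ n + 1 := by linarith [c.2]
    have c0' : n ≤ m := by exact_mod_cast c0
    have c1' : m ≤ n + 1 := by exact_mod_cast c1
    omega)) with c | c
  · have := c ⟨1, by norm_num, rfl⟩
    simp only [L.out (1, (m : ℝ)) (by simp)] at this
    simpa using L.strip_lt hD hU this
  · exact c ⟨x.1, abs_le.1 a1.le, by simp only [← a2]⟩ hm.1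

theorem corner {m : ℤ} (hm : H (1, (m : ℝ)) ∈ D) : m = n ∨ m = n + 1 := by
  have h1 := L.gam_not_mem hD hU (x := (1, (m : ℝ))) (Or.inr ⟨m, rfl⟩)
  have h2 := L.out (1, (m : ℝ)) (by simp)
  obtain ⟨z, hz, e⟩ : H (s (1, (m : ℝ))) ∈ (fun z => H (s (bl n z))) '' sphere 0 1 := by
    by_contra hc
    exact h1 ⟨h2.symm ▸ hm, hc⟩
  have e1 := congrArg Prod.snd (L.injOn (bl_mem n hz) (Or.inr ⟨m, rfl⟩) (L.emb.injective e))
  have c := abs_le.1 (mem_dsq.1 hz).2.1
  simp only [bl] at e1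
  have c0 : (n : ℝ) ≤ m := by linarith [c.1]
  have c1 : (m : ℝ) ≤ n + 1 := by linarith [c.2]
  have c0' : n ≤ m := by exact_mod_cast c0
  have c1' : m ≤ n + 1 := by exact_mod_cast c1
  omega

theorem tile_eq {m : ℤ} {D' : Set (ℝ × ℝ)}
    (hD' : IsBall 2 D' ((fun z => H (s (bl m z))) '' sphere 0 1))
    (hU' : IsOpen (D' \ (fun z => H (s (bl m z))) '' sphere 0 1)) {y : ℝ × ℝ}
    (hy : y ∈ D \ (fun z => H (s (bl n z))) '' sphere 0 1) (hy' : y ∈ D') : n = m := by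
  rcases sides hD'.isClosed hU' hD.isPreconnected_diff (disjoint_left.2 (by
    rintro _ hw ⟨z, hz, rfl⟩
    exact L.gam_not_mem hD hU (bl_mem m hz) hw)) with c | c
  · have hcl : D ⊆ D' := by
      rw [← hD.closure_diff]
      exact closure_minimal (c.trans sdiff_subset) hD'.isClosed
    have k0 : H (1, (n : ℝ)) ∈ D := hD.subset ⟨(1, -1), mem_dsq.2 (by norm_num), by
      simp only; rw [L.out _ (by simp [bl])]; simp [bl]⟩
    have k1 : H (1, ((n + 1 : ℤ) : ℝ)) ∈ D := hD.subset ⟨(1, 1), mem_dsq.2 (by norm_num), by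
      simp only; rw [L.out _ (by simp [bl])]; simp [bl]⟩
    have a := L.corner hD' hU' (hcl k0)
    have b := L.corner hD' hU' (hcl k1)
    omega
  · exact absurd hy' (c hy)

end Tile

theorem exists_map : ∃ G : ℝ × ℝ → ℝ × ℝ, Continuous G ∧ Injective G ∧
    (∀ x, ∃ y, H y = G x ∧ ‖y - x‖ ≤ 2) ∧ (∀ x : ℝ × ℝ, 1 ≤ |x.1| → G x = H x) ∧
    ∀ x : ℝ × ℝ, |x.1| ≤ 1 → PLAt G x := by
  classical
  choose D Φ hΦ hD hU using fun n => exists_disc (L.pl_bd n) (L.inj_bd n)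
  let G : ℝ × ℝ → ℝ × ℝ := fun y => if |y.1| ≤ 1 then (Φ ⌊y.2⌋).f (lb ⌊y.2⌋ y) else H y
  have hsq : ∀ (n : ℤ) (y : ℝ × ℝ), |y.1| ≤ 1 → (n : ℝ) ≤ y.2 → y.2 ≤ n + 1 →
      lb n y ∈ closedBall (0 : ℝ × ℝ) 1 := fun n y h1 h2 h3 =>
    mem_sq.2 ⟨h1, abs_le.2 ⟨by simp only [lb]; linarith, by simp only [lb]; linarith⟩⟩
  have hsq' : ∀ y : ℝ × ℝ, |y.1| ≤ 1 → lb ⌊y.2⌋ y ∈ closedBall (0 : ℝ × ℝ) 1 := fun y hy =>
    hsq _ y hy (Int.floor_le _) (Int.lt_floor_add_one _).le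
  have f0 : ∀ y ∈ Gam, G y = H (s y) := fun y hy => by
    by_cases c : |y.1| ≤ 1
    · simp only [G, if_pos c]
      rw [hΦ _ ((mem_dsq (z := lb ⌊y.2⌋ y)).2 ⟨c, (mem_sq.1 (hsq' y c)).2, ?_⟩)]
      · simp only [bl_lb]
      · rcases hy with h | ⟨n, h⟩
        · exact Or.inl (le_antisymm c h)
        · right; simp [lb, h]
    · simp only [G, if_neg c]
      rw [L.out y (not_le.1 c).le]
  have f1 : ∀ (n : ℤ) (y : ℝ × ℝ), |y.1| ≤ 1 → (n : ℝ) ≤ y.2 → y.2 ≤ n + 1 →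
      G y = (Φ n).f (lb n y) := fun n y h1 h2 h3 => by
    rcases h3.lt_or_eq with c | c
    · simp only [G, if_pos h1]
      rw [Int.floor_eq_iff.2 ⟨h2, c⟩]
    · rw [f0 y (Or.inr ⟨n + 1, by rw [c]; simp⟩),
        hΦ _ ((mem_dsq (z := lb n y)).2
          ⟨h1, (mem_sq.1 (hsq n y h1 h2 h3)).2, Or.inr (by norm_num [lb, c])⟩)]
      simp only [bl_lb]
  have f2 : ∀ y : ℝ × ℝ, 1 ≤ |y.1| → G y = H y := fun y hy => by rw [f0 y (Or.inl hy), L.out y hy]
  have f3 : ∀ y, y ∉ Gam → |y.1| ≤ 1 ∧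
      G y ∈ D ⌊y.2⌋ \ (fun z => H (s (bl ⌊y.2⌋ z))) '' sphere 0 1 := fun y hy => by
    have c : |y.1| ≤ 1 := (not_le.1 fun h => hy (Or.inl h)).le
    simp only [G, if_pos c]
    refine ⟨c, (Φ _).mf (hsq' y c), ?_⟩
    rintro ⟨z, hz, e⟩
    rw [← hΦ _ hz] at e
    have := (Φ _).injOn (sphere_subset_closedBall hz) (hsq' y c) e
    exact hy (by rw [← bl_lb ⌊y.2⌋ y, ← this]; exact bl_mem _ hz)
  have hQ : ∀ n : ℤ, PLOn G {y | |y.1| ≤ 1 ∧ (n : ℝ) ≤ y.2 ∧ y.2 ≤ n + 1} := fun n =>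
    ((Φ n).pf.comp (f := lb n) (pl_prod (pl_fst (plOn_id _)) (pl_sub (pl_mul 2 (pl_sub
      (pl_snd (plOn_id _)) (plOn_const (n : ℝ) _))) (plOn_const 1 _))) fun y hy =>
        hsq n y hy.1 hy.2.1 hy.2.2).congr fun y hy => f1 n y hy.1 hy.2.1 hy.2.2
  have hQc : ∀ n : ℤ, IsClosed {y : ℝ × ℝ | |y.1| ≤ 1 ∧ (n : ℝ) ≤ y.2 ∧ y.2 ≤ n + 1} := fun n =>
    IsClosed.inter (s₁ := {y : ℝ × ℝ | |y.1| ≤ 1}) (isClosed_le (by fun_prop) continuous_const)
      (IsClosed.inter (s₁ := {y : ℝ × ℝ | (n : ℝ) ≤ y.2}) (s₂ := {y : ℝ × ℝ | y.2 ≤ n + 1})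
        (isClosed_le continuous_const continuous_snd) (isClosed_le continuous_snd continuous_const))
  have hOc : IsClosed {y : ℝ × ℝ | 1 ≤ |y.1|} := isClosed_le continuous_const (by fun_prop)
  have f4 : ∀ y : ℝ × ℝ, |y.1| ≤ 1 → PLAt G y := fun y hy => by
    obtain ⟨N, n1, n2, n3⟩ : ∃ N ∈ 𝓝 y, IsClosed N ∧ PLOn G (N ∩ {z | 1 ≤ |z.1|}) := by
      rcases hy.eq_or_lt with c | c
      · obtain ⟨r, hr, h2⟩ := L.pt y c
        exact ⟨closedBall y (r / 2), closedBall_mem_nhds _ (by linarith), isClosed_closedBall,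
          (h2.mono fun z hz => closedBall_subset_ball (by linarith) hz.1).congr
            fun z hz => f2 z hz.2⟩
      · obtain ⟨N, a, b, d⟩ := exists_mem_nhds_isClosed_subset
          (hOc.isOpen_compl.mem_nhds (not_le.2 c))
        exact ⟨N, a, b, (plOn_empty G).mono fun z hz => d hz.1 hz.2⟩
    refine PLAt.of_nhds ?_ (((hQ (⌊y.2⌋ - 1)).union (hQ ⌊y.2⌋) (hQc _) (hQc _)).union n3
      ((hQc _).union (hQc _)) (n2.inter hOc))
    have hn : Ioo ((⌊y.2⌋ : ℝ) - 1) (⌊y.2⌋ + 1) ∈ 𝓝 y.2 :=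
      Ioo_mem_nhds (by linarith [Int.floor_le y.2]) (Int.lt_floor_add_one y.2)
    filter_upwards [continuous_snd.continuousAt hn, n1] with z hz hz'
    rcases le_total 1 |z.1| with c | c
    · exact Or.inr ⟨hz', c⟩
    · rcases le_total z.2 ⌊y.2⌋ with c' | c'
      · exact Or.inl (Or.inl ⟨c, by push_cast; exact hz.1.le, by push_cast; linarith⟩)
      · exact Or.inl (Or.inr ⟨c, c', hz.2.le⟩)
  refine ⟨G, continuous_iff_continuousAt.2 fun y => ?_, fun x y e => ?_, fun x => ?_, f2, f4⟩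
  · rcases le_or_gt |y.1| 1 with c | c
    · exact (f4 y c).continuousAt
    · refine L.emb.continuous.continuousAt.congr ?_
      filter_upwards [(isOpen_lt continuous_const (show Continuous fun z : ℝ × ℝ => |z.1| by
        fun_prop)).mem_nhds c] with z hz using (f2 z (le_of_lt hz)).symm
  · by_cases a : x ∈ Gam <;> by_cases b : y ∈ Gam
    · exact L.injOn a b (L.emb.injective (by rw [← f0 x a, e, f0 y b]))
    · exact absurd (f3 y b).2 (by rw [← e, f0 x a]; exact L.gam_not_mem (hD _) (hU _) a)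
    · exact absurd (f3 x a).2 (by rw [e, f0 y b]; exact L.gam_not_mem (hD _) (hU _) b)
    · have hn := L.tile_eq (hD _) (hU _) (hD _) (hU _) (f3 x a).2 (e ▸ (f3 y b).2.1)
      have c := (f3 x a).1
      have c' := (f3 y b).1
      have k := hsq' x c
      simp only [G, if_pos c, if_pos c'] at e
      rw [hn] at e k
      rw [← bl_lb ⌊y.2⌋ x, (Φ _).injOn k (hsq' y c') e, bl_lb]
  · rcases le_total |x.1| 1 with c | c
    · obtain ⟨y, hy, e⟩ := L.tile_sub (hD _) (hU _) ((Φ ⌊x.2⌋).mf (hsq' x c))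
      refine ⟨y, by simp only [G, if_pos c, e], ?_⟩
      rw [mem_closedBall, Prod.dist_eq, max_le_iff, Real.dist_eq, Real.dist_eq, sub_zero, abs_le,
        abs_le] at hy
      rw [abs_le] at c
      have := Int.floor_le x.2
      have := Int.lt_floor_add_one x.2
      rw [Prod.norm_def, max_le_iff, Real.norm_eq_abs, Real.norm_eq_abs, abs_le, abs_le]
      simp only [Prod.fst_sub, Prod.snd_sub] at hy ⊢
      refine ⟨⟨?_, ?_⟩, ?_, ?_⟩ <;> linarith [hy.1.1, hy.1.2, hy.2.1, hy.2.2, c.1, c.2]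
    · exact ⟨x, (f2 x c).symm, by simp⟩

end Ldr

/-- index one, PL along two lines -/
theorem pl1 (hH : IsOpenEmbedding H) (hp : ∀ x : ℝ × ℝ, |x.1| = 1 → PLAt H x) :
    ∃ ψ : (ℝ × ℝ) ≃ₜ (ℝ × ℝ), (∀ x, 5 ≤ ‖x‖ → ψ x = x) ∧ (∀ x : ℝ × ℝ, 1 ≤ |x.1| → ψ x = x) ∧
      ∀ t : ℝ, |t| ≤ 1 → PLAt (H ∘ ψ) (t, 0) := by
  obtain ⟨s, L⟩ := exists_ldr hH hp
  obtain ⟨G, g1, g2, g3, g4, g5⟩ := L.exists_map
  obtain ⟨u, u1, u2⟩ := exists_lift hH g1 g2 g3
  obtain ⟨ψ, p1, p2, p3⟩ := rad u (fun ε hε => ⟨2 / ε, fun x hx => by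
    rw [div_le_iff₀ hε] at hx
    linarith [u2 x]⟩) (R := 4) (by norm_num)
  refine ⟨ψ, fun x hx => p2 x (by linarith), fun x hx => p3 x fun t ht => hH.injective ?_,
    fun t ht => (g5 (t, 0) ht).congr ?_⟩
  · rw [u1, g4]
    rw [Prod.smul_fst, smul_eq_mul, abs_mul, abs_of_pos (show 0 < t by linarith)]
    nlinarith
  · have : ((t, 0) : ℝ × ℝ) ∈ ball (0 : ℝ × ℝ) 2 := by
      rw [mem_ball_zero_iff, Prod.norm_def, max_lt_iff]
      exact ⟨ht.trans_lt one_lt_two, by simp⟩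
    filter_upwards [isOpen_ball.mem_nhds this] with x hx
    have h1 := mem_ball_zero_iff.1 hx
    have h2 := norm_sub_norm_le (u x) x
    rw [comp_apply, p1 x (by linarith) (by linarith [u2 x]), u1]

/-- PL straightening with collar `C` and core `D` -/
def PLS (C D : Set (ℝ × ℝ)) : Prop :=
  ∀ H : ℝ × ℝ → ℝ × ℝ, IsOpenEmbedding H → (∀ x ∈ C, PLAt H x) →
    ∃ (ψ : (ℝ × ℝ) ≃ₜ (ℝ × ℝ)) (K : Set (ℝ × ℝ)), IsCompact K ∧ K ⊆ ball 0 2 ∧
      (∀ x ∉ K, ψ x = x) ∧ ∀ x ∈ D, PLAt (H ∘ ψ) x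

theorem pls2 : PLS (closedBall 0 2 \ ball 0 1) (closedBall 0 2) := by
  intro H hH hp
  obtain ⟨ψ, p1, p2⟩ := pl2 hH fun x hx => hp x (by
    rw [← closedBall_sdiff_ball] at hx
    exact ⟨closedBall_subset_closedBall one_le_two hx.1, hx.2⟩)
  refine ⟨ψ, _, isCompact_closedBall 0 1, closedBall_subset_ball one_lt_two, p1, fun x hx => ?_⟩
  by_cases c : x ∈ closedBall (0 : ℝ × ℝ) 1
  · exact p2 x c
  · refine (hp x ⟨hx, fun h => c (ball_subset_closedBall h)⟩).congr ?_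
    filter_upwards [isClosed_closedBall.isOpen_compl.mem_nhds c] with y hy
      using congrArg H (p1 y hy)

theorem pls1 : PLS {x | 1 ≤ |x.1| ∧ |x.1| ≤ 2 ∧ |x.2| ≤ 1} {x | |x.1| ≤ 2 ∧ x.2 = 0} := by
  intro H hH hp
  let σ : ℝ × ℝ → ℝ × ℝ := Prod.map id sq
  have hσ : IsOpenEmbedding σ := IsOpenEmbedding.id.prodMap Smo49.sq_emb
  have pr : ∀ {f : ℝ → ℝ} {x : ℝ × ℝ}, PLAt f x.2 → PLAt (Prod.map id f) x := fun {f x} h => by
    obtain ⟨r, hr, h1⟩ := PLAt.comp (f := Prod.snd) h (plAt_of_univ (pl_snd (plOn_id _)) x)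
    exact ⟨r, hr, pl_prod (pl_fst (plOn_id _)) h1⟩
  obtain ⟨ψ, p1, p2, p3⟩ := pl1 (hH.comp hσ) fun x hx =>
    (hp (σ x) ⟨hx.ge, hx.le.trans one_le_two, (Smo49.abs_sq_lt _).le⟩).comp (pr (plAt_sq _))
  have hT : IsCompact (closedBall (0 : ℝ × ℝ) 5 ∩ {x | |x.1| ≤ 1}) :=
    (isCompact_closedBall _ _).inter_right (isClosed_le (by fun_prop) continuous_const)
  obtain ⟨Ψ, q1, q2⟩ := Glb47.exists_pushH hσ ψ hT fun x hx => by
    by_cases c : x ∈ closedBall (0 : ℝ × ℝ) 5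
    · exact p2 x (not_le.1 fun h => hx ⟨c, h⟩).le
    · exact p1 x (by rw [mem_closedBall_zero_iff, not_le] at c; exact c.le)
  have hK := hT.image hσ.continuous
  refine ⟨Ψ, _, hK, ?_, q2, ?_⟩
  · rintro _ ⟨x, hx, rfl⟩
    rw [mem_ball_zero_iff, Prod.norm_def, max_lt_iff]
    exact ⟨lt_of_le_of_lt hx.2 one_lt_two, (Smo49.abs_sq_lt _).trans one_lt_two⟩
  · rintro ⟨t, _⟩ ⟨h1, rfl⟩
    rcases le_or_gt |t| 1 with c | c
    · have e0 : sqi 0 = 0 := by simpa [Smo49.sq_zero] using Smo49.sqi_sq 0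
      have h2 : PLAt ((H ∘ σ) ∘ ψ) (Prod.map id sqi (t, 0)) := by
        simpa only [Prod.map, id, e0] using p3 t c
      refine (h2.comp (pr (plAt_sqi (by simp)))).congr ?_
      filter_upwards [(isOpen_lt (show Continuous fun z : ℝ × ℝ => |z.2| by fun_prop)
        continuous_const).mem_nhds (show |((t, 0) : ℝ × ℝ).2| < 1 by simp)] with z hz
      have : σ (Prod.map id sqi z) = z := Prod.ext rfl (Smo49.sq_sqi hz)
      simp only [comp_apply]
      rw [← q1, this]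
    · refine (hp (t, 0) ⟨c.le, h1, by simp⟩).congr ?_
      have : ((t, 0) : ℝ × ℝ) ∉ σ '' (closedBall (0 : ℝ × ℝ) 5 ∩ {x | |x.1| ≤ 1}) := by
        rintro ⟨x, hx, e⟩
        have : x.1 = t := congrArg Prod.fst e
        exact absurd hx.2 (not_le.2 (this ▸ c))
      filter_upwards [hK.isClosed.isOpen_compl.mem_nhds this] with y hy using congrArg H (q2 y hy)

end Crest.Agent.X212.Sm25
end

-- ▼ part X212/Sm25/Core
section

/-!
Row 212, layer H, package SM2 (helper25), part 2: rounding off a vertex of a PL homeomorphism of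
the plane (from the edge theorem of row 96 in the product with a line).
-/

set_option autoImplicit false
set_option linter.style.longLine false
set_option linter.unusedSectionVars false

open Set Metric Filter Topology MeasureTheory
open scoped NNReal ContDiff

namespace Crest.Agent.X212.Sm25

open Crest.Agent.R096.P5Spec_205 (HomeoOn MollAt EdgeGerm tubeMap Conic)

theorem det_block {E : Type*} [AddCommGroup E] [Module ℝ E] [Module.Finite ℝ E]
    (N : E × ℝ →ₗ[ℝ] E × ℝ) (hN : N (0, 1) = (0, 1)) :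
    LinearMap.det N = LinearMap.det (LinearMap.fst ℝ E ℝ ∘ₗ N ∘ₗ LinearMap.inl ℝ E ℝ) := by
  classical
  let b := Module.Free.chooseBasis ℝ E
  let c := Module.Basis.singleton Unit ℝ
  have : LinearMap.toMatrix (b.prod c) (b.prod c) N = Matrix.fromBlocks
      (LinearMap.toMatrix b b (LinearMap.fst ℝ E ℝ ∘ₗ N ∘ₗ LinearMap.inl ℝ E ℝ)) 0
      (Matrix.of fun _ j => (N (b j, 0)).2) 1 := by
    ext (i | i) (j | j) <;>
      simp [LinearMap.toMatrix_apply, Module.Basis.prod_apply, c, hN]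
  rw [← LinearMap.det_toMatrix (b.prod c), this, Matrix.det_fromBlocks_zero₁₂,
    LinearMap.det_toMatrix, Matrix.det_one, mul_one]

theorem det0 {E : Type*} [NormedAddCommGroup E] [NormedSpace ℝ E] [FiniteDimensional ℝ E]
    [Nontrivial E] : (0 : E →L[ℝ] E).det = 0 :=
  LinearMap.det_zero.trans (zero_pow Module.finrank_pos.ne')

variable {E : Type*} [NormedAddCommGroup E] [InnerProductSpace ℝ E] [MeasureSpace E]
  [BorelSpace E] [FiniteDimensional ℝ E] [(volume : Measure E).IsAddHaarMeasure]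
  {F : Type*} [NormedAddCommGroup F] [InnerProductSpace ℝ F] [MeasureSpace F]
  [BorelSpace F] [FiniteDimensional ℝ F] [(volume : Measure F).IsAddHaarMeasure]

/-- projection to the first factor -/
noncomputable def pr (Λ : F ≃L[ℝ] E × ℝ) : F →L[ℝ] E :=
  (ContinuousLinearMap.fst ℝ E ℝ).comp (Λ : F →L[ℝ] E × ℝ)
/-- height -/
noncomputable def ht (Λ : F ≃L[ℝ] E × ℝ) : F →L[ℝ] ℝ :=
  (ContinuousLinearMap.snd ℝ E ℝ).comp (Λ : F →L[ℝ] E × ℝ)
/-- inclusion of the first factor -/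
noncomputable def inc (Λ : F ≃L[ℝ] E × ℝ) : E →L[ℝ] F :=
  (Λ.symm : E × ℝ →L[ℝ] F).comp (ContinuousLinearMap.inl ℝ E ℝ)
/-- the vertical vector -/
noncomputable def ee (Λ : F ≃L[ℝ] E × ℝ) : F := Λ.symm (0, 1)

variable (Λ : F ≃L[ℝ] E × ℝ)

@[simp] theorem pr_inc (x : E) : pr Λ (inc Λ x) = x := by simp [pr, inc]
@[simp] theorem pr_ee : pr Λ (ee Λ) = 0 := by simp [pr, ee]
@[simp] theorem ht_inc (x : E) : ht Λ (inc Λ x) = 0 := by simp [ht, inc]
@[simp] theorem ht_ee : ht Λ (ee Λ) = 1 := by simp [ht, ee]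

theorem symm_eq (x : E) (s : ℝ) : Λ.symm (x, s) = inc Λ x + s • ee Λ := by
  simp [inc, ee, ← map_smul, ← map_add]

theorem split (y : F) : inc Λ (pr Λ y) + ht Λ y • ee Λ = y := by
  rw [← symm_eq]; exact Λ.symm_apply_apply y

theorem det_down {A : F →L[ℝ] F} (hA : A (ee Λ) = ee Λ) :
    A.det = ((pr Λ).comp (A.comp (inc Λ))).det := by
  have h1 := LinearMap.det_conj (A : F →ₗ[ℝ] F) Λ.toLinearEquiv
  rw [det_block _ (by
    have : Λ (A (Λ.symm (0, 1))) = (0, 1) := by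
      rw [show Λ.symm (0, 1) = ee Λ from rfl, hA]; exact Λ.apply_symm_apply _
    exact this)] at h1
  exact h1.symm

theorem pr_surj : Function.Surjective ((pr Λ : F →L[ℝ] E) : F →ₗ[ℝ] E) := fun x =>
  ⟨inc Λ x, pr_inc Λ x⟩

theorem meas_aux (Q : E → E) (x : E) (r : ℝ) {K : Set (E →L[ℝ] E)} (hK : IsCompact K) :
    MeasurableSet {z | z ∈ ball x r → fderiv ℝ Q z ∈ K} := by
  borelize (E →L[ℝ] E)
  have : {z | z ∈ ball x r → fderiv ℝ Q z ∈ K} = (ball x r)ᶜ ∪ fderiv ℝ Q ⁻¹' K := by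
    ext z; simp only [mem_ofPred_eq, mem_union, mem_compl_iff, mem_preimage]; tauto
  rw [this]
  exact measurableSet_ball.compl.union (measurable_fderiv ℝ Q hK.isClosed.measurableSet)

theorem moll_down {T : F → F} (hT : ∀ y (s : ℝ), T (y + s • ee Λ) = T y + s • ee Λ) {x₀ : E}
    (hm : MollAt T (inc Λ x₀)) : MollAt (fun x => pr Λ (T (inc Λ x))) x₀ := by
  obtain ⟨r, hr, K, k1, k2, k3, ⟨L, hL⟩, hae⟩ := hm
  have hne : Nontrivial F := ⟨ee Λ, 0, fun h => by simpa using congrArg (ht Λ) h⟩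
  obtain ⟨c, hc, hb⟩ : ∃ c > 0, ∀ x ∈ ball x₀ c, ∀ s : ℝ, |s| < c →
      inc Λ x + s • ee Λ ∈ ball (inc Λ x₀) r := by
    have h1 : ContinuousAt (fun p : E × ℝ => inc Λ p.1 + p.2 • ee Λ) (x₀, 0) := by fun_prop
    obtain ⟨c, hc, h2⟩ := Metric.mem_nhds_iff.1 (h1 (show ball (inc Λ x₀) r ∈ 𝓝 _ by
      simpa using ball_mem_nhds _ hr))
    refine ⟨c, hc, fun x hx s hs => h2 (a := (x, s)) ?_⟩
    rw [← ball_prod_same]
    exact ⟨hx, by simpa using hs⟩
  let D : (F →L[ℝ] F) →L[ℝ] (E →L[ℝ] E) :=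
    ((ContinuousLinearMap.compL ℝ E F E) (pr Λ)).comp
      ((ContinuousLinearMap.compL ℝ E F F).flip (inc Λ))
  have hD : ∀ A, D A = (pr Λ).comp (A.comp (inc Λ)) := fun _ => rfl
  have c1 : IsCompact (D '' (K ∩ {A | A (ee Λ) = ee Λ})) :=
    (k2.inter_right (isClosed_eq (by fun_prop) continuous_const)).image D.continuous
  refine ⟨c, hc, D '' (K ∩ {A | A (ee Λ) = ee Λ}), (k1.inter ?_).linear_image D.toLinearMap, c1,
    ?_, ⟨_, (pr Λ).lipschitz.comp_lipschitzOnWith (hL.comp (inc Λ).lipschitz.lipschitzOnWith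
      fun x hx => by simpa using hb x hx 0 (by simpa using hc))⟩, ?_⟩
  · intro A hA B hB a b _ _ hab
    simp only [mem_ofPred_eq] at hA hB ⊢
    rw [add_apply, smul_apply, smul_apply, hA, hB, ← add_smul, hab, one_smul]
  · rintro _ ⟨A, hA, rfl⟩
    rw [hD, ← det_down Λ hA.2]; exact k3 A hA.1
  refine (ae_comp_linearMap_mem_iff ((pr Λ : F →L[ℝ] E) : F →ₗ[ℝ] E) volume volume (pr_surj Λ)
    (meas_aux _ x₀ c c1)).1 ?_
  have h1 : ∀ᵐ y ∂(volume : Measure F), ∀ n : ℤ, y + (-(n * c)) • ee Λ ∈ ball (inc Λ x₀) r →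
      fderiv ℝ T (y + (-(n * c)) • ee Λ) ∈ K := ae_all_iff.2 fun n =>
    (measurePreserving_add_right (volume : Measure F) _).quasiMeasurePreserving.ae hae
  filter_upwards [h1] with y hy hx
  have hx' : pr Λ y ∈ ball x₀ c := hx
  have h2 := hy ⌊ht Λ y / c⌋ (by
    have a := Int.floor_le (ht Λ y / c)
    have b := Int.lt_floor_add_one (ht Λ y / c)
    rw [le_div_iff₀ hc] at a
    rw [div_lt_iff₀ hc] at b
    have := hb _ hx' (ht Λ y - ⌊ht Λ y / c⌋ * c) (by rw [abs_lt]; constructor <;> linarith)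
    rwa [sub_eq_add_neg, add_smul, ← add_assoc, split] at this)
  rw [← fderiv_comp_add_right] at h2
  simp only [hT, fderiv_add_const] at h2
  have hd : DifferentiableAt ℝ T y := by
    by_contra hn
    have := k3 _ h2
    rw [fderiv_zero_of_not_differentiableAt hn] at this
    exact this.ne' det0
  refine ⟨_, ⟨h2, ?_⟩, ?_⟩
  · have a1 : HasDerivAt (fun s : ℝ => y + s • ee Λ) (ee Λ) 0 := by
      simpa using ((hasDerivAt_id (0 : ℝ)).smul_const (ee Λ)).const_add y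
    have a2 : HasFDerivAt T (fderiv ℝ T y) (y + (0 : ℝ) • ee Λ) := by simpa using hd.hasFDerivAt
    have a3 := a2.comp_hasDerivAt (0 : ℝ) a1
    have a4 : HasDerivAt (fun s : ℝ => T y + s • ee Λ) (ee Λ) 0 := by
      simpa using ((hasDerivAt_id (0 : ℝ)).smul_const (ee Λ)).const_add (T y)
    exact a3.unique (by simpa only [Function.comp_def, hT] using a4)
  · have a2 : HasFDerivAt T (fderiv ℝ T y) (inc Λ (pr Λ y) + ht Λ y • ee Λ) := by
      rw [split]; exact hd.hasFDerivAt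
    have a3 := (pr Λ).hasFDerivAt.comp _
      (a2.comp (pr Λ y) ((inc Λ).hasFDerivAt.add_const (ht Λ y • ee Λ)))
    have a4 : HasFDerivAt (fun x => pr Λ (T (inc Λ x))) (D (fderiv ℝ T y)) (pr Λ y) := by
      simpa [Function.comp_def, hT, hD] using a3
    exact a4.fderiv.symm

theorem moll_up {Q : E → E} {y : F} (hm : MollAt Q (pr Λ y)) :
    MollAt (fun z => inc Λ (Q (pr Λ z)) + ht Λ z • ee Λ) y := by
  obtain ⟨r, hr, K, k1, k2, k3, ⟨L, hL⟩, hae⟩ := hm
  obtain ⟨c, hc, hb⟩ := Metric.mem_nhds_iff.1 ((pr Λ).continuous.continuousAt (x := y)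
    (ball_mem_nhds _ hr))
  let D : (E →L[ℝ] E) →L[ℝ] (F →L[ℝ] F) :=
    ((ContinuousLinearMap.compL ℝ F E F) (inc Λ)).comp
      ((ContinuousLinearMap.compL ℝ F E E).flip (pr Λ))
  have hD : ∀ A, D A = (inc Λ).comp (A.comp (pr Λ)) := fun _ => rfl
  let V : F →L[ℝ] F := (ht Λ).smulRight (ee Λ)
  have hdet : ∀ B, (V + D B).det = B.det := fun B => by
    rw [det_down Λ (by simp [V, hD])]
    congr 1
    ext x
    simp [V, hD]
  refine ⟨c, hc, (fun A => V + A) '' (D '' K), (k1.linear_image D.toLinearMap).translate V,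
    (k2.image D.continuous).image (by fun_prop), ?_,
    ⟨_, ((inc Λ).lipschitz.comp_lipschitzOnWith (hL.comp (pr Λ).lipschitz.lipschitzOnWith
      hb)).add V.lipschitz.lipschitzOnWith⟩, ?_⟩
  · rintro _ ⟨_, ⟨B, hB, rfl⟩, rfl⟩
    rw [hdet]; exact k3 B hB
  have h1 := (ae_comp_linearMap_mem_iff ((pr Λ : F →L[ℝ] E) : F →ₗ[ℝ] E) volume volume (pr_surj Λ)
    (meas_aux Q _ r k2)).2 hae
  filter_upwards [h1] with z hz hzb
  have h2 : fderiv ℝ Q (pr Λ z) ∈ K := hz (hb hzb)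
  refine ⟨_, ⟨_, h2, rfl⟩, ?_⟩
  have hd : DifferentiableAt ℝ Q (pr Λ z) := by
    rcases subsingleton_or_nontrivial E with h | h
    · exact (differentiableAt_const (Q (pr Λ z))).congr_of_eventuallyEq
        (Eventually.of_forall fun w => Subsingleton.elim _ _)
    by_contra hn
    have := k3 _ h2
    rw [fderiv_zero_of_not_differentiableAt hn] at this
    exact this.ne' det0
  have a3 := ((inc Λ).hasFDerivAt.comp _ (hd.hasFDerivAt.comp z (pr Λ).hasFDerivAt)).add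
    V.hasFDerivAt
  exact (add_comm _ _).trans a3.fderiv.symm

theorem core_aux (h3 : Module.finrank ℝ F = 3) (hi : ∀ y, inner ℝ (ee Λ) y = ht Λ y)
    (hn : ∀ x, ‖inc Λ x‖ = ‖x‖) {K : E → E} (hK : IsHomeomorph K) (hc : Conic K)
    (hpl : ∃ S : Finset (E →L[ℝ] E), ∀ x, ∃ A ∈ S, K x = A x) (hm : ∀ x, x ≠ 0 → MollAt K x) :
    ∃ Φ : E → E, IsHomeomorph Φ ∧ (∀ x, 1 ≤ ‖x‖ → Φ x = K x) ∧ ∀ x, MollAt Φ x := by
  classical
  let H : F → F := fun z => inc Λ (K (pr Λ z)) + ht Λ z • ee Λ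
  have K0 : K 0 = 0 := by simpa using hc 0 le_rfl 0
  have He : H (ee Λ) = ee Λ := by simp [H, K0]
  have g : EdgeGerm H (ee Λ) := by
    refine ⟨?_, ?_, fun c c0 z => ?_, fun z s => ?_, ?_, fun z hz => moll_up Λ (hm _ fun h => ?_)⟩
    · have := hi (ee Λ)
      rw [real_inner_self_eq_norm_sq, ht_ee] at this
      exact (pow_eq_one_iff_of_nonneg (norm_nonneg _) two_ne_zero).1 this
    · have : H = Λ.symm ∘ Prod.map K id ∘ Λ := funext fun z => (symm_eq Λ _ _).symm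
      rw [this]
      exact Λ.symm.toHomeomorph.isHomeomorph.comp
        ((hK.prodMap IsHomeomorph.id).comp Λ.toHomeomorph.isHomeomorph)
    · simp only [H, map_smul, hc c c0, smul_add, smul_smul, smul_eq_mul]
    · rw [He]; simp [H, add_smul, add_assoc]
    · obtain ⟨S, hS⟩ := hpl
      refine ⟨S.image fun B => (inc Λ).comp (B.comp (pr Λ)) + (ht Λ).smulRight (ee Λ), fun z => ?_⟩
      obtain ⟨A, hA, e⟩ := hS (pr Λ z)
      exact ⟨_, Finset.mem_image_of_mem _ hA, by simp [H, e]⟩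
    · exact hz (ht Λ z) (by rw [← split Λ z, h]; simp)
  obtain ⟨ε, ε0, C, Q, q1, q2⟩ := R096.Ed_276.edge_germ g h3
  obtain ⟨t1, -, t3⟩ := q2 (fun _ => 1) (fun _ => zero_le_one) fun s t => by
    simpa using mul_nonneg ε0.le (abs_nonneg _)
  set T := tubeMap H Q (ee Λ) fun _ => 1 with hT
  have e1 : ∀ y, T y = ht Λ y • ee Λ + Q (inc Λ (pr Λ y)) := fun y => by
    have : y - ht Λ y • ee Λ = inc Λ (pr Λ y) := by rw [sub_eq_iff_eq_add, split]
    simp [hT, tubeMap, hi, He, this]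
  have e2 : ∀ y (s : ℝ), T (y + s • ee Λ) = T y + s • ee Λ := fun y s => by
    simp only [e1, map_add, map_smul, pr_ee, ht_ee, smul_zero, add_zero, smul_eq_mul, mul_one,
      add_smul]
    abel
  have e3 : ∀ y, pr Λ (T (inc Λ (pr Λ y))) = pr Λ (T y) := fun y => by simp [e1]
  let Θ := t1.homeomorph T
  have e4 : ∀ y, Θ y = T y := fun _ => rfl
  refine ⟨fun x => pr Λ (T (inc Λ x)), ?_, fun x hx => ?_, fun x => moll_down Λ e2 (t3 _ one_pos)⟩
  · refine isHomeomorph_iff_exists_inverse.2 ⟨by have := t1.continuous; fun_prop,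
      fun x => pr Λ (Θ.symm (inc Λ x)), fun x => ?_, fun x => ?_, by fun_prop⟩
    · have : Θ (inc Λ x + (-ht Λ (T (inc Λ x))) • ee Λ) = inc Λ (pr Λ (T (inc Λ x))) := by
        rw [e4, e2, neg_smul, ← sub_eq_add_neg, sub_eq_iff_eq_add, split]
      show pr Λ (Θ.symm (inc Λ (pr Λ (T (inc Λ x))))) = x
      rw [← this, Θ.symm_apply_apply]; simp
    · show pr Λ (T (inc Λ (pr Λ (Θ.symm (inc Λ x))))) = x
      rw [e3, ← e4, Θ.apply_symm_apply, pr_inc]
  · show pr Λ (T (inc Λ x)) = K x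
    rw [e1, pr_inc, q1 _ (by rw [hi, ht_inc]) (by rwa [hn])]
    simp [H]

/-- **rounding off a vertex in the plane** -/
theorem core2 (h2 : Module.finrank ℝ E = 2) {K : E → E} (hK : IsHomeomorph K) (hc : Conic K)
    (hpl : ∃ S : Finset (E →L[ℝ] E), ∀ x, ∃ A ∈ S, K x = A x) (hm : ∀ x, x ≠ 0 → MollAt K x) :
    ∃ Φ : E → E, IsHomeomorph Φ ∧ (∀ x, 1 ≤ ‖x‖ → Φ x = K x) ∧ ∀ x, MollAt Φ x := by
  let Λ : WithLp 2 (E × ℝ) ≃L[ℝ] E × ℝ := WithLp.prodContinuousLinearEquiv 2 ℝ E ℝ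
  refine core_aux Λ ?_ (fun y => ?_) (fun x => ?_) hK hc hpl hm
  · rw [Λ.toLinearEquiv.finrank_eq, Module.finrank_prod, h2, Module.finrank_self]
  · simp [ee, ht, Λ, WithLp.prod_inner_apply]
  · simp [inc, Λ]

end Crest.Agent.X212.Sm25
end

-- ▼ part X212/Sm25/Stage
section

/-!
Row 212, layer H, package SM2 (helper25), part 3: smooth handle straightening from piecewise affine
handle straightening in the plane.
-/

set_option autoImplicit false
set_option linter.style.longLine false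
set_option linter.unusedSectionVars false

open Set Metric Filter Topology MeasureTheory
open scoped NNReal ContDiff

namespace Crest.Agent.X212.Sm25

open Crest.Agent.R096.P5Spec_205 (HomeoOn MollAt)
open Crest.Agent.R096.Str_696 (LocPL AffAt Sg)
open Crest.Agent.R096.Germ_879 (germ Tan VSet crad LocConical)
open Crest.Agent.X212.Smo49 hiding pert plize rm stage stage_pos moll_of_pos wrap

variable {E : Type*} [NormedAddCommGroup E] [InnerProductSpace ℝ E] [MeasureSpace E]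
  [BorelSpace E] [FiniteDimensional ℝ E] [(volume : Measure E).IsAddHaarMeasure]
  {ρ : E ≃L[ℝ] E}

theorem stage_pos (h2 : Module.finrank ℝ E = 2) {h : E → E} {Om La P L Q N : Set E}
    (hOm : IsOpen Om) (hLa : IsOpen La) (hh : HomeoOn h Om La) (hP : IsOpen P) (hPO : P ⊆ Om)
    (hPL : LocPL h P) (hdet : ∀ y ∈ P, ∀ A : E →L[ℝ] E, AffAt h y A → 0 < A.det)
    (hL : IsCompact L) (hLP : L ⊆ P) (hQ : IsOpen Q) (hQL : Q ⊆ L)
    (hN : IsClosed N) (hNm : ∀ x ∈ N, x ∈ Q → MollAt h x) :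
    ∃ g : E → E, HomeoOn g Om La ∧ (∀ x ∈ Q, MollAt g x) ∧ (∀ x ∉ Q, g x = h x) ∧
      ∀ x ∈ N, g x = h x := by
  have hc := R096.Germ_879.locConical_of_locPL hPL
  have hco : ContinuousOn h P := hh.cont.mono hPO
  have hmoll : ∀ p ∈ P, p ∉ VSet h P → MollAt h p := fun p hp hV =>
    R096.Germ_879.mollAt_of_codim_le_one hP hc hco
      (fun y hy A hA => hdet y hy A ((hc.conAt hy).affAt_iff.2 hA)) hp (by
        have : Module.finrank ℝ (Tan h p) ≠ 0 := fun h0 => hV ⟨hp, h0⟩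
        omega)
  obtain ⟨k, H⟩ := R096.Germ_879.exists_homeoOn hP (isOpen_image hLa hh hP hPO) (restrict hh hPO)
  set V : Set E := Q ∩ {p | ¬ MollAt h p} with hV
  have hVP : V ⊆ P := fun x hx => hLP (hQL hx.1)
  have hVV : V ⊆ VSet h P := fun x hx => by
    by_contra hn
    exact hx.2 (hmoll x (hVP hx) hn)
  have hfin : V.Finite := by
    choose! r hr hr' using fun q (hq : q ∈ P) => R096.Germ_879.VSet_isolated hP hc hq
    obtain ⟨t, ht, ht'⟩ := hL.elim_nhds_subcover (fun q => ball q (r q))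
      fun q hq => ball_mem_nhds q (hr q (hLP hq))
    refine t.finite_toSet.subset fun x hx => ?_
    obtain ⟨q, hq, hxq⟩ := mem_iUnion₂.1 (ht' (hQL hx.1))
    have : x = q := hr' q (hLP (ht q hq)) ⟨hxq, hVV hx⟩
    exact this ▸ hq
  have hΦ : ∀ v ∈ V, ∃ Φ : E → E, IsHomeomorph Φ ∧ (∀ x, 1 ≤ ‖x‖ → Φ x = germ h v x) ∧
      ∀ x, MollAt Φ x := fun p hp => by
    have hp' := hVP hp
    refine core2 h2 (H.germHomeo hp' (hc.conAt hp')).isHomeomorph (hc.conAt hp').posHom ?_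
      fun x hx => ?_
    · obtain ⟨S, hS, -⟩ := R096.Germ_879.germ_selection hP hc hco hp' one_pos
      exact ⟨S, hS⟩
    have hcr := R096.Germ_879.crad_pos hP hp' (hc.conAt hp')
    set t : ℝ := crad h P p / (2 * (1 + ‖x‖)) with ht
    have hn := norm_nonneg x
    have ht0 : 0 < t := by positivity
    have htx : t * ‖x‖ < crad h P p / 2 := by
      rw [ht, div_mul_eq_mul_div, div_lt_div_iff₀ (by positivity) two_pos]
      nlinarith
    have htx' : ‖t • x‖ < crad h P p / 2 := by rwa [norm_smul, Real.norm_of_nonneg ht0.le]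
    have hmem : p + t • x ∈ P := R096.Germ_879.add_mem_of_lt_crad (h := h) (by linarith)
    have h3 : MollAt h (p + t • x) := hmoll _ hmem fun hZ => by
      have := R096.Germ_879.vertex_isolated hc (x := p) (y := p + t • x)
        (by rw [add_sub_cancel_left]; linarith) (Submodule.finrank_eq_zero.1 hZ.2)
      rw [add_eq_left, smul_eq_zero] at this
      exact this.elim ht0.ne' hx
    refine R096.Germ_879.MollAt.of_smul (hc.conAt hp').posHom ht0 ?_
    refine R096.Germ_879.MollAt.transport (r := crad h P p / 2) (c := -h p) (by linarith) h3 ?_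
    intro v hv
    have h4 : ‖t • x + v‖ < crad h P p := by
      have := norm_add_le (t • x) v
      linarith
    rw [add_assoc, R096.Germ_879.apply_add_of_lt_crad h4]
    abel
  choose! Φ Φ1 Φ2 Φ3 using hΦ
  have hT : ∀ v ∈ V, ∃ t > 0, ball v t ⊆ Q \ N := fun v hv =>
    Metric.isOpen_iff.1 (hQ.sdiff hN) v ⟨hv.1, fun h' => hv.2 (hNm v h' hv.1)⟩
  choose! t t0 ht using hT
  have hcr : ∀ v ∈ V, 0 < crad h P v := fun v hv =>
    R096.Germ_879.crad_pos hP (hVP hv) (hc.conAt (hVP hv))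
  obtain ⟨σ, s1, s2, s3, s4⟩ := R096.StV_119.exists_rho (V := V)
    (t := fun v => min (t v) (crad h P v / 2)) hOm (fun x _ => by
      obtain ⟨r, hr, hb⟩ := Metric.isOpen_iff.1
        (hfin.subset (sdiff_subset (t := {x}))).isClosed.isOpen_compl x (by simp)
      refine ⟨r, hr, fun y hy => ?_⟩
      by_contra hn
      exact hb hy.1 ⟨hy.2, hn⟩) fun v hv => lt_min (t0 v hv) (half_pos (hcr v hv))
  have I : R096.StV_119.Ins h Om La V (germ h) Φ (crad h P) σ :=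
    { openOm := hOm, openLa := hLa, hh := hh, sub := hVP.trans hPO
      r_ball := fun v _ => (R096.Germ_879.ball_crad_subset h P v).trans hPO
      germ := fun v _ u hu => R096.Germ_879.apply_add_of_lt_crad hu
      Kh := fun v hv => (H.germHomeo (hVP hv) (hc.conAt (hVP hv))).isHomeomorph
      conic := fun v hv => (hc.conAt (hVP hv)).posHom
      Φh := Φ1, Φout := Φ2, ρ_pos := s1, ρ_lip := s2, ρ_sub := s4
      ρ_lt := fun v hv => by
        linarith [(s3 v hv (hPO (hVP hv))).trans (min_le_right _ _), hcr v hv] }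
  have key : ∀ x, x ∉ Q \ N → R096.StV_119.h3 h V Φ σ x = h x := fun x hx =>
    R096.StV_119.Ins.h3_out fun ⟨v, hv, hxv⟩ => hx (ht v hv (by
      rw [mem_ball, dist_eq_norm]
      exact hxv.trans_le ((s3 v hv (hPO (hVP hv))).trans (min_le_left _ _))))
  refine ⟨_, I.homeoOn, fun x hx => ?_, fun x hx => key x fun h' => hx h'.1,
    fun x hx => key x fun h' => h'.2 hx⟩
  have hxO := hPO (hLP (hQL hx))
  by_cases hc : ∃ w ∈ V, ‖x - w‖ ≤ σ w
  · obtain ⟨v, hv, hxv⟩ := hc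
    exact moll_congr (I.moll_model hv (Φ3 v hv) x) (I.h3_model hv hxv)
  · push Not at hc
    refine moll_congr ?_ (I.h3_far hxO hc)
    by_contra hn
    have h1 := hc x ⟨hx, hn⟩
    rw [sub_self, norm_zero] at h1
    linarith [s1 x hxO]

theorem locPL_lin (ρ : E ≃L[ℝ] E) {h : E → E} {P : Set E} (hh : LocPL h P) :
    LocPL (fun x => ρ (h x)) P := by
  classical
  intro x hx
  obtain ⟨r, hr, S, hc, hS⟩ := hh x hx
  refine ⟨r, hr, S.image fun a => (ρ : E →ₗ[ℝ] E).toAffineMap.comp a,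
    ρ.continuous.comp_continuousOn hc, fun y hy => ?_⟩
  obtain ⟨a, ha, e⟩ := hS y hy
  exact ⟨_, Finset.mem_image_of_mem _ ha, by simp [e]⟩

theorem affAt_lin (ρ : E ≃L[ℝ] E) {h : E → E} {x : E} {A : E →L[ℝ] E} (hA : AffAt h x A) :
    AffAt (fun x => ρ (h x)) x ((ρ : E →L[ℝ] E).comp A) := by
  refine Filter.Eventually.mono hA fun y hy => ?_
  simp [hy]

theorem moll_of_pos {h : E → E} {P : Set E} (hPL : LocPL h P)
    {x : E} (hx : x ∈ P) (hs : ∀ᶠ y in 𝓝 x, ∀ A, AffAt h y A → 0 < A.det) {g : E → E}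
    (hg : ∀ y, MollAt h y → MollAt g y → False) (hm : MollAt h x ∨ MollAt g x) : MollAt h x := by
  refine hm.resolve_right fun hn => ?_
  obtain ⟨y, ⟨A, hA⟩, h1, h2⟩ := ((hPL.frequently_aff hx).and_eventually (hs.and (moll_ev hn))).exists
  exact hg y (moll_of_aff hA (h1 A hA)) h2

theorem stage (h2 : Module.finrank ℝ E = 2) (hρ : (ρ : E →L[ℝ] E).det < 0) {h : E → E}
    {Om La P L Q N : Set E} (hOm : IsOpen Om) (hLa : IsOpen La) (hh : HomeoOn h Om La)
    (hP : IsOpen P) (hPO : P ⊆ Om) (hPL : LocPL h P) (hL : IsCompact L) (hLP : L ⊆ P)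
    (hQ : IsOpen Q) (hQL : Q ⊆ L) (hN : IsClosed N) (hNm : ∀ x ∈ N, x ∈ Q → SM ρ h x) :
    ∃ g : E → E, HomeoOn g Om La ∧ (∀ x ∈ Q, SM ρ g x) ∧ (∀ x ∉ Q, g x = h x) ∧
      ∀ x ∈ N, g x = h x := by
  have hi : InjOn h P := hh.bij.injOn.mono hPO
  have s1 := R096.Str_696.isOpen_Sg (E := E) 1 h
  have s2 := R096.Str_696.isOpen_Sg (E := E) (-1) h
  have o1 : IsOpen (P ∩ Sg 1 h) := hP.inter s1
  have o2 : IsOpen (P ∩ Sg (-1) h) := hP.inter s2
  have dj : ∀ x ∈ P, x ∈ Sg 1 h → x ∉ Sg (-1) h := fun x hx a b => R096.Str_696.Sg_disj hPL hx a b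
  have cv : ∀ x ∈ P, x ∈ Sg 1 h ∨ x ∈ Sg (-1) h := fun x hx => R096.Str_696.mem_Sg hP hPL hi hx
  have hQP : Q ⊆ P := hQL.trans hLP
  have d1 : ∀ y ∈ P ∩ Sg 1 h, ∀ A : E →L[ℝ] E, AffAt h y A → 0 < A.det := fun y hy A hA => by
    have := (show ∀ᶠ z in 𝓝 y, ∀ A, AffAt h z A → 0 < 1 * A.det from hy.2).self_of_nhds A hA
    linarith
  obtain ⟨g, g1, g2, g3, g4⟩ := stage_pos h2 hOm hLa hh o1 (inter_subset_left.trans hPO)
    (fun x hx => hPL x hx.1) d1 (hL.diff s2)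
    (fun x hx => ⟨hLP hx.1, (cv x (hLP hx.1)).resolve_right hx.2⟩) (hQ.inter s1)
    (fun x hx => ⟨hQL hx.1, dj x (hQP hx.1) hx.2⟩) hN fun x hxN hx => moll_of_pos hPL (hQP hx.1)
      (by filter_upwards [o1.mem_nhds ⟨hQP hx.1, hx.2⟩] with y hy using d1 y hy)
      (fun _ => moll_not_both hρ) (hNm x hxN hx.1)
  have e2 : ∀ x ∈ P ∩ Sg (-1) h, g x = h x := fun x hx => g3 x fun h' => dj x hx.1 h'.2 hx.2
  have e2' : ∀ x ∈ P ∩ Sg (-1) h, g =ᶠ[𝓝 x] h := fun x hx => by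
    filter_upwards [o2.mem_nhds hx] with y hy using e2 y hy
  have pl2 : LocPL (fun x => ρ (g x)) (P ∩ Sg (-1) h) :=
    locPL_lin ρ (locPL_congr o2 (fun x hx => hPL x hx.1) e2)
  have d2 : ∀ y ∈ P ∩ Sg (-1) h, ∀ A : E →L[ℝ] E, AffAt (fun x => ρ (g x)) y A → 0 < A.det := by
    intro y hy A hA
    have h1 : AffAt h y ((ρ.symm : E →L[ℝ] E).comp A) := by
      refine affAt_congr (affAt_lin ρ.symm hA) ?_
      filter_upwards [e2' y hy] with z hz
      rw [ρ.symm_apply_apply, hz]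
    have := (show ∀ᶠ z in 𝓝 y, ∀ A, AffAt h z A → 0 < (-1) * A.det from hy.2).self_of_nhds _ h1
    rw [det_comp] at this
    by_contra hn
    nlinarith [det_symm_neg hρ, not_lt.1 hn]
  obtain ⟨f, f1, f2, f3, f4⟩ := stage_pos h2 hOm (isOpen_lin ρ hLa) (homeo_lin ρ g1) o2
    (inter_subset_left.trans hPO) pl2 d2 (hL.diff s1)
    (fun x hx => ⟨hLP hx.1, (cv x (hLP hx.1)).resolve_left hx.2⟩) (hQ.inter s2)
    (fun x hx => ⟨hQL hx.1, fun h' => dj x (hQP hx.1) h' hx.2⟩) hN fun x hxN hx =>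
      moll_of_pos pl2 ⟨hQP hx.1, hx.2⟩
        (by filter_upwards [o2.mem_nhds ⟨hQP hx.1, hx.2⟩] with y hy using d2 y hy)
        (fun _ a b => moll_not_both hρ b a)
        ((hNm x hxN hx.1).congr (e2' x ⟨hQP hx.1, hx.2⟩)).symm
  refine ⟨fun x => ρ.symm (f x), homeo_lin' ρ f1, fun x hx => ?_, fun x hx => ?_, fun x hx => ?_⟩
  · rcases cv x (hQP hx) with h1 | h1
    · refine Or.inl (moll_congr (g2 x ⟨hx, h1⟩) ?_)
      filter_upwards [o1.mem_nhds ⟨hQP hx, h1⟩] with y hy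
      rw [f3 y fun h' => dj y hy.1 hy.2 h'.2, ρ.symm_apply_apply]
    · exact Or.inr (by simpa only [ρ.apply_symm_apply] using f2 x ⟨hx, h1⟩)
  · show ρ.symm (f x) = h x
    rw [f3 x fun h' => hx h'.1, ρ.symm_apply_apply, g3 x fun h' => hx h'.1]
  · show ρ.symm (f x) = h x
    rw [f4 x hx, ρ.symm_apply_apply, g4 x hx]

theorem exists_refl (h2 : Module.finrank ℝ E = 2) : ∃ ρ : E ≃L[ℝ] E, (ρ : E →L[ℝ] E).det < 0 := by
  have : Nontrivial E := Module.nontrivial_of_finrank_eq_succ h2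
  obtain ⟨v, hv⟩ := exists_ne (0 : E)
  refine ⟨((ℝ ∙ v)ᗮ.reflection).toContinuousLinearEquiv, ?_⟩
  have := Submodule.det_reflection (𝕜 := ℝ) (ℝ ∙ v)ᗮ
  rw [Submodule.orthogonal_orthogonal, finrank_span_singleton hv] at this
  have e : (((ℝ ∙ v)ᗮ.reflection).toContinuousLinearEquiv : E →L[ℝ] E).det = (-1) ^ 1 := this
  rw [e]; norm_num

/-- **Smooth handle straightening from the piecewise affine one**, in the plane. -/
theorem wrap (h2 : Module.finrank ℝ E = 2) {h : E → E}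
    {Om La U W C D : Set E} (hOm : IsOpen Om) (hLa : IsOpen La) (hU : IsOpen U) (hW : IsOpen W)
    (hUO : U ⊆ Om) (hC : IsCompact C) (hCU : C ⊆ U) (hD : IsCompact D) (hDW : D ⊆ W ∪ U)
    (hh : HomeoOn h Om La) (hs : SmOn h U) (H : HPL Om La W C D) :
    ∃ h' : E → E, HomeoOn h' Om La ∧
      (∃ K, IsCompact K ∧ K ⊆ W ∪ U ∧ ∀ x ∈ Om \ K, h' x = h x) ∧
      ∃ O, IsOpen O ∧ D ∪ (U \ W) ⊆ O ∧ O ⊆ Om ∧ SmOn h' O := by
  have : Nontrivial E := Module.nontrivial_of_finrank_eq_succ h2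
  obtain ⟨ρ, hρ⟩ := exists_refl h2
  obtain ⟨h1, K1, V, a1, a2, a3, a4, a5, a6, a7, a8⟩ := plize hρ hOm hLa hh hU hUO hs hC hCU
  obtain ⟨h2', b1, ⟨K, b2, b3, b4⟩, P, b5, b6, b7, b8⟩ := H h1 a1 ⟨V, a6, a7, a8⟩
  obtain ⟨L, hL, hDL, hLP⟩ := exists_compact_between hD (b5.inter (hW.union hU))
    (subset_inter b6 hDW)
  have hM : IsOpen (U \ K) := hU.sdiff b2.isClosed
  have hM2 : ∀ x ∈ U \ K, SM ρ h2' x := fun x hx => (a5 x hx.1).congr (by
    filter_upwards [hM.mem_nhds hx] with y hy using b4 y ⟨hUO hy.1, hy.2⟩)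
  have hT : IsCompact (L \ W) := hL.diff hW
  have hTM : L \ W ⊆ U \ K := fun x hx =>
    ⟨((hLP hx.1).2).resolve_left hx.2, fun h' => hx.2 (b3 h')⟩
  obtain ⟨N, hN, hTN, hNM⟩ := exists_compact_between hT hM hTM
  have hLO : L ⊆ Om := fun x hx => b7 (hLP hx).1
  obtain ⟨h3, c1, c2, c3, c4⟩ := stage h2 hρ hOm hLa b1 b5 b7 b8 hL (fun x hx => (hLP hx).1)
    isOpen_interior interior_subset hN.isClosed fun x hx _ => hM2 x (hNM hx)
  have c3' : ∀ x ∉ L, h3 x = h2' x := fun x hx => c3 x fun h' => hx (interior_subset h')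
  set O : Set E := interior L ∪ ((U \ K) \ L) ∪ interior N with hO
  have oO : IsOpen O := (isOpen_interior.union (hM.sdiff hL.isClosed)).union isOpen_interior
  have hOO : O ⊆ Om := by
    rintro x ((hx | hx) | hx)
    exacts [hLO (interior_subset hx), hUO hx.1.1, hUO (hNM (interior_subset hx)).1]
  have hOm3 : ∀ x ∈ O, SM ρ h3 x := by
    rintro x ((hx | hx) | hx)
    · exact c2 x hx
    · refine (hM2 x hx.1).congr ?_
      filter_upwards [hL.isClosed.isOpen_compl.mem_nhds hx.2] with y hy using c3' y hy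
    · refine (hM2 x (hNM (interior_subset hx))).congr ?_
      filter_upwards [isOpen_interior.mem_nhds hx] with y hy using c4 y (interior_subset hy)
  have hOQ : ∀ x ∈ O \ (K1 ∪ L), x ∈ U ∧ h3 x = h x := by
    rintro x ⟨hx, hx'⟩
    have h4 : x ∉ L := fun h' => hx' (Or.inr h')
    have h5 : x ∈ U \ K := by
      rcases hx with (hx | hx) | hx
      exacts [(h4 (interior_subset hx)).elim, hx.1, hNM (interior_subset hx)]
    exact ⟨h5.1, by rw [c3' x h4, b4 x ⟨hUO h5.1, h5.2⟩, a4 x fun h' => hx' (Or.inl h')]⟩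
  obtain ⟨g, K2, d1, d2, d3, d4, -, d6⟩ := rm hρ hLa c1 oO hOO hOm3 (a2.union hL) (hW.union hU)
    (union_subset (a3.trans subset_union_right) fun x hx => (hLP hx).2)
    ((hs.1.mono fun x hx => (hOQ x hx).1).congr fun x hx => (hOQ x hx).2)
  refine ⟨g, d1, ⟨K1 ∪ K ∪ L ∪ K2, ((a2.union b2).union hL).union d3, ?_, fun x hx => ?_⟩, O, oO,
    ?_, hOO, d2⟩
  · exact union_subset (union_subset (union_subset (a3.trans subset_union_right)
      (b3.trans subset_union_left)) fun x hx => (hLP hx).2) d4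
  · have h4 := hx.2
    simp only [mem_union, not_or] at h4
    rw [d6 x h4.2, c3' x h4.1.2, b4 x ⟨hx.1, h4.1.1.2⟩, a4 x h4.1.1.1]
  · rintro x (hx | hx)
    · exact Or.inl (Or.inl (hDL hx))
    · by_cases hxL : x ∈ L
      · exact Or.inr (hTN ⟨hxL, hx.2⟩)
      · exact Or.inl (Or.inr ⟨⟨hx.1, fun h' => hx.2 (b3 h')⟩, hxL⟩)

end Crest.Agent.X212.Sm25
end

-- ▼ part X212/Sm25/HS
section

/-!
Row 212, layer H, package SM2 (helper25), part 6: smooth handle straightening in the plane,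
indices one and two.
-/

set_option autoImplicit false
set_option linter.style.longLine false

open Set Metric Filter Topology Function
open scoped ContDiff Manifold

noncomputable section

namespace Crest.Agent.X212.Sm25

open Crest.Agent.R096.P5Spec_205 (HomeoOn)
open Crest.Agent.X212.Glue52 Crest.Agent.X212.Lad50
open Crest.Agent.X212.Smo49 (PLAt plAt_of_univ str_iff SmOn HPL)

/-- the Euclidean plane -/
abbrev E2 : Type := EuclideanSpace ℝ (Fin 2)

/-- local diffeomorphism of the plane -/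
abbrev LD (h : E2 → E2) (x : E2) : Prop := IsLocalDiffeomorphAt 𝓘(ℝ, E2) 𝓘(ℝ, E2) ∞ h x

theorem isOpen_ld {EM : Type*} [NormedAddCommGroup EM] [NormedSpace ℝ EM] {HM : Type*}
    [TopologicalSpace HM] {I : ModelWithCorners ℝ EM HM} {M : Type*} [TopologicalSpace M]
    [ChartedSpace HM M] {EN : Type*} [NormedAddCommGroup EN] [NormedSpace ℝ EN] {HN : Type*}
    [TopologicalSpace HN] {J : ModelWithCorners ℝ EN HN} {N : Type*} [TopologicalSpace N]
    [ChartedSpace HN N] (f : M → N) : IsOpen {x | IsLocalDiffeomorphAt I J ∞ f x} := by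
  refine isOpen_iff_mem_nhds.2 fun x ⟨Φ, hx, e⟩ => ?_
  filter_upwards [Φ.open_source.mem_nhds hx] with y hy using ⟨Φ, hy, e⟩

theorem ld_of_smOn {h : E2 → E2} {O : Set E2} (hO : IsOpen O) (H : SmOn h O) {x : E2}
    (hx : x ∈ O) : LD h x := by
  have hd : DifferentiableAt ℝ h x := (H.1.contDiffAt (hO.mem_nhds hx)).differentiableAt (by simp)
  exact ld_of_fderiv hO hx H.1 ((fderiv ℝ h x).toContinuousLinearEquivOfDetNeZero (H.2 x hx))
    (by simpa using hd.hasFDerivAt)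

theorem smOn_ld (h : E2 → E2) : SmOn h {x | LD h x} := by
  refine ⟨fun x hx => (contMDiffAt_iff_contDiffAt.1 hx.contMDiffAt).contDiffWithinAt, fun x H => ?_⟩
  have H : LD h x := H
  have e2 := H.mfderivToContinuousLinearEquiv_coe (by simp)
  rw [mfderiv_eq_fderiv] at e2
  rw [← e2]
  exact (H.mfderivToContinuousLinearEquiv (by simp)).toLinearEquiv.isUnit_det'.ne_zero

theorem homeoOn_of_emb {h : E2 → E2} (hh : IsOpenEmbedding h) : HomeoOn h univ (range h) := by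
  refine ⟨⟨fun x _ => mem_range_self x, hh.injective.injOn, by simp [SurjOn]⟩,
    hh.continuous.continuousOn, (hh.toOpenPartialHomeomorph h).symm, ?_,
    fun x _ => hh.toOpenPartialHomeomorph_left_inv h⟩
  have := (hh.toOpenPartialHomeomorph h).continuousOn_symm
  rwa [IsOpenEmbedding.toOpenPartialHomeomorph_target] at this

theorem emb_of_homeoOn {h : E2 → E2} {La : Set E2} (H : HomeoOn h univ La) :
    IsOpenEmbedding h ∧ range h = La :=
  have h1 := continuousOn_univ.1 H.cont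
  have h2 := injOn_univ.1 H.bij.injOn
  ⟨.of_continuous_injective_isOpenMap h1 h2 (R105.Iod1_690.isOpenMap_fd rfl h1 h2),
    by rw [← image_univ, H.bij.image_eq]⟩

theorem exists_homeo {X Y Z : Type*} [TopologicalSpace X] [TopologicalSpace Y] [TopologicalSpace Z]
    {f : Y → Z} {g : X → Z} (hf : IsEmbedding f) (hg : IsEmbedding g) (e : range g = range f) :
    ∃ ψ : X ≃ₜ Y, ∀ x, f (ψ x) = g x := by
  refine ⟨(hg.toHomeomorph.trans (Homeomorph.setCongr e)).trans hf.toHomeomorph.symm, fun x => ?_⟩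
  exact congrArg Subtype.val (hf.toHomeomorph.apply_symm_apply _)

theorem hj_of (L : E2 ≃L[ℝ] ℝ × ℝ) {C D : Set (ℝ × ℝ)} (hC : IsCompact C) (hD : IsCompact D)
    (P : PLS C D) {h : E2 → E2} (hh : IsOpenEmbedding h) (hCU : ∀ x, L x ∈ C → LD h x)
    (hDW : ∀ x, L x ∈ D → L x ∈ ball 0 2 ∨ LD h x) :
    ∃ ψ : E2 ≃ₜ E2, (∃ R : ℝ, ∀ x, R ≤ ‖x‖ → ψ x = x) ∧
      ∀ x, (L x ∈ D ∨ (LD h x ∧ L x ∉ ball 0 2)) → LD (h ∘ ψ) x := by
  have pL : ∀ x, PLAt L x := plAt_of_univ (pl_clm (L : E2 →L[ℝ] ℝ × ℝ) univ)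
  have pL' : ∀ x, PLAt L.symm x := plAt_of_univ (pl_clm (L.symm : ℝ × ℝ →L[ℝ] E2) univ)
  obtain ⟨h', a1, ⟨K, a2, -, a3⟩, O, a4, a5, -, a6⟩ := wrap (E := E2) finrank_euclideanSpace_fin
    isOpen_univ hh.isOpen_range (isOpen_ld h) (W := L ⁻¹' ball 0 2)
    (isOpen_ball.preimage L.continuous) (subset_univ _) (L.toHomeomorph.isCompact_preimage.2 hC)
    hCU (L.toHomeomorph.isCompact_preimage.2 hD) hDW (homeoOn_of_emb hh) (smOn_ld h) (by
    rintro h1 b1 ⟨V, -, b2, b3⟩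
    obtain ⟨b4, b5⟩ := emb_of_homeoOn b1
    obtain ⟨ψ, K, c1, c2, c3, c4⟩ := P (fun z => L (h1 (L.symm z)))
      (L.toHomeomorph.isOpenEmbedding.comp (b4.comp L.symm.toHomeomorph.isOpenEmbedding))
      fun z hz => (pL _).comp ((str_iff.1 b3 _ (b2 (by simpa using hz))).comp (pL' z))
    let χ : E2 ≃ₜ E2 := (L.toHomeomorph.trans ψ).trans L.symm.toHomeomorph
    refine ⟨h1 ∘ χ, ?_, ⟨L ⁻¹' K, L.toHomeomorph.isCompact_preimage.2 c1, preimage_mono c2,
      fun x hx => ?_⟩, {x | PLAt (h1 ∘ χ) x}, isOpen_iff_mem_nhds.2 fun y hy => PLAt.ev hy,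
      fun x hx => ?_, subset_univ _, str_iff.2 fun y hy => hy⟩
    · have := homeoOn_of_emb (b4.comp χ.isOpenEmbedding)
      rwa [χ.surjective.range_comp, b5] at this
    · show h1 (L.symm (ψ (L x))) = h1 x
      rw [c3 _ hx.2, L.symm_apply_apply]
    · refine ((pL' _).comp ((c4 _ hx).comp (pL x))).congr (Eventually.of_forall fun y => ?_)
      simp [χ])
  obtain ⟨b4, b5⟩ := emb_of_homeoOn a1
  obtain ⟨ψ, hψ⟩ := exists_homeo hh.isEmbedding b4.isEmbedding b5
  obtain ⟨R, hR⟩ := a2.isBounded.subset_ball 0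
  refine ⟨ψ, ⟨R, fun x hx => hh.injective ?_⟩, fun x hx => ?_⟩
  · rw [hψ, a3 x ⟨mem_univ x, fun c => absurd (mem_ball_zero_iff.1 (hR c)) (not_lt.2 hx)⟩]
  · rw [show h ∘ ψ = h' from funext hψ]
    exact ld_of_smOn a4 a6 (a5 hx)

/-- handle straightening, core coordinates `J` -/
def HJ (J : Finset (Fin 2)) : Prop :=
  ∀ h : E2 → E2, IsOpenEmbedding h → (∀ x : E2, (∃ i ∈ J, 1 / 2 ≤ |x i|) → LD h x) →
    ∃ ψ : E2 ≃ₜ E2, (∃ R : ℝ, ∀ x, R ≤ ‖x‖ → ψ x = x) ∧
      ∀ x : E2, (∀ i, i ∉ J → x i = 0) → LD (h ∘ ψ) x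

theorem hj_one (L : E2 ≃L[ℝ] ℝ × ℝ) {i j : Fin 2} (hij : j ≠ i) (hL : ∀ x, L x = (x i, x j)) :
    HJ {i} := by
  intro h hh hs
  have hs' : ∀ x : E2, 1 ≤ |x i| → LD h x := fun x hx =>
    hs x ⟨i, Finset.mem_singleton_self i, by linarith⟩
  have c1 : IsCompact {x : ℝ × ℝ | 1 ≤ |x.1| ∧ |x.1| ≤ 2 ∧ |x.2| ≤ 1} := by
    refine (isCompact_closedBall 0 2).of_isClosed_subset (IsClosed.inter
      (s₁ := {x : ℝ × ℝ | 1 ≤ |x.1|}) (isClosed_le continuous_const (by fun_prop)) (IsClosed.inter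
        (s₁ := {x : ℝ × ℝ | |x.1| ≤ 2}) (s₂ := {x : ℝ × ℝ | |x.2| ≤ 1})
        (isClosed_le (by fun_prop) continuous_const) (isClosed_le (by fun_prop) continuous_const)))
      fun x hx => ?_
    rw [mem_closedBall_zero_iff, Prod.norm_def, max_le_iff]
    exact ⟨hx.2.1, hx.2.2.trans one_le_two⟩
  have c2 : IsCompact {x : ℝ × ℝ | |x.1| ≤ 2 ∧ x.2 = 0} := by
    refine (isCompact_closedBall 0 2).of_isClosed_subset (IsClosed.inter
      (s₁ := {x : ℝ × ℝ | |x.1| ≤ 2}) (isClosed_le (by fun_prop) continuous_const)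
      (isClosed_eq continuous_snd continuous_const)) fun x hx => ?_
    rw [mem_closedBall_zero_iff, Prod.norm_def, max_le_iff]
    exact ⟨hx.1, by rw [hx.2]; simp⟩
  obtain ⟨ψ, p1, p2⟩ := hj_of L c1 c2 pls1 hh (fun x hx => hs' x (by rw [hL] at hx; exact hx.1))
    fun x hx => by
      rw [hL] at hx ⊢
      rcases le_or_gt 1 |x i| with c | c
      · exact Or.inr (hs' x c)
      · left
        rw [mem_ball_zero_iff, Prod.norm_def, max_lt_iff]
        exact ⟨c.trans one_lt_two, by rw [hx.2]; simp⟩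
  refine ⟨ψ, p1, fun x hx => p2 x ?_⟩
  rw [hL]
  rcases le_or_gt |x i| 2 with c | c
  · exact Or.inl ⟨c, hx j (by simpa using hij)⟩
  · refine Or.inr ⟨hs' x (by linarith), fun h' => ?_⟩
    rw [mem_ball_zero_iff, Prod.norm_def, max_lt_iff] at h'
    exact absurd h'.1 (not_lt.2 c.le)

/-- coordinates -/
def crd : E2 ≃L[ℝ] ℝ × ℝ :=
  (EuclideanSpace.equiv (Fin 2) ℝ).trans (ContinuousLinearEquiv.finTwoArrow ℝ ℝ)

theorem crd_apply (x : E2) : crd x = (x 0, x 1) := rfl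

theorem hj_two : HJ Finset.univ := by
  intro h hh hs
  have hs' : ∀ x : E2, crd x ∉ ball 0 1 → LD h x := fun x hx => hs x (by
    rw [mem_ball_zero_iff, crd_apply, Prod.norm_def, max_lt_iff, not_and_or, not_lt, not_lt] at hx
    rcases hx with c | c
    · exact ⟨0, Finset.mem_univ _, le_trans (by norm_num) c⟩
    · exact ⟨1, Finset.mem_univ _, le_trans (by norm_num) c⟩)
  have hs2 : ∀ x : E2, crd x ∉ ball 0 2 → LD h x := fun x hx =>
    hs' x fun c => hx (ball_subset_ball one_le_two c)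
  obtain ⟨ψ, p1, p2⟩ := hj_of crd ((isCompact_closedBall 0 2).diff isOpen_ball)
    (isCompact_closedBall 0 2) pls2 hh (fun x hx => hs' x hx.2)
    fun x _ => (em _).imp_right (hs2 x)
  refine ⟨ψ, p1, fun x _ => p2 x ?_⟩
  by_cases c : crd x ∈ ball 0 2
  exacts [Or.inl (ball_subset_closedBall c), Or.inr ⟨hs2 x c, c⟩]

/-- **handle straightening in the plane**, positive index -/
theorem hj {J : Finset (Fin 2)} (hJ : J.Nonempty) : HJ J := by
  have : ∀ J : Finset (Fin 2), J.Nonempty → J = {0} ∨ J = {1} ∨ J = Finset.univ := by decide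
  rcases this J hJ with rfl | rfl | rfl
  · exact hj_one crd (j := 1) (by decide) crd_apply
  · exact hj_one (crd.trans (ContinuousLinearEquiv.prodComm ℝ ℝ ℝ)) (j := 0) (by decide)
      fun _ => rfl
  · exact hj_two

end Crest.Agent.X212.Sm25
end
end

-- ▼ part X212/Sm25/Cel
section

/-!
Row 212, layer H, package SM2 (helper25), part 7: straightening along one cell of a planar grid
(the two-dimensional copy of `Glb47/Box`, `Glb47/Grid`).
-/

set_option autoImplicit false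
set_option linter.style.longLine false

open Set Filter Topology Function Metric
open scoped ContDiff Manifold
open Crest.Agent.X212.Glue52

noncomputable section

namespace Crest.Agent.X212.Sm25

/-- coordinatewise maps -/
theorem ld_coord (c : E2) {φ : Fin 2 → ℝ → ℝ} (h : ∀ i, ContDiff ℝ ∞ (φ i))
    (h' : ∀ i t, deriv (φ i) t ≠ 0) : IsLocalDiffeomorph 𝓘(ℝ, E2) 𝓘(ℝ, E2) ∞
      fun x : E2 => (WithLp.toLp 2 fun i => c i + φ i (x i) : E2) := by
  intro x
  have hc : ContDiff ℝ ∞ fun x : E2 => (WithLp.toLp 2 fun i => c i + φ i (x i) : E2) := by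
    rw [contDiff_euclidean]
    intro i
    exact contDiff_const.add ((h i).comp (EuclideanSpace.proj (𝕜 := ℝ) i).contDiff)
  refine ld_of_injective_mfderiv rfl isOpen_univ (mem_univ x) hc.contMDiff.contMDiffOn ?_
  rw [mfderiv_eq_fderiv]
  refine (injective_iff_map_eq_zero _).2 fun (v : E2) hv => ?_
  show v = 0
  ext i
  have d1 : HasFDerivAt (fun x : E2 => c i + φ i (x i))
      (deriv (φ i) (x i) • EuclideanSpace.proj (𝕜 := ℝ) i) x :=
    ((((h i).differentiable (by simp)) (x i)).hasDerivAt.comp_hasFDerivAt x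
      (EuclideanSpace.proj (𝕜 := ℝ) i).hasFDerivAt).const_add _
  have d2 := (EuclideanSpace.proj (𝕜 := ℝ) i).hasFDerivAt.comp x
    ((hc.differentiable (by simp)) x).hasFDerivAt
  have d3 := congrArg (fun A : E2 →L[ℝ] ℝ => A v) (d1.unique d2)
  have hv' : fderiv ℝ (fun x : E2 => (WithLp.toLp 2 fun i => c i + φ i (x i) : E2)) x v = 0 := hv
  simp only [smul_apply, ContinuousLinearMap.comp_apply, hv', map_zero,
    smul_eq_mul, mul_eq_zero, h' i, false_or] at d3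
  simpa using d3

/-- closed cell with centre `c`, directions `J`, half side `s` -/
def cl (c : E2) (J : Finset (Fin 2)) (s : ℝ) : Set E2 :=
  {x | ∀ i, (i ∈ J → |x i - c i| ≤ s) ∧ (i ∉ J → x i = c i)}

/-- open cell -/
def op (c : E2) (J : Finset (Fin 2)) (s : ℝ) : Set E2 :=
  {x | ∀ i, (i ∈ J → |x i - c i| < s) ∧ (i ∉ J → x i = c i)}

theorem op_sub (c : E2) (J : Finset (Fin 2)) (s : ℝ) : op c J s ⊆ cl c J s :=
  fun _ h i => ⟨fun hi => ((h i).1 hi).le, (h i).2⟩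

theorem norm_le_of_coord {x : E2} {r : ℝ} (hr : 0 ≤ r) (h : ∀ i, |x i| ≤ r) : ‖x‖ ≤ 2 * r := by
  rw [EuclideanSpace.norm_eq, Real.sqrt_le_iff, Fin.sum_univ_two]
  have := fun i => sq_le_sq' (abs_le.1 (h i)).1 (abs_le.1 (h i)).2
  refine ⟨by positivity, ?_⟩
  simp only [Real.norm_eq_abs, sq_abs]
  nlinarith [this 0, this 1]

theorem cl_sub_ball (c : E2) (J : Finset (Fin 2)) {s : ℝ} (hs : 0 ≤ s) :
    cl c J s ⊆ closedBall c (2 * s) := fun x hx => by
  rw [mem_closedBall_iff_norm]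
  refine norm_le_of_coord hs fun i => ?_
  by_cases hi : i ∈ J
  · exact (hx i).1 hi
  · simp [(hx i).2 hi, hs]

theorem isClosed_cl (c : E2) (J : Finset (Fin 2)) (s : ℝ) : IsClosed (cl c J s) := by
  simp only [cl, ofPred_forall, ofPred_and]
  refine isClosed_iInter fun i => (isClosed_iInter fun _ => ?_).inter (isClosed_iInter fun _ => ?_)
  · exact isClosed_le (by fun_prop) continuous_const
  · exact isClosed_eq (by fun_prop) continuous_const

theorem isCompact_cl (c : E2) (J : Finset (Fin 2)) {s : ℝ} (hs : 0 ≤ s) : IsCompact (cl c J s) :=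
  (isCompact_closedBall c _).of_isClosed_subset (isClosed_cl c J s) (cl_sub_ball c J hs)

/-- the geometric data: a box around a slightly smaller cell -/
theorem exists_box {c : E2} {J : Finset (Fin 2)} {s : ℝ} (hs : 0 < s) {O W : Set E2}
    (hO : IsOpen O) (hW : IsOpen W) (h1 : op c J s ⊆ O) (h2 : cl c J s \ op c J s ⊆ W) :
    ∃ e : E2 → E2, IsLocalDiffeomorph 𝓘(ℝ, E2) 𝓘(ℝ, E2) ∞ e ∧ Injective e ∧ (∀ y, e y ∈ O) ∧
      (∀ y, (∃ i ∈ J, 1 / 2 ≤ |y i|) → e y ∈ W) ∧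
      ∀ x ∈ cl c J s, (∃ y : E2, (∀ i, i ∉ J → y i = 0) ∧ e y = x) ∨ (x ∉ range e ∧ x ∈ W) := by
  -- a collar of the boundary inside `W`
  have hb : IsCompact (cl c J s \ op c J s) := by
    have : cl c J s \ op c J s = cl c J s ∩ ⋃ i ∈ J, {x : E2 | s ≤ |x i - c i|} := by
      ext x
      simp only [Set.mem_sdiff, mem_inter_iff, mem_iUnion, mem_ofPred_eq, exists_prop, and_congr_right_iff]
      intro hx
      simp only [op, mem_ofPred_eq, not_forall]
      refine ⟨fun ⟨i, hi⟩ => ?_, fun ⟨i, hi, h⟩ => ⟨i, fun h' => absurd (h'.1 hi) (not_lt.2 h)⟩⟩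
      by_cases hJ : i ∈ J
      · exact ⟨i, hJ, not_lt.1 fun h => hi ⟨fun _ => h, fun h' => absurd hJ h'⟩⟩
      · exact absurd ⟨fun h => absurd h hJ, (hx i).2⟩ hi
    rw [this]
    exact (isCompact_cl c J hs.le).inter_right
      (J.finite_toSet.isClosed_biUnion fun i _ => isClosed_le continuous_const (by fun_prop))
  obtain ⟨δ, δ0, hδ⟩ := hb.exists_cthickening_subset_open hW h2
  set η : ℝ := min (δ / 4) (s / 4) with hη
  have η0 : 0 < η := lt_min (by positivity) (by positivity)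
  have η1 : η ≤ δ / 4 := min_le_left _ _
  have η2 : η ≤ s / 4 := min_le_right _ _
  have hcol : ∀ x : E2, (∀ i, (i ∈ J → |x i - c i| ≤ s) ∧ (i ∉ J → |x i - c i| ≤ 2 * η)) →
      (∃ i ∈ J, s - 2 * η ≤ |x i - c i|) → x ∈ W := by
    rintro x hx ⟨j, hj, hxj⟩
    let z : E2 := WithLp.toLp 2 fun i =>
      if i = j then (if 0 ≤ x j - c j then c j + s else c j - s) else if i ∈ J then x i else c i
    have zj : |z j - c j| = s := by
      by_cases h : 0 ≤ x j - c j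
      · simp [z, -sub_nonneg, h, abs_of_pos hs]
      · simp [z, -sub_nonneg, h, abs_of_pos hs]
    have hz : z ∈ cl c J s \ op c J s := by
      refine ⟨fun i => ⟨fun hi => ?_, fun hi => ?_⟩, fun h => absurd ((h j).1 hj) (by simp [zj])⟩
      · by_cases h : i = j
        · rw [h, zj]
        · simpa [z, h, hi] using (hx i).1 hi
      · have h : i ≠ j := fun h => hi (h ▸ hj)
        simp [z, h, hi]
    refine hδ (mem_cthickening_of_dist_le x z δ _ hz ?_)
    rw [dist_eq_norm]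
    refine (norm_le_of_coord (r := 2 * η) (by positivity) fun i => ?_).trans (by linarith)
    by_cases h : i = j
    · subst h
      have := (hx i).1 hj
      by_cases h : 0 ≤ x i - c i
      · rw [abs_of_nonneg h] at this hxj
        simp only [PiLp.sub_apply, z, h, if_true]
        rw [abs_le]; constructor <;> linarith
      · rw [abs_of_neg (not_le.1 h)] at this hxj
        simp only [PiLp.sub_apply, z, h, if_true, if_false]
        rw [abs_le]; constructor <;> linarith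
    · by_cases hi : i ∈ J
      · simp [z, h, hi, η0.le]
      · simpa [z, h, hi] using (hx i).2 hi
  -- the smaller cell inside `O`
  have hsm : cl c J (s - η) ⊆ O := fun x hx => h1 fun i =>
    ⟨fun hi => ((hx i).1 hi).trans_lt (by linarith), (hx i).2⟩
  obtain ⟨ε, ε0, hε⟩ := (isCompact_cl c J (s := s - η) (by linarith)).exists_cthickening_subset_open
    hO hsm
  set θ : ℝ := min (ε / 2) η with hθ
  have θ0 : 0 < θ := lt_min (by positivity) η0
  have θ1 : θ ≤ ε / 2 := min_le_left _ _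
  have θ2 : θ ≤ η := min_le_right _ _
  obtain ⟨φ, p1, p2, p3, p4, p5, p6, p7⟩ :=
    Glb47.exists_squash (ρ := s - 2 * η) (s := s - η) (by linarith) (by linarith)
  obtain ⟨χ, q1, q2, q3, q4, q5, -, -⟩ := Glb47.exists_squash (ρ := θ / 2) (s := θ) (by linarith) (by linarith)
  let Φ : Fin 2 → ℝ → ℝ := fun i => if i ∈ J then φ else χ
  have ΦJ : ∀ i, i ∈ J → Φ i = φ := fun i hi => if_pos hi
  have ΦN : ∀ i, i ∉ J → Φ i = χ := fun i hi => if_neg hi
  have cases : ∀ i, Φ i = φ ∨ Φ i = χ := fun i => (em (i ∈ J)).imp (ΦJ i) (ΦN i)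
  let e : E2 → E2 := fun x => WithLp.toLp 2 fun i => c i + Φ i (x i)
  have ee : ∀ y i, e y i - c i = Φ i (y i) := fun y i => by simp [e]
  refine ⟨e, ld_coord c (fun i => ?_) (fun i => ?_), fun x y hxy => ?_, fun y => ?_, ?_, ?_⟩
  · rcases cases i with h | h <;> rwa [h]
  · rcases cases i with h | h <;> rwa [h]
  · ext i
    have : Φ i (x i) = Φ i (y i) := by rw [← ee, ← ee, hxy]
    rcases cases i with h | h <;> rw [h] at this
    exacts [p3 this, q3 this]
  · let z : E2 := WithLp.toLp 2 fun i => if i ∈ J then e y i else c i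
    refine hε (mem_cthickening_of_dist_le _ z ε _ (fun i => ⟨fun hi => ?_, fun hi => ?_⟩) ?_)
    · simp only [z, hi, if_true]
      rw [ee, ΦJ i hi]
      exact (p5 _).le
    · simp [z, hi]
    · rw [dist_eq_norm]
      refine (norm_le_of_coord (r := θ) θ0.le fun i => ?_).trans (by linarith)
      by_cases hi : i ∈ J
      · simp [z, hi, θ0.le]
      · simp only [PiLp.sub_apply, z, hi, if_false]
        rw [ee, ΦN i hi]
        exact (q5 _).le
  · rintro y ⟨j, hj, hy⟩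
    refine hcol _ (fun i => ⟨fun hi => ?_, fun hi => ?_⟩) ⟨j, hj, ?_⟩
    · rw [ee, ΦJ i hi]; linarith [p5 (y i)]
    · rw [ee, ΦN i hi]; linarith [q5 (y i)]
    · rw [ee, ΦJ j hj]; exact p7 _ hy
  · intro x hx
    by_cases h : ∀ i ∈ J, |x i - c i| < s - η
    · left
      choose! t ht using fun i hi => p6 _ (h i hi)
      refine ⟨WithLp.toLp 2 fun i => if i ∈ J then t i else 0, fun i hi => by simp [hi], ?_⟩
      ext i
      rw [← sub_left_inj (a := c i), ee]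
      by_cases hi : i ∈ J
      · simp only [hi, if_true, ΦJ i hi, ht i hi]
      · simp [hi, ΦN i hi, q4, (hx i).2 hi]
    · right
      push Not at h
      obtain ⟨j, hj, hxj⟩ := h
      refine ⟨?_, hcol x (fun i => ⟨(hx i).1, fun hi => ?_⟩) ⟨j, hj, by linarith⟩⟩
      · rintro ⟨y, rfl⟩
        rw [ee, ΦJ j hj] at hxj
        exact absurd (p5 _) (not_lt.2 hxj)
      · simp [(hx i).2 hi, η0.le]

/-- compact support inside `O` -/
def Sp {M : Type*} [TopologicalSpace M] (O : Set M) (φ : M ≃ₜ M) : Prop :=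
  ∃ K, IsCompact K ∧ K ⊆ O ∧ ∀ x ∉ K, φ x = x

section
variable {M : Type*} [TopologicalSpace M] {O O' : Set M} {φ ψ : M ≃ₜ M}

theorem Sp.refl (O : Set M) : Sp O (Homeomorph.refl M) :=
  ⟨∅, isCompact_empty, empty_subset _, fun _ _ => rfl⟩

theorem Sp.mono (h : Sp O φ) (e : O ⊆ O') : Sp O' φ :=
  let ⟨K, a, b, c⟩ := h; ⟨K, a, b.trans e, c⟩

theorem Sp.trans (h : Sp O φ) (h' : Sp O ψ) : Sp O (φ.trans ψ) :=
  let ⟨K, a, b, c⟩ := h
  let ⟨K', a', b', c'⟩ := h'
  ⟨K ∪ K', a.union a', union_subset b b', fun x hx => by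
    rw [mem_union, not_or] at hx
    rw [Homeomorph.trans_apply, c x hx.1, c' x hx.2]⟩

theorem Sp.symm (h : Sp O φ) : Sp O φ.symm :=
  let ⟨K, a, b, c⟩ := h; ⟨K, a, b, Glb47.symm_of_notMem φ c⟩

theorem Sp.ev [T2Space M] (h : Sp O φ) {x : M} (hx : x ∉ O) : ∀ᶠ y in 𝓝 x, φ y = y := by
  obtain ⟨K, a, b, c⟩ := h
  filter_upwards [a.isClosed.isOpen_compl.mem_nhds fun h' => hx (b h')] with y hy using c y hy

theorem Sp.push {X : Type*} [TopologicalSpace X] [T2Space M] {e : X → M} (he : IsOpenEmbedding e)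
    {χ : X ≃ₜ X} (h : Sp (e ⁻¹' O) χ) : ∃ Ψ : M ≃ₜ M, (∀ x, Ψ (e x) = e (χ x)) ∧
      Sp (O ∩ range e) Ψ := by
  obtain ⟨K, a, b, c⟩ := h
  obtain ⟨Ψ, p1, p2⟩ := Glb47.exists_pushH he χ a c
  exact ⟨Ψ, p1, _, a.image he.continuous, by rintro _ ⟨y, hy, rfl⟩; exact ⟨b hy, y, rfl⟩, p2⟩

end

/-- **one cell** -/
theorem one_cell {c : E2} {J : Finset (Fin 2)} (H : J.Nonempty) {s : ℝ} (hs : 0 < s) {h : E2 → E2}
    (hh : IsOpenEmbedding h) {O : Set E2} (hO : IsOpen O) (h1 : op c J s ⊆ O)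
    (h2 : ∀ x ∈ cl c J s \ op c J s, LD h x) :
    ∃ ψ : E2 ≃ₜ E2, Sp O ψ ∧ ∀ x ∈ cl c J s, LD (h ∘ ψ) x := by
  obtain ⟨e, e1, e2, e3, e4, e5⟩ := exists_box hs hO (isOpen_ld h) h1 h2
  have he := ld_isOpenEmbedding e1 e2
  obtain ⟨ψ, ⟨R, hR⟩, hψ⟩ := hj H (h ∘ e) (hh.comp he) fun y hy => (e1 y).comp _ _ (e4 y hy)
  obtain ⟨Ψ, Ψ1, Ψ2⟩ := Sp.push (O := O) he (χ := ψ) ⟨_, isCompact_closedBall 0 R,
    fun y _ => e3 y, fun x hx => hR x (le_of_lt (by simpa using hx))⟩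
  refine ⟨Ψ, Ψ2.mono inter_subset_left, fun x hx => ?_⟩
  rcases e5 x hx with ⟨y, hy, rfl⟩ | ⟨hx1, hx2⟩
  · refine ld_of_comp (e1 y) ?_
    have : (h ∘ Ψ) ∘ e = (h ∘ e) ∘ ψ := funext fun z => congrArg h (Ψ1 z)
    rw [this]
    exact hψ y hy
  · refine ld_congr hx2 ?_
    filter_upwards [Ψ2.ev fun h' => hx1 h'.2] with z hz using congrArg h hz

/-- centre of a grid cell -/
def ctr (δ : ℝ) (c : Fin 2 → ℤ) : E2 := WithLp.toLp 2 fun i => δ * c i

/-- directions of a grid cell -/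
def dirs (c : Fin 2 → ℤ) : Finset (Fin 2) := Finset.univ.filter fun i => Odd (c i)

/-- closed grid cell -/
def gcl (δ : ℝ) (c : Fin 2 → ℤ) : Set E2 := cl (ctr δ c) (dirs c) δ

/-- open grid cell -/
def gop (δ : ℝ) (c : Fin 2 → ℤ) : Set E2 := op (ctr δ c) (dirs c) δ

/-- the finite complex -/
def cx (n : ℕ) : Finset (Fin 2 → ℤ) := Fintype.piFinset fun _ => Finset.Icc (-(2 * n : ℤ)) (2 * n)

theorem mem_dirs {c : Fin 2 → ℤ} {i : Fin 2} : i ∈ dirs c ↔ Odd (c i) := by simp [dirs]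

theorem mem_cx {n : ℕ} {c : Fin 2 → ℤ} : c ∈ cx n ↔ ∀ i, -(2 * n : ℤ) ≤ c i ∧ c i ≤ 2 * n := by
  simp [cx]

theorem int_close {δ : ℝ} (h : 0 < δ) {m m' : ℤ} {k : ℤ} (H : |δ * m - δ * m'| < k * δ) :
    |m - m'| < k := by
  rw [← mul_sub, abs_mul, abs_of_pos h, mul_comm, mul_lt_mul_iff_left₀ h] at H
  exact_mod_cast H

theorem gcl_sub {δ : ℝ} (h : 0 < δ) {c c' : Fin 2 → ℤ} {x : E2} (h1 : x ∈ gop δ c)
    (h2 : x ∈ gcl δ c') : gcl δ c ⊆ gcl δ c' := by
  intro u hu i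
  have a := h1 i
  have b := h2 i
  have d := hu i
  simp only [mem_dirs, ctr] at a b d ⊢
  by_cases o : Odd (c i)
  · have e : c i = c' i := by
      by_cases o' : Odd (c' i)
      · have : |c i - c' i| < 2 := int_close h (by
          have := abs_lt.1 (a.1 o)
          have := abs_le.1 (b.1 o')
          rw [abs_lt]; push_cast; constructor <;> linarith)
        obtain ⟨p, hp⟩ := o
        obtain ⟨q, hq⟩ := o'
        rw [abs_lt] at this
        omega
      · have : |c i - c' i| < 1 := int_close h (by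
          have := a.1 o
          rw [b.2 o', abs_sub_comm] at this
          simpa using this)
        rw [abs_lt] at this
        omega
    rwa [← e]
  · rw [d.2 o, ← a.2 o]
    exact b

theorem exists_face {δ : ℝ} {n : ℕ} {c : Fin 2 → ℤ} (hc : c ∈ cx n) {x : E2}
    (hx : x ∈ gcl δ c \ gop δ c) :
    ∃ c' ∈ cx n, (dirs c').card < (dirs c).card ∧ x ∈ gcl δ c' := by
  obtain ⟨h1, h2⟩ := hx
  obtain ⟨j, hj, hxj⟩ : ∃ j, Odd (c j) ∧ |x j - δ * c j| = δ := by
    by_contra hn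
    push Not at hn
    exact h2 fun i => ⟨fun hi => lt_of_le_of_ne ((h1 i).1 hi) (hn i (mem_dirs.1 hi)), (h1 i).2⟩
  obtain ⟨m, hm, hxm⟩ : ∃ m : ℤ, (m = c j + 1 ∨ m = c j - 1) ∧ x j = δ * m := by
    rcases abs_eq_abs.1 (hxj.trans (abs_of_nonneg (hxj ▸ abs_nonneg _)).symm) with h | h
    · exact ⟨_, Or.inl rfl, by push_cast; linarith⟩
    · exact ⟨_, Or.inr rfl, by push_cast; linarith⟩
  have no : ¬ Odd m := by
    obtain ⟨p, hp⟩ := hj
    rintro ⟨q, hq⟩
    omega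
  refine ⟨update c j m, mem_cx.2 fun i => ?_, Finset.card_lt_card ⟨fun i hi => ?_, fun h => ?_⟩,
    fun i => ?_⟩
  · by_cases h : i = j
    · subst h
      have := mem_cx.1 hc i
      obtain ⟨p, hp⟩ := hj
      rw [update_self]
      omega
    · rw [update_of_ne h]
      exact mem_cx.1 hc i
  · by_cases h : i = j
    · exact h ▸ mem_dirs.2 hj
    · rwa [mem_dirs, update_of_ne h, ← mem_dirs] at hi
  · have := mem_dirs.1 (h (mem_dirs.2 hj))
    rw [update_self] at this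
    exact no this
  · by_cases h : i = j
    · subst h
      simp only [mem_dirs, ctr, update_self]
      exact ⟨fun h => absurd h no, fun _ => hxm⟩
    · have := h1 i
      simp only [mem_dirs, ctr, update_of_ne h] at this ⊢
      exact this

theorem exists_cell {δ : ℝ} (h : 0 < δ) {n : ℕ} {x : E2} (hx : ∀ i, |x i| < 2 * n * δ) :
    ∃ c ∈ cx n, x ∈ gcl δ c := by
  have h2 : 0 < 2 * δ := by positivity
  refine ⟨fun i => 2 * ⌊x i / (2 * δ)⌋ + 1, mem_cx.2 fun i => ?_, fun i => ?_⟩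
  · have := abs_lt.1 (hx i)
    have a : -(n : ℤ) ≤ ⌊x i / (2 * δ)⌋ := Int.le_floor.2 (by
      rw [le_div_iff₀ h2]; push_cast; linarith)
    have b : ⌊x i / (2 * δ)⌋ < n := Int.floor_lt.2 (by
      rw [div_lt_iff₀ h2]; push_cast; linarith)
    omega
  · have a := Int.floor_le (x i / (2 * δ))
    have b := Int.lt_floor_add_one (x i / (2 * δ))
    rw [le_div_iff₀ h2] at a
    rw [div_lt_iff₀ h2] at b
    simp only [mem_dirs, ctr]
    refine ⟨fun _ => ?_, fun hn => absurd ⟨_, rfl⟩ hn⟩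
    rw [abs_le]; push_cast; constructor <;> linarith

end Crest.Agent.X212.Sm25
end
end

-- ▼ part X212/Sm25/Man
section

/-!
Row 212, layer H, package SM2 (helper25), part 8: an open embedding of a connected smooth surface
into the plane is smoothed relative to a non-empty closed set.
-/

set_option autoImplicit false
set_option linter.style.longLine false

open Set Filter Topology Function Metric
open scoped ContDiff Manifold
open Crest.Agent.X212.Glue52

noncomputable section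

namespace Crest.Agent.X212.Sm25

variable {EM : Type*} [NormedAddCommGroup EM] [NormedSpace ℝ EM] {HM : Type*} [TopologicalSpace HM]
  {I : ModelWithCorners ℝ EM HM} {M : Type*} [TopologicalSpace M] [ChartedSpace HM M]

section
variable {EN : Type*} [NormedAddCommGroup EN] [NormedSpace ℝ EN] {HN : Type*} [TopologicalSpace HN]
  {J : ModelWithCorners ℝ EN HN} {N : Type*} [TopologicalSpace N] [ChartedSpace HN N]

theorem Sp.keep [T2Space M] {O : Set M} {φ : M ≃ₜ M} (h : Sp O φ) {f : M → N} {x : M} (hx : x ∉ O)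
    (hf : IsLocalDiffeomorphAt I J ∞ f x) : IsLocalDiffeomorphAt I J ∞ (f ∘ φ) x := by
  refine ld_congr hf ?_
  filter_upwards [h.ev hx] with y hy using congrArg f hy

end

/-- `x` is moved to `y` by a diffeomorphism with compact support in `O` -/
def Mov (I : ModelWithCorners ℝ EM HM) (O : Set M) (x y : M) : Prop :=
  ∃ φ : M ≃ₜ M, Sp O φ ∧ IsLocalDiffeomorph I I ∞ φ ∧ φ x = y

theorem Mov.refl (O : Set M) (x : M) : Mov I O x x := ⟨.refl M, Sp.refl O, ld_id, rfl⟩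

theorem Mov.trans {O : Set M} {x y z : M} (h : Mov I O x y) (h' : Mov I O y z) : Mov I O x z :=
  let ⟨φ, a, b, c⟩ := h
  let ⟨ψ, a', b', c'⟩ := h'
  ⟨φ.trans ψ, a.trans a', ld_comp (g := ψ) (f := φ) b' b,
    by rw [Homeomorph.trans_apply, c, c']⟩

theorem Mov.symm {O : Set M} {x y : M} (h : Mov I O x y) : Mov I O y x := by
  obtain ⟨φ, a, b, rfl⟩ := h
  refine ⟨φ.symm, a.symm, fun z => ?_, φ.symm_apply_apply x⟩
  obtain ⟨w, rfl⟩ := φ.surjective z
  exact ld_of_comp (b w) (by rw [φ.symm_comp_self]; exact ld_id w)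

variable [I.Boundaryless] [IsManifold I ∞ M]

/-- every point is the centre of a small smooth open embedding of the plane -/
theorem exists_param (L : EM ≃L[ℝ] E2) {x : M} {O : Set M} (hO : IsOpen O) (hx : x ∈ O) :
    ∃ e : E2 → M, IsLocalDiffeomorph 𝓘(ℝ, E2) I ∞ e ∧ Injective e ∧ e 0 = x ∧ ∀ y, e y ∈ O := by
  let a := chL I L x
  have xa : x ∈ a.source := mem_chL L x
  obtain ⟨e, e1, e2, e3, -, e5⟩ := exists_box (c := a x) (J := ∅) one_pos
    (a.symm.toOpenPartialHomeomorph.isOpen_inter_preimage hO) isOpen_empty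
    (fun y hy => by
      have : y = a x := by ext i; exact (hy i).2 (by simp)
      subst this
      exact ⟨a.map_source xa, by
        show a.symm (a x) ∈ O
        rwa [show a.symm (a x) = x from a.left_inv xa]⟩)
    (fun y hy => hy.2 fun i => ⟨fun h => by simp at h, (hy.1 i).2⟩)
  refine ⟨a.symm ∘ e, fun y => (e1 y).comp _ _ (a.symm.isLocalDiffeomorphAt _ _ _ (e3 y).1),
    fun y z h => e2 (a.symm.injOn (e3 y).1 (e3 z).1 h), ?_, fun y => (e3 y).2⟩
  rcases e5 (a x) (fun i => ⟨fun h => by simp at h, fun _ => rfl⟩) with ⟨y, hy, h⟩ | h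
  · have : y = 0 := by ext i; exact hy i (by simp)
    subst this
    show a.symm (e 0) = x
    rw [h]
    exact a.left_inv xa
  · exact absurd h.2 (notMem_empty _)

/-- the plane as the complex line -/
def cE : ℂ ≃L[ℝ] E2 := Complex.orthonormalBasisOneI.repr.toContinuousLinearEquiv

variable [T2Space M]

theorem mov_loc (L : EM ≃L[ℝ] E2) {x : M} {O : Set M} (hO : IsOpen O) (hx : x ∈ O) :
    ∀ᶠ y in 𝓝 x, Mov I O x y := by
  obtain ⟨e, e1, e2, e3, e4⟩ := exists_param (I := I) L hO hx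
  have d1 : IsLocalDiffeomorph 𝓘(ℝ, ℂ) I ∞ (e ∘ cE) := ld_comp e1 (ld_clm cE)
  have he := ld_isOpenEmbedding d1 (e2.comp cE.injective)
  obtain ⟨κ, -, k1, -, k2, k3⟩ := Prf6.exists_tau one_pos
  have e0 : (e ∘ cE) 0 = x := by rw [comp_apply, map_zero, e3]
  rw [← e0, ← he.map_nhds_eq, eventually_map]
  filter_upwards [closedBall_mem_nhds (0 : ℂ) one_pos] with w hw
  have d2 : IsLocalDiffeomorph 𝓘(ℝ, ℂ) 𝓘(ℝ, ℂ) ∞ (κ w) := fun z => (k1 w z).1
  obtain ⟨Ψ, p1, p2⟩ := Sp.push (O := O) he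
    (χ := (d2.diffeomorphOfBijective (κ w).bijective).toHomeomorph)
    ⟨_, isCompact_closedBall 0 _, fun y _ => e4 _, k3 w⟩
  have p1' : ∀ z, Ψ ((e ∘ cE) z) = (e ∘ cE) (κ w z) := p1
  refine ⟨Ψ, p2.mono inter_subset_left, fun y => ?_, by
    rw [p1', k2 w 0 (mem_closedBall_zero_iff.1 hw) (by simp), zero_add]⟩
  by_cases hy : y ∈ range (e ∘ cE)
  · obtain ⟨z, rfl⟩ := hy
    refine ld_of_comp (d1 z) ?_
    rw [show Ψ ∘ e ∘ cE = (e ∘ cE) ∘ κ w from funext p1']
    exact ld_comp d1 d2 z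
  · exact p2.keep (f := id) (fun h => hy h.2) (ld_id y)

/-- **push**: a point is moved near a closed set -/
theorem push [PreconnectedSpace M] (L : EM ≃L[ℝ] E2) {B U : Set M} (hB : IsClosed B)
    (hU : IsOpen U) (hBU : B ⊆ U) (hne : B.Nonempty) (v : M) : ∃ y ∈ U, Mov I Bᶜ v y := by
  have ev : ∀ x ∉ B, ∀ᶠ z in 𝓝 x, (∃ y ∈ U, Mov I Bᶜ z y) ↔ ∃ y ∈ U, Mov I Bᶜ x y := fun x hx => by
    filter_upwards [mov_loc (I := I) L hB.isOpen_compl hx] with z hz
    exact ⟨fun ⟨y, a, b⟩ => ⟨y, a, hz.trans b⟩, fun ⟨y, a, b⟩ => ⟨y, a, hz.symm.trans b⟩⟩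
  have cl : IsClopen {x | ∃ y ∈ U, Mov I Bᶜ x y} := by
    refine ⟨⟨isOpen_iff_mem_nhds.2 fun x hx => ?_⟩, isOpen_iff_mem_nhds.2 fun x hx => ?_⟩
    · filter_upwards [ev x fun h => hx ⟨x, hBU h, Mov.refl _ _⟩] with z hz using
        fun h => hx (hz.1 h)
    · by_cases h : x ∈ B
      · filter_upwards [hU.mem_nhds (hBU h)] with z hz using ⟨z, hz, Mov.refl _ _⟩
      · filter_upwards [ev x h] with z hz using hz.2 hx
  obtain ⟨b, hb⟩ := hne
  have := cl.eq_univ ⟨b, b, hBU hb, Mov.refl _ _⟩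
  exact (this ▸ mem_univ v : v ∈ {x | ∃ y ∈ U, Mov I Bᶜ x y})

/-- smoothing at one point -/
theorem at_point [PreconnectedSpace M] (L : EM ≃L[ℝ] E2) {f : M → E2} {B : Set M}
    (hB : IsClosed B) (hne : B.Nonempty)
    (hl : ∀ x ∈ B, IsLocalDiffeomorphAt I 𝓘(ℝ, E2) ∞ f x) (v : M) :
    ∃ φ : M ≃ₜ M, Sp Bᶜ φ ∧ IsLocalDiffeomorphAt I 𝓘(ℝ, E2) ∞ (f ∘ φ) v := by
  obtain ⟨y, hy, φ, a, b, rfl⟩ := push (I := I) L hB (isOpen_ld f) hl hne v
  exact ⟨φ, a, (b v).comp _ _ hy⟩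

/-- the invariant of the induction over the cells -/
def Inv (δ : ℝ) (h : E2 → E2) (A : Set E2) (S : Finset (Fin 2 → ℤ)) : Prop :=
  ∃ ψ : E2 ≃ₜ E2, Sp Aᶜ ψ ∧ ∀ x ∈ A ∪ ⋃ c ∈ S, gcl δ c, LD (h ∘ ψ) x

theorem Inv.step {δ : ℝ} (hδ : 0 < δ) {n : ℕ} {h : E2 → E2} (hh : IsOpenEmbedding h)
    {A : Set E2} (hA : IsClosed A) (hne : A.Nonempty) {S : Finset (Fin 2 → ℤ)}
    (I : Inv δ h A S) {c : Fin 2 → ℤ} (hc : c ∈ cx n) (hA' : c ∈ S ∨ Disjoint (gcl δ c) A)
    (hf : ∀ c' ∈ cx n, (dirs c').card < (dirs c).card → c' ∈ S) : Inv δ h A (insert c S) := by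
  classical
  obtain ⟨ψ, k1, k2⟩ := I
  have hB : IsClosed (A ∪ ⋃ c ∈ S, gcl δ c) :=
    hA.union (S.finite_toSet.isClosed_biUnion fun d _ => isClosed_cl _ _ _)
  obtain ⟨χ, l1, l2⟩ : ∃ χ : E2 ≃ₜ E2, Sp (A ∪ ⋃ c ∈ S, gcl δ c)ᶜ χ ∧
      ∀ x ∈ gcl δ c, LD ((h ∘ ψ) ∘ χ) x := by
    by_cases hin : ∃ c' ∈ S, gcl δ c ⊆ gcl δ c'
    · obtain ⟨c', h1, h2⟩ := hin
      exact ⟨.refl _, Sp.refl _, fun x hx => k2 x (Or.inr (mem_biUnion h1 (h2 hx)))⟩
    have hA2 : Disjoint (gcl δ c) A := hA'.resolve_left fun h => hin ⟨c, h, Subset.rfl⟩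
    rcases (dirs c).eq_empty_or_nonempty with h0 | h0
    · obtain ⟨φ, a, b⟩ := at_point (.refl ℝ E2) hB (hne.mono subset_union_left) k2 (ctr δ c)
      refine ⟨φ, a, fun x hx => ?_⟩
      have : x = ctr δ c := by ext i; exact (hx i).2 (by simp [h0])
      exact this ▸ b
    · refine one_cell h0 hδ (hh.comp ψ.isOpenEmbedding) hB.isOpen_compl ?_ fun x hx => ?_
      · rintro x hx (h | h)
        · exact disjoint_left.1 hA2 (op_sub _ _ _ hx) h
        · obtain ⟨d, hd, h⟩ := mem_iUnion₂.1 h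
          exact hin ⟨d, hd, gcl_sub hδ hx h⟩
      · obtain ⟨c', h1, h2, h3⟩ := exists_face hc hx
        exact k2 x (Or.inr (mem_biUnion (hf c' h1 h2) h3))
  refine ⟨χ.trans ψ, (l1.mono (compl_subset_compl.2 subset_union_left)).trans k1, fun x hx => ?_⟩
  rw [Finset.set_biUnion_insert, union_left_comm] at hx
  rcases hx with hx | hx
  · exact l2 x hx
  · exact l1.keep (f := h ∘ ψ) (fun h => h hx) (k2 x hx)

/-- **relative smoothing**, planar source and target -/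
theorem rel {h : E2 → E2} (hh : IsOpenEmbedding h) {A D : Set E2} (hA : IsClosed A)
    (hne : A.Nonempty) (hD : IsCompact D) (hl : ∀ x ∈ A, LD h x) :
    ∃ ψ : E2 ≃ₜ E2, Sp Aᶜ ψ ∧ ∀ x ∈ A ∪ D, LD (h ∘ ψ) x := by
  classical
  obtain ⟨R, R0, hR⟩ := hD.isBounded.subset_ball_lt 0 0
  let U : Bool → Set E2 := fun p => if p then {x | LD h x} else Aᶜ
  obtain ⟨ε, ε0, hε⟩ := lebesgue_number_lemma_of_metric (isCompact_closedBall (0 : E2) (2 * (R + 2)))
    (c := U) (fun p => by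
      simp only [U]
      split_ifs
      exacts [isOpen_ld h, hA.isOpen_compl]) (fun x _ => by
      by_cases hx : x ∈ A
      · exact mem_iUnion.2 ⟨true, hl x hx⟩
      · exact mem_iUnion.2 ⟨false, hx⟩)
  set δ : ℝ := min (ε / 3) 1 with hδ
  have δ0 : 0 < δ := lt_min (by positivity) one_pos
  have δ1 : δ ≤ ε / 3 := min_le_left _ _
  have δ2 : δ ≤ 1 := min_le_right _ _
  set n : ℕ := ⌈R / (2 * δ)⌉₊ with hn
  have n1 : R ≤ 2 * n * δ := by
    have := Nat.le_ceil (R / (2 * δ))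
    rw [div_le_iff₀ (by positivity)] at this
    linarith
  have n2 : 2 * n * δ ≤ R + 2 := by
    have := Nat.ceil_lt_add_one (a := R / (2 * δ)) (by positivity)
    rw [← hn, ← sub_lt_iff_lt_add, lt_div_iff₀ (by positivity)] at this
    nlinarith
  have hU : ∀ c ∈ cx n, ∃ p, gcl δ c ⊆ U p := fun c hc => by
    obtain ⟨p, hp⟩ := hε (ctr δ c) (by
      rw [mem_closedBall_zero_iff]
      refine norm_le_of_coord (by positivity) fun i => ?_
      have := mem_cx.1 hc i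
      have h1 : |(c i : ℝ)| ≤ 2 * n := by
        rw [abs_le]
        exact ⟨by exact_mod_cast this.1, by exact_mod_cast this.2⟩
      simp only [ctr, abs_mul, abs_of_pos δ0]
      nlinarith)
    exact ⟨p, ((cl_sub_ball _ _ δ0.le).trans (closedBall_subset_ball (by linarith))).trans hp⟩
  choose! p hp using hU
  let S : ℕ → Finset (Fin 2 → ℤ) := fun k => (cx n).filter fun c => p c = true ∨ (dirs c).card < k
  have main : ∀ k, Inv δ h A (S k) := by
    intro k
    induction k with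
    | zero =>
      refine ⟨.refl _, Sp.refl _, fun x hx => hx.elim (hl x) fun hx => ?_⟩
      obtain ⟨c, hc, hx⟩ := mem_iUnion₂.1 hx
      simp only [S, Finset.mem_filter, Nat.not_lt_zero, or_false] at hc
      have := hp c hc.1 hx
      simp only [U, if_pos hc.2] at this
      exact this
    | succ k ih =>
      have inner : ∀ T : Finset (Fin 2 → ℤ), (∀ c ∈ T, c ∈ cx n ∧ (dirs c).card = k) →
          Inv δ h A (T ∪ S k) := by
        intro T
        induction T using Finset.induction_on with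
        | empty => intro _; simpa using ih
        | insert c T _ ihT =>
          intro hT
          have hc := hT c (Finset.mem_insert_self _ _)
          rw [Finset.insert_union]
          refine (ihT fun d hd => hT d (Finset.mem_insert_of_mem hd)).step δ0 hh hA hne hc.1 ?_
            fun d hd h' => Finset.mem_union_right _ (Finset.mem_filter.2 ⟨hd, Or.inr (hc.2 ▸ h')⟩)
          by_cases hg : p c = true
          · exact Or.inl (Finset.mem_union_right _ (Finset.mem_filter.2 ⟨hc.1, Or.inl hg⟩))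
          · refine Or.inr (disjoint_left.2 fun x hx => ?_)
            have := hp c hc.1 hx
            simp only [U, if_neg hg] at this
            exact this
      have := inner ((cx n).filter fun c => (dirs c).card = k) fun c hc => Finset.mem_filter.1 hc
      convert this using 1
      ext c
      simp only [S, Finset.mem_union, Finset.mem_filter]
      constructor
      · rintro ⟨h1, h2 | h2⟩
        · exact Or.inr ⟨h1, Or.inl h2⟩
        · rcases Nat.lt_succ_iff_lt_or_eq.1 h2 with h3 | h3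
          exacts [Or.inr ⟨h1, Or.inr h3⟩, Or.inl ⟨h1, h3⟩]
      · rintro (⟨h1, h2⟩ | ⟨h1, h2 | h2⟩)
        exacts [⟨h1, Or.inr (by omega)⟩, ⟨h1, Or.inl h2⟩, ⟨h1, Or.inr (by omega)⟩]
  obtain ⟨ψ, k1, k2⟩ := main 3
  refine ⟨ψ, k1, fun x hx => k2 x (hx.imp_right fun hx => ?_)⟩
  obtain ⟨c, hc, hxc⟩ := exists_cell δ0 (n := n) (x := x) fun i => by
    have h1 := mem_ball_zero_iff.1 (hR hx)
    have h2 : |x i| ≤ ‖x‖ := PiLp.norm_apply_le x i
    linarith
  refine mem_biUnion (s := S 3) (Finset.mem_filter.2 ⟨hc, Or.inr ?_⟩) hxc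
  have := (dirs c).card_le_univ
  simp only [Fintype.card_fin] at this
  omega

/-- **relative smoothing**, planar target -/
theorem mp [PreconnectedSpace M] (L : EM ≃L[ℝ] E2) {f : M → E2} (hf : IsOpenEmbedding f)
    {A D : Set M} (hA : IsClosed A) (hne : A.Nonempty) (hD : IsCompact D)
    (hl : ∀ x ∈ A, IsLocalDiffeomorphAt I 𝓘(ℝ, E2) ∞ f x) :
    ∃ ψ : M ≃ₜ M, Sp Aᶜ ψ ∧ ∀ x ∈ A ∪ D, IsLocalDiffeomorphAt I 𝓘(ℝ, E2) ∞ (f ∘ ψ) x := by
  classical
  choose e e1 e2 e3 _ using fun x : M => exists_param (I := I) L isOpen_univ (mem_univ x)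
  have he : ∀ x, IsOpenEmbedding (e x) := fun x => ld_isOpenEmbedding (e1 x) (e2 x)
  obtain ⟨t, -, ht⟩ := hD.elim_nhds_subcover (fun x => e x '' closedBall 0 1) fun x _ => by
    have := (he x).isOpenMap.image_mem_nhds (closedBall_mem_nhds (0 : E2) one_pos)
    rwa [e3] at this
  have main : ∀ t : Finset M, ∃ ψ : M ≃ₜ M, Sp Aᶜ ψ ∧
      ∀ x ∈ A ∪ ⋃ p ∈ t, e p '' closedBall 0 1, IsLocalDiffeomorphAt I 𝓘(ℝ, E2) ∞ (f ∘ ψ) x := by
    intro t
    induction t using Finset.induction_on with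
    | empty => exact ⟨.refl M, Sp.refl _, by simpa using hl⟩
    | insert p t _ ih =>
      obtain ⟨ψ, k1, k2⟩ := ih
      set B := A ∪ ⋃ p ∈ t, e p '' closedBall 0 1 with hBd
      have hB : IsClosed B := hA.union
        (t.isCompact_biUnion fun q _ => (isCompact_closedBall _ _).image (he q).continuous).isClosed
      obtain ⟨φ, a, b⟩ := at_point L hB (hne.mono subset_union_left) k2 p
      have k3 : ∀ x ∈ B ∪ {p}, IsLocalDiffeomorphAt I 𝓘(ℝ, E2) ∞ ((f ∘ ψ) ∘ φ) x := by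
        rintro x (hx | rfl)
        exacts [a.keep (fun h => h hx) (k2 x hx), b]
      obtain ⟨χ, c1, c2⟩ := rel (((hf.comp ψ.isOpenEmbedding).comp φ.isOpenEmbedding).comp (he p))
        ((hB.union isClosed_singleton).preimage (he p).continuous) ⟨0, Or.inr (e3 p)⟩
        (isCompact_closedBall (0 : E2) 1) fun z hz => (e1 p z).comp _ _ (k3 _ hz)
      obtain ⟨Ψ, p1, p2⟩ := Sp.push (O := (B ∪ {p})ᶜ) (he p) c1
      have hs : Bᶜ ⊆ Aᶜ := compl_subset_compl.2 subset_union_left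
      refine ⟨(Ψ.trans φ).trans ψ, ((p2.mono fun x hx h => hx.1 (Or.inl (Or.inl h))).trans
        (a.mono hs)).trans k1, fun x hx => ?_⟩
      rw [Finset.set_biUnion_insert, union_left_comm] at hx
      rcases hx with ⟨z, hz, rfl⟩ | hx
      · refine ld_of_comp (e1 p z) ?_
        have : (f ∘ ((Ψ.trans φ).trans ψ)) ∘ e p = (((f ∘ ψ) ∘ φ) ∘ e p) ∘ χ :=
          funext fun w => congrArg ((f ∘ ψ) ∘ φ) (p1 w)
        rw [this]
        exact c2 z (Or.inr hz)
      · exact p2.keep (f := (f ∘ ψ) ∘ φ) (fun h => h.1 (Or.inl hx)) (k3 x (Or.inl hx))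
  obtain ⟨ψ, k1, k2⟩ := main t
  exact ⟨ψ, k1, fun x hx => k2 x (hx.imp_right fun h => ht h)⟩

end Crest.Agent.X212.Sm25
end
end

-- ▼ part X212/Sm25/Disc

/-!
Row 212, layer H, package SM2 (helper25), part 9: a topological disc in a smooth surface whose
boundary has a smooth collar is a smooth disc relative to the collar.
-/

set_option autoImplicit false
set_option linter.style.longLine false

open Set Filter Topology Function Metric TopologicalSpace
open scoped ContDiff Manifold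
open Crest.Agent.X212.Glue52

noncomputable section

namespace Crest.Agent.X212.Sm25

/-- the round annulus -/
def An (a b : ℝ) : Set ℂ := {z | a < ‖z‖ ∧ ‖z‖ < b}

theorem isOpen_An (a b : ℝ) : IsOpen (An a b) := isOpen_Ioo.preimage continuous_norm

theorem isPreconnected_An {a : ℝ} (ha : 0 ≤ a) (b : ℝ) : IsPreconnected (An a b) := by
  have h1 : IsPathConnected (sphere (0 : ℂ) 1) := isPathConnected_sphere (by
    rw [← Module.finrank_eq_rank]; simp) 0 zero_le_one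
  have h2 := (h1.isConnected.isPreconnected.prod (isPreconnected_Ioo (a := a) (b := b))).image
    (fun p : ℂ × ℝ => p.2 • p.1) (by fun_prop)
  convert h2 using 1
  ext y
  constructor
  · intro hy
    have h0 : ‖y‖ ≠ 0 := (ha.trans_lt hy.1).ne'
    refine ⟨(‖y‖⁻¹ • y, ‖y‖), ⟨?_, hy⟩, ?_⟩
    · rw [mem_sphere_zero_iff_norm, norm_smul, norm_inv, norm_norm, inv_mul_cancel₀ h0]
    · simp only [smul_smul, mul_inv_cancel₀ h0, one_smul]
  · rintro ⟨⟨u, t⟩, ⟨hu, ht⟩, rfl⟩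
    have : ‖t • u‖ = t := by
      rw [norm_smul, mem_sphere_zero_iff_norm.1 hu, mul_one, Real.norm_of_nonneg (ha.trans ht.1.le)]
    exact ⟨this.symm ▸ ht.1, this.symm ▸ ht.2⟩

/-- coning: a disc is reparametrised along its boundary -/
theorem exists_cone {X : Type*} [TopologicalSpace X] [T2Space X] {c k : ℂ → X}
    (hc : ContinuousOn c (sphere 0 1)) (hci : InjOn c (sphere 0 1))
    (hk : ContinuousOn k (closedBall 0 1)) (hki : InjOn k (closedBall 0 1))
    (hb : k '' sphere 0 1 = c '' sphere 0 1) :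
    ∃ k' : ℂ → X, ContinuousOn k' (closedBall 0 1) ∧ InjOn k' (closedBall 0 1) ∧
      k' '' closedBall 0 1 = k '' closedBall 0 1 ∧ EqOn k' c (sphere 0 1) := by
  have e1 := ((hk.mono sphere_subset_closedBall).domRestrict.isClosedEmbedding
    (hki.mono sphere_subset_closedBall).injective).isEmbedding
  have e2 := (hc.domRestrict.isClosedEmbedding hci.injective).isEmbedding
  obtain ⟨σ, hσ⟩ := exists_homeo e1 e2 (by rw [range_domRestrict, range_domRestrict, hb])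
  have hσ' : ∀ u, k (σ u) = c u := hσ
  let d : ℂ → sphere (0 : ℂ) 1 := dir
  let θ : ℂ → ℂ := fun z => ‖z‖ * σ (d z)
  have n : ∀ z, ‖θ z‖ = ‖z‖ := fun z => by simp [θ]
  have hd : ∀ (r : ℝ) (u : sphere (0 : ℂ) 1), 0 < r → d (r * u) = u := fun r u hr => dir_mul hr u
  have hm : ∀ z, (‖z‖ : ℂ) * d z = z := norm_mul_dir
  have hθ : Continuous θ := continuous_iff_continuousAt.2 fun z => by
    by_cases h : z = 0
    · subst h
      have : θ 0 = 0 := by simp [θ]
      rw [ContinuousAt, this, tendsto_zero_iff_norm_tendsto_zero]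
      simp only [n]
      exact tendsto_norm_zero
    · have h1 : ContinuousAt d z := (contMDiffAt_dir h).continuousAt
      exact (Complex.continuous_ofReal.comp continuous_norm).continuousAt.mul
        ((continuous_subtype_val.comp σ.continuous).continuousAt.comp h1)
  have hi : Injective θ := fun z w e => by
    have h1 : ‖z‖ = ‖w‖ := by rw [← n z, e, n]
    by_cases h : ‖w‖ = 0
    · rw [norm_eq_zero.1 h, norm_eq_zero.1 (h1.trans h)]
    · simp only [θ, h1] at e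
      have h2 := σ.injective (Subtype.ext (mul_left_cancel₀ (by exact_mod_cast h) e))
      rw [← hm z, ← hm w, h1, h2]
  have hs : Surjective θ := fun w => by
    by_cases h : w = 0
    · exact ⟨0, by simp [θ, h]⟩
    · refine ⟨‖w‖ * σ.symm (d w), ?_⟩
      simp only [θ]
      rw [hd _ _ (norm_pos_iff.2 h), σ.apply_symm_apply]
      simpa using hm w
  have hb' : ∀ z, θ z ∈ closedBall (0 : ℂ) 1 ↔ z ∈ closedBall (0 : ℂ) 1 := fun z => by simp [n]
  refine ⟨k ∘ θ, hk.comp hθ.continuousOn fun z hz => (hb' z).2 hz,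
    hki.comp hi.injOn fun z hz => (hb' z).2 hz, ?_, fun z hz => ?_⟩
  · rw [image_comp, show closedBall (0 : ℂ) 1 = θ ⁻¹' closedBall 0 1 from (ext hb').symm,
      image_preimage_eq _ hs, ← show closedBall (0 : ℂ) 1 = θ ⁻¹' closedBall 0 1 from (ext hb').symm]
  · have h1 := mem_sphere_zero_iff_norm.1 hz
    have h2 : (d z : ℂ) = z := by simpa [h1] using hm z
    simp only [comp_apply, θ, h1, Complex.ofReal_one, one_mul, hσ', h2]

/-- the radial profile -/
theorem exists_profile {δ : ℝ} (hδ : 0 < δ) : ∃ φ : ℝ → ℝ, Continuous φ ∧ StrictMono φ ∧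
    Surjective φ ∧ φ 1 = 1 - δ ∧ ∀ t, 2 * δ ≤ |t - 1| → φ t = t := by
  let φ : ℝ → ℝ := fun t => t - max (δ - |t - 1| / 2) 0
  have h1 : Continuous φ := by fun_prop
  have h2 : ∀ t, 2 * δ ≤ |t - 1| → φ t = t := fun t ht => by
    simp only [φ]; rw [max_eq_right (by linarith), sub_zero]
  refine ⟨φ, h1, fun s t hst => ?_, fun s => ?_, by simp [φ, hδ.le], h2⟩
  · have a := abs_max_sub_max_le_abs (δ - |t - 1| / 2) (δ - |s - 1| / 2) 0
    have b := abs_abs_sub_abs_le_abs_sub (t - 1) (s - 1)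
    rw [show t - 1 - (s - 1) = t - s by ring, abs_of_pos (sub_pos.2 hst)] at b
    rw [show δ - |t - 1| / 2 - (δ - |s - 1| / 2) = -(|t - 1| - |s - 1|) / 2 by ring, abs_div, abs_neg,
      abs_two] at a
    simp only [φ]
    linarith [le_abs_self (max (δ - |t - 1| / 2) 0 - max (δ - |s - 1| / 2) 0)]
  · rcases le_or_gt (2 * δ) |s - 1| with c | c
    · exact ⟨s, h2 s c⟩
    · rw [abs_lt] at c
      obtain ⟨t, -, ht⟩ := intermediate_value_Icc (show 1 - 2 * δ ≤ 1 + 2 * δ by linarith)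
        h1.continuousOn (show s ∈ Icc (φ (1 - 2 * δ)) (φ (1 + 2 * δ)) by
          rw [h2 _ (by rw [abs_of_neg] <;> linarith), h2 _ (by rw [abs_of_pos] <;> linarith)]
          constructor <;> linarith [c.1, c.2])
      exact ⟨t, ht⟩

variable {EM : Type*} [NormedAddCommGroup EM] [NormedSpace ℝ EM] {HM : Type*} [TopologicalSpace HM]
  {M : Type*} [TopologicalSpace M]

/-- invariance of domain for maps from the plane -/
def IoD (M : Type*) [TopologicalSpace M] : Prop :=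
  ∀ ⦃f : ℂ → M⦄ ⦃U : Set ℂ⦄, IsOpen U → ContinuousOn f U → InjOn f U → IsOpen (f '' U)

/-- invariance of domain, maps into a surface -/
theorem iod [ChartedSpace HM M] (I : ModelWithCorners ℝ EM HM) [I.Boundaryless] [IsManifold I ∞ M]
    (L : EM ≃L[ℝ] E2) : IoD M := by
  intro f U hU hf hi
  refine isOpen_iff_mem_nhds.2 ?_
  rintro _ ⟨x, hx, rfl⟩
  let a := (chL I L (f x)).toOpenPartialHomeomorph
  have h1 : IsOpen (U ∩ f ⁻¹' a.source) := hf.isOpen_inter_preimage hU a.open_source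
  have h2 : IsOpen ((fun z => a (f z)) '' (U ∩ f ⁻¹' a.source)) :=
    R105.Iod1_690.isOpen_image_fd (by simp) h1
      (a.continuousOn.comp (hf.mono inter_subset_left) fun z hz => hz.2)
      fun z hz w hw e => hi hz.1 hw.1 (a.injOn hz.2 hw.2 e)
  refine mem_of_superset ((a.isOpen_inter_preimage h2).mem_nhds
    ⟨mem_chL L (f x), x, ⟨hx, mem_chL L (f x)⟩, rfl⟩) ?_
  rintro y ⟨h3, z, hz, e⟩
  exact ⟨z, hz.1, a.injOn hz.2 h3 e⟩

variable [T2Space M]

/-- the inner half of the collar lies in the disc -/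
theorem side (H : IoD M) {c k : ℂ → M} {ε : ℝ} (hε : 0 < ε) (hε1 : ε ≤ 1)
    (hc : ContinuousOn c (An (1 - ε) (1 + ε))) (hci : InjOn c (An (1 - ε) (1 + ε)))
    (hk : ContinuousOn k (closedBall 0 1)) (hki : InjOn k (closedBall 0 1))
    (hb : k '' sphere 0 1 = c '' sphere 0 1)
    (ho : ∀ z ∈ An 1 (1 + ε), c z ∉ k '' closedBall 0 1) {z : ℂ} (hz : z ∈ An (1 - ε) (1 + ε))
    (hz1 : ‖z‖ ≤ 1) : c z ∈ k '' closedBall 0 1 := by
  have hS : sphere (0 : ℂ) 1 ⊆ An (1 - ε) (1 + ε) := fun w hw => by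
    have := mem_sphere_zero_iff_norm.1 hw
    constructor <;> linarith
  have hI : An (1 - ε) 1 ⊆ An (1 - ε) (1 + ε) := fun w hw => ⟨hw.1, by linarith [hw.2]⟩
  rcases hz1.eq_or_lt with h1 | h1
  · exact image_mono sphere_subset_closedBall (hb ▸ ⟨z, mem_sphere_zero_iff_norm.2 h1, rfl⟩)
  rcases ((isPreconnected_An (sub_nonneg.2 hε1) 1).image c (hc.mono hI)).subset_or_subset
    (H isOpen_ball (hk.mono ball_subset_closedBall) (hki.mono ball_subset_closedBall))
    ((isCompact_closedBall 0 1).image_of_continuousOn hk).isClosed.isOpen_compl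
    (disjoint_left.2 fun y a b => b (image_mono ball_subset_closedBall a)) (by
      rintro _ ⟨w, hw, rfl⟩
      by_cases h : c w ∈ k '' closedBall 0 1
      · obtain ⟨v, hv, e⟩ := h
        rcases (mem_closedBall_zero_iff.1 hv).eq_or_lt with h2 | h2
        · obtain ⟨u, hu, e'⟩ : k v ∈ c '' sphere 0 1 := hb ▸ ⟨v, mem_sphere_zero_iff_norm.2 h2, rfl⟩
          have := hci (hS hu) (hI hw) (e'.trans e)
          exact absurd (mem_sphere_zero_iff_norm.1 hu) (this ▸ hw.2.ne)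
        · exact Or.inl ⟨v, mem_ball_zero_iff.2 h2, e⟩
      · exact Or.inr h) with h | h
  · exact image_mono ball_subset_closedBall (h ⟨z, ⟨hz.1, h1⟩, rfl⟩)
  · exfalso
    obtain ⟨u, hu, e⟩ : c 1 ∈ k '' sphere 0 1 := hb ▸ ⟨1, by simp, rfl⟩
    have h2 : u ∈ closure (ball (0 : ℂ) 1) := by
      rw [closure_ball _ one_ne_zero]; exact sphere_subset_closedBall hu
    have h3 : k ⁻¹' (c '' An (1 - ε) (1 + ε)) ∈ 𝓝[ball 0 1] u :=
      ((hk u (sphere_subset_closedBall hu)).mono ball_subset_closedBall)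
        ((H (isOpen_An _ _) hc hci).mem_nhds ⟨1, hS (by simp), e.symm⟩)
    have := mem_closure_iff_nhdsWithin_neBot.1 h2
    obtain ⟨v, ⟨w, hw, e'⟩, hv⟩ := Filter.nonempty_of_mem (inter_mem h3 self_mem_nhdsWithin)
    have h4 : c w ∈ k '' closedBall 0 1 := ⟨v, ball_subset_closedBall hv, e'.symm⟩
    rcases lt_trichotomy ‖w‖ 1 with c1 | c1 | c1
    · exact h ⟨w, ⟨hw.1, c1⟩, rfl⟩ h4
    · obtain ⟨v', hv', e2⟩ : c w ∈ k '' sphere 0 1 := hb ▸ ⟨w, mem_sphere_zero_iff_norm.2 c1, rfl⟩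
      have := hki (sphere_subset_closedBall hv') (ball_subset_closedBall hv) (e2.trans e')
      exact (mem_ball_zero_iff.1 hv).ne (this ▸ mem_sphere_zero_iff_norm.1 hv')
    · exact ho w ⟨c1, hw.2⟩ h4

/-- a topological parametrisation which agrees with the collar -/
theorem exists_top (H : IoD M) {c k : ℂ → M} {δ : ℝ} (hδ : 0 < δ) (hδ1 : 3 * δ ≤ 1)
    (hc : ContinuousOn c (An (1 - 3 * δ) (1 + 3 * δ))) (hci : InjOn c (An (1 - 3 * δ) (1 + 3 * δ)))
    (hk : ContinuousOn k (closedBall 0 1)) (hki : InjOn k (closedBall 0 1))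
    (hb : k '' sphere 0 1 = c '' sphere 0 1)
    (ho : ∀ z ∈ An 1 (1 + 3 * δ), c z ∉ k '' closedBall 0 1) :
    ∃ h : ℂ → M, ContinuousOn h (ball 0 (1 + 3 * δ)) ∧ InjOn h (ball 0 (1 + 3 * δ)) ∧
      (∀ z, 1 - δ ≤ ‖z‖ → h z = c z) ∧ h '' closedBall 0 1 = k '' closedBall 0 1 := by
  classical
  set A := An (1 - 3 * δ) (1 + 3 * δ) with hA
  have hS : sphere (0 : ℂ) 1 ⊆ A := fun w hw => by
    have := mem_sphere_zero_iff_norm.1 hw
    constructor <;> linarith
  have hin := @side _ _ _ H c k (3 * δ) (by positivity) hδ1 hc hci hk hki hb ho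
  obtain ⟨k', a1, a2, a3, a4⟩ := exists_cone (hc.mono hS) (hci.mono hS) hk hki hb
  rw [← a3] at ho hin ⊢
  obtain ⟨φ, p1, p2, p3, p4, p5⟩ := exists_profile hδ
  have q1 : φ (1 - 3 * δ) = 1 - 3 * δ := p5 _ (by rw [abs_of_neg] <;> linarith)
  have q2 : φ (1 + 3 * δ) = 1 + 3 * δ := p5 _ (by rw [abs_of_pos] <;> linarith)
  have q3 : ∀ t, φ t ∈ Ioo (1 - 3 * δ) (1 + 3 * δ) ↔ t ∈ Ioo (1 - 3 * δ) (1 + 3 * δ) := fun t => by
    conv_lhs => rw [← q1, ← q2]
    exact and_congr p2.lt_iff_lt p2.lt_iff_lt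
  have pos : ∀ z ∈ A, 0 < ‖z‖ := fun z hz => by linarith [hz.1]
  have nrm : ∀ z ∈ A, ∀ t ∈ Ioo (1 - 3 * δ) (1 + 3 * δ), ‖(t / ‖z‖) • z‖ = t := fun z hz t ht => by
    rw [norm_smul, Real.norm_of_nonneg (div_nonneg (by linarith [ht.1]) (norm_nonneg _)),
      div_mul_cancel₀ _ (pos z hz).ne']
  let u : A → A := fun z => ⟨(φ ‖z.1‖ / ‖z.1‖) • z.1, by
    have := (q3 _).2 z.2
    show _ ∈ Ioo _ _
    rwa [nrm z z.2 _ this]⟩
  have un : ∀ z, ‖(u z).1‖ = φ ‖z.1‖ := fun z => nrm z z.2 _ ((q3 _).2 z.2)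
  have uc : Continuous u := Continuous.subtype_mk (((p1.comp continuous_subtype_val.norm).div
    continuous_subtype_val.norm fun z => (pos z z.2).ne').smul continuous_subtype_val) _
  have ui : Injective u := fun z w e => by
    have h1 : ‖z.1‖ = ‖w.1‖ := p2.injective (by rw [← un, e, un])
    have h2 : (φ ‖z.1‖ / ‖z.1‖) • z.1 = (φ ‖w.1‖ / ‖w.1‖) • w.1 := congrArg Subtype.val e
    rw [h1] at h2
    exact Subtype.ext (smul_right_injective _ (div_pos (by linarith [((q3 _).2 w.2).1])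
      (pos w w.2)).ne' h2)
  have us : Surjective u := fun w => by
    obtain ⟨t, ht⟩ := p3 ‖w.1‖
    have h1 := (q3 t).1 (ht ▸ w.2)
    have h2 := nrm w w.2 t h1
    refine ⟨⟨(t / ‖w.1‖) • w.1, by show _ ∈ Ioo _ _; rwa [h2]⟩, Subtype.ext ?_⟩
    have h3 : t ≠ 0 := by linarith [h1.1]
    have h4 := (pos w w.2).ne'
    simp only [u, h2, ht, smul_smul]
    rw [show ‖w.1‖ / t * (t / ‖w.1‖) = 1 by field_simp, one_smul]
  have he : IsOpenEmbedding (A.domRestrict c) := by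
    refine .of_continuous_injective_isOpenMap hc.domRestrict hci.injective fun V hV => ?_
    have hs : Subtype.val '' V ⊆ A := Subtype.coe_image_subset _ _
    have := H ((isOpen_An _ _).isOpenMap_subtype_val V hV) (hc.mono hs) (hci.mono hs)
    rwa [image_image] at this
  have hK : IsCompact {z : A | |‖z.1‖ - 1| ≤ 2 * δ} := by
    refine Topology.IsEmbedding.subtypeVal.isCompact_iff.2 ?_
    have : Subtype.val '' {z : A | |‖z.1‖ - 1| ≤ 2 * δ} = {z : ℂ | |‖z‖ - 1| ≤ 2 * δ} := by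
      ext z
      refine ⟨by rintro ⟨w, hw, rfl⟩; exact hw, fun hz => ⟨⟨z, ?_⟩, hz, rfl⟩⟩
      have := abs_le.1 (show |‖z‖ - 1| ≤ 2 * δ from hz)
      constructor <;> linarith [this.1, this.2]
    rw [this]
    refine (isCompact_closedBall 0 2).of_isClosed_subset (isClosed_le (by fun_prop) continuous_const)
      fun z hz => mem_closedBall_zero_iff.2 ?_
    linarith [(abs_le.1 (show |‖z‖ - 1| ≤ 2 * δ from hz)).2]
  have uK : ∀ z, z ∉ {z : A | |‖z.1‖ - 1| ≤ 2 * δ} → u z = z := fun z hz => Subtype.ext (by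
    simp only [u]
    rw [p5 _ (not_le.1 hz).le, div_self (pos z z.2).ne', one_smul])
  set ρ := Glb47.push (A.domRestrict c) u with hρ
  have r1 : Continuous ρ := Glb47.continuous_push' he uc hK uK
  have r2 : ∀ z : A, ρ (c z) = c (u z) := Glb47.push_apply he.injective u
  have r3 : ∀ y, (¬∃ z : A, c z = y) → ρ y = y := fun y hy =>
    Glb47.push_of_notMem he.injective uK fun ⟨z, _, e⟩ => hy ⟨z, e⟩
  have r4 : Injective ρ := fun x y e => by
    by_cases a : ∃ z : A, c z = x <;> by_cases b : ∃ z : A, c z = y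
    · obtain ⟨z, rfl⟩ := a
      obtain ⟨w, rfl⟩ := b
      rw [r2, r2] at e
      rw [ui (he.injective e)]
    · obtain ⟨z, rfl⟩ := a
      exact absurd ⟨u z, by rw [← r2, e, r3 y b]⟩ b
    · obtain ⟨z, rfl⟩ := b
      exact absurd ⟨u z, by rw [← r2, ← e, r3 x a]⟩ a
    · rwa [r3 x a, r3 y b] at e
  have d0 : 0 < 1 - δ := by linarith
  have sc : ∀ z : ℂ, ‖(1 - δ)⁻¹ • z‖ = ‖z‖ / (1 - δ) := fun z => by
    rw [norm_smul, Real.norm_of_nonneg (by positivity), inv_mul_eq_div]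
  have sm : ∀ z : ℂ, ‖z‖ ≤ 1 - δ → (1 - δ)⁻¹ • z ∈ closedBall (0 : ℂ) 1 := fun z hz => by
    rwa [mem_closedBall_zero_iff, sc, div_le_one d0]
  let h : ℂ → M := fun z => if ‖z‖ ≤ 1 - δ then ρ (k' ((1 - δ)⁻¹ • z)) else c z
  have h1 : ∀ z, ‖z‖ ≤ 1 - δ → h z = ρ (k' ((1 - δ)⁻¹ • z)) := fun z hz => if_pos hz
  have h2 : ∀ z, 1 - δ ≤ ‖z‖ → h z = c z := fun z hz => by
    rcases hz.eq_or_lt with e | e
    · have n1 : ‖(1 - δ)⁻¹ • z‖ = 1 := by rw [sc, ← e, div_self d0.ne']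
      have m := mem_sphere_zero_iff_norm.2 n1
      rw [h1 z e.ge, a4 m, r2 ⟨_, hS m⟩]
      simp only [u, n1, p4, smul_smul, div_one, mul_inv_cancel₀ d0.ne', one_smul]
    · exact if_neg (not_le.2 e)
  have mA : ∀ z ∈ ball (0 : ℂ) (1 + 3 * δ), 1 - δ ≤ ‖z‖ → z ∈ A := fun z hz e =>
    ⟨by linarith, mem_ball_zero_iff.1 hz⟩
  have hne : ∀ z, ‖z‖ ≤ 1 - δ → ∀ w ∈ ball (0 : ℂ) (1 + 3 * δ), 1 - δ < ‖w‖ → h z ≠ h w := by
    intro z hz w hw hw' e
    obtain ⟨v, hv⟩ := us ⟨w, mA w hw hw'.le⟩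
    have e1 : c w = ρ (c v) := by rw [r2, hv]
    rw [h1 z hz, h2 w hw'.le, e1] at e
    refine ho v ⟨p2.lt_iff_lt.1 ?_, v.2.2⟩ ⟨_, sm z hz, r4 e⟩
    rw [p4, ← un, hv]; exact hw'
  have le1 : ∀ z : A, c z ∈ k' '' closedBall 0 1 → ‖z.1‖ ≤ 1 := fun z hz =>
    not_lt.1 fun c1 => ho z ⟨c1, z.2.2⟩ hz
  refine ⟨h, fun z hz => ?_, fun z hz w hw e => ?_, h2, Subset.antisymm ?_ ?_⟩
  · have c1 : ContinuousOn h (closedBall 0 (1 - δ)) := (r1.comp_continuousOn (a1.comp
      (continuous_const_smul _).continuousOn fun z hz => sm z (mem_closedBall_zero_iff.1 hz))).congr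
      fun z hz => h1 z (mem_closedBall_zero_iff.1 hz)
    have c2 : ContinuousOn h (ball 0 (1 + 3 * δ) ∩ {z | 1 - δ ≤ ‖z‖}) :=
      (hc.mono fun z hz => mA z hz.1 hz.2).congr fun z hz => h2 z hz.2
    have c3 : ContinuousWithinAt h (closedBall 0 (1 - δ)) z := by
      by_cases m : z ∈ closedBall (0 : ℂ) (1 - δ)
      · exact c1 z m
      · exact continuousWithinAt_of_notMem_closure (by rwa [isClosed_closedBall.closure_eq])
    have c4 : ContinuousWithinAt h (ball 0 (1 + 3 * δ) ∩ {z | 1 - δ ≤ ‖z‖}) z := by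
      by_cases m : 1 - δ ≤ ‖z‖
      · exact c2 z ⟨hz, m⟩
      · exact continuousWithinAt_of_notMem_closure fun h' => m (closure_minimal inter_subset_right
          (isClosed_le continuous_const continuous_norm) h')
    refine (c3.union c4).mono fun w hw => ?_
    rcases le_total ‖w‖ (1 - δ) with m | m
    exacts [Or.inl (mem_closedBall_zero_iff.2 m), Or.inr ⟨hw, m⟩]
  · rcases le_or_gt ‖z‖ (1 - δ) with a | a <;> rcases le_or_gt ‖w‖ (1 - δ) with b | b
    · rw [h1 z a, h1 w b] at e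
      exact smul_right_injective _ (inv_ne_zero d0.ne') (a2 (sm z a) (sm w b) (r4 e))
    · exact absurd e (hne z a w hw b)
    · exact absurd e.symm (hne w b z hz a)
    · rw [h2 z a.le, h2 w b.le] at e
      exact hci (mA z hz a.le) (mA w hw b.le) e
  · rintro _ ⟨z, hz, rfl⟩
    have z1 := mem_closedBall_zero_iff.1 hz
    rcases le_total ‖z‖ (1 - δ) with a | a
    · rw [h1 z a]
      by_cases b : ∃ w : A, c w = k' ((1 - δ)⁻¹ • z)
      · obtain ⟨w, e⟩ := b
        rw [← e, r2]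
        refine hin (u w).2 ?_
        rw [un]
        linarith [p2.monotone (le1 w ⟨_, sm z a, e.symm⟩)]
      · rw [r3 _ b]; exact ⟨_, sm z a, rfl⟩
    · rw [h2 z a]; exact hin ⟨by linarith, by linarith⟩ z1
  · have key : ∀ y ∈ k' '' closedBall 0 1, ρ y ∈ h '' closedBall 0 1 := by
      rintro _ ⟨v, hv, rfl⟩
      have n1 : ‖(1 - δ) • v‖ ≤ 1 - δ := by
        rw [norm_smul, Real.norm_of_nonneg d0.le]
        nlinarith [mem_closedBall_zero_iff.1 hv]
      exact ⟨(1 - δ) • v, mem_closedBall_zero_iff.2 (by linarith), by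
        rw [h1 _ n1, smul_smul, inv_mul_cancel₀ d0.ne', one_smul]⟩
    intro y hy
    by_cases b : ∃ w : A, c w = y
    · obtain ⟨w, rfl⟩ := b
      rcases le_total ‖w.1‖ (1 - δ) with a | a
      · obtain ⟨v, rfl⟩ := us w
        rw [← r2]
        refine key _ (hin v.2 (p2.le_iff_le.1 ?_))
        rwa [p4, ← un]
      · exact ⟨w, mem_closedBall_zero_iff.2 (le1 w hy), h2 w a⟩
    · rw [← r3 y b]; exact key y hy

/-- **DISC** -/
theorem disc [ChartedSpace HM M] {I : ModelWithCorners ℝ EM HM} [I.Boundaryless] [IsManifold I ∞ M]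
    (L : EM ≃L[ℝ] E2) {c k : ℂ → M} {ε : ℝ} (hε : 0 < ε)
    (hc : ∀ z ∈ An (1 - ε) (1 + ε), IsLocalDiffeomorphAt 𝓘(ℝ, ℂ) I ∞ c z)
    (hci : InjOn c (An (1 - ε) (1 + ε)))
    (hk : ContinuousOn k (closedBall 0 1)) (hki : InjOn k (closedBall 0 1))
    (hb : k '' sphere 0 1 = c '' sphere 0 1)
    (ho : ∀ z ∈ An 1 (1 + ε), c z ∉ k '' closedBall 0 1) :
    ∃ δ > 0, δ ≤ ε ∧ ∃ g : ℂ → M, (∀ z ∈ ball (0 : ℂ) (1 + δ), IsLocalDiffeomorphAt 𝓘(ℝ, ℂ) I ∞ g z) ∧
      InjOn g (ball 0 (1 + δ)) ∧ (∀ z, 1 - δ ≤ ‖z‖ → g z = c z) ∧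
      g '' closedBall 0 1 = k '' closedBall 0 1 := by
  classical
  set δ := min ε 1 / 3 with hδ
  have d0 : 0 < δ := by positivity
  have d1 : 3 * δ ≤ ε := by linarith [min_le_left ε 1]
  have d2 : 3 * δ ≤ 1 := by linarith [min_le_right ε 1]
  have hs : An (1 - 3 * δ) (1 + 3 * δ) ⊆ An (1 - ε) (1 + ε) := fun z hz =>
    ⟨by linarith [hz.1], by linarith [hz.2]⟩
  obtain ⟨h, h1, h2, h3, h4⟩ := exists_top (iod I L) d0 d2
    (fun z hz => (hc z (hs hz)).contMDiffAt.continuousAt.continuousWithinAt) (hci.mono hs) hk hki hb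
    fun z hz => ho z ⟨hz.1, by linarith [hz.2]⟩
  let B : Opens ℂ := ⟨ball 0 (1 + 3 * δ), isOpen_ball⟩
  let W : Opens M := ⟨h '' ball 0 (1 + 3 * δ), iod I L isOpen_ball h1 h2⟩
  have he : IsOpenEmbedding fun z : B => h z := by
    refine .of_continuous_injective_isOpenMap h1.domRestrict h2.injective fun V hV => ?_
    have hs : Subtype.val '' V ⊆ ball 0 (1 + 3 * δ) := Subtype.coe_image_subset _ _
    have := iod I L (B.2.isOpenMap_subtype_val V hV) (h1.mono hs) (h2.mono hs)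
    rwa [image_image] at this
  obtain ⟨η, hη⟩ := exists_homeo (f := (Subtype.val : W → M)) IsEmbedding.subtypeVal he.isEmbedding
    (by rw [Subtype.range_coe]; exact range_domRestrict h _)
  have : PreconnectedSpace B := Subtype.preconnectedSpace (convex_ball _ _).isPreconnected
  have : PreconnectedSpace W := η.surjective.denseRange.preconnectedSpace η.continuous
  have lv : IsLocalDiffeomorph 𝓘(ℝ, ℂ) 𝓘(ℝ, E2) ∞ fun z : B => cE z :=
    ld_comp (g := cE) (ld_clm cE) (ld_val B)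
  obtain ⟨ψ, p1, p2⟩ := mp (I := I) L (f := fun y : W => cE (η.symm y))
    ((cE.toHomeomorph.isOpenEmbedding.comp B.2.isOpenEmbedding_subtypeVal).comp
      η.symm.isOpenEmbedding) (A := {y | 1 - δ / 2 ≤ ‖(η.symm y : ℂ)‖})
    (D := η '' {z | ‖(z : ℂ)‖ ≤ 1}) (isClosed_le continuous_const (by fun_prop))
    ⟨η ⟨1, by simpa [B] using d0⟩, by simpa using (half_pos d0).le⟩
    ((Topology.IsEmbedding.subtypeVal.isCompact_iff.2 (by
      convert isCompact_closedBall (0 : ℂ) 1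
      ext z
      refine ⟨by rintro ⟨w, hw, rfl⟩; simpa using hw, fun hz => ⟨⟨z, ?_⟩, by simpa using hz, rfl⟩⟩
      exact closedBall_subset_ball (by linarith) hz)).image η.continuous) (fun y hy => by
    obtain ⟨z, rfl⟩ := η.surjective y
    have hz : 1 - δ / 2 ≤ ‖(z : ℂ)‖ := by simpa using hy
    have l1 : IsLocalDiffeomorphAt 𝓘(ℝ, ℂ) I ∞ h z := by
      refine ld_congr (hc z (hs ⟨by linarith, mem_ball_zero_iff.1 z.2⟩)) ?_
      filter_upwards [(isOpen_lt continuous_const continuous_norm).mem_nhds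
        (show 1 - δ < ‖(z : ℂ)‖ by linarith)] with w hw using h3 w (le_of_lt hw)
    have l2 : IsLocalDiffeomorphAt 𝓘(ℝ, ℂ) I ∞ η z :=
      ld_codRestrict (by rw [show Subtype.val ∘ η = fun z : B => h z from funext hη]
                         exact ld_restrict l1)
    refine ld_of_comp l2 (ld_congr (lv z) (Eventually.of_forall fun w => ?_))
    simp)
  let G : B ≃ₜ W := η.trans ψ.symm
  have lG : IsLocalDiffeomorph 𝓘(ℝ, ℂ) I ∞ G := fun z => by
    refine ld_of_comp_left (p2 (G z) ?_) G.continuous.continuousAt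
      (ld_congr (lv z) (Eventually.of_forall fun w => ?_))
    · obtain ⟨w, e⟩ := η.surjective (G z)
      rw [← e]
      rcases le_total ‖(w : ℂ)‖ 1 with c1 | c1
      · exact Or.inr ⟨w, c1, rfl⟩
      · left; simp only [mem_ofPred_eq, η.symm_apply_apply]; linarith
    · simp [G]
  have GA : ∀ z : B, 1 - δ / 2 ≤ ‖(z : ℂ)‖ → G z = η z := fun z hz =>
    (p1.symm.ev (x := η z) fun h' => h' (by simpa using hz)).self_of_nhds
  let g : ℂ → M := fun z => if hz : z ∈ B then (G ⟨z, hz⟩ : M) else c z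
  have g1 : ∀ z : B, g z = G z := fun z => dif_pos z.2
  have mB : ball (0 : ℂ) (1 + δ / 2) ⊆ B := ball_subset_ball (by linarith)
  have mB' : closedBall (0 : ℂ) 1 ⊆ B := closedBall_subset_ball (by linarith)
  refine ⟨δ / 2, by positivity, by linarith, g, fun z hz => ?_, fun z hz w hw e => ?_,
    fun z hz => ?_, ?_⟩
  · refine ld_of_comp (ld_val B ⟨z, mB hz⟩) ?_
    rw [show g ∘ Subtype.val = Subtype.val ∘ G from funext g1]
    exact ld_comp (ld_val W) lG _
  · rw [g1 ⟨z, mB hz⟩, g1 ⟨w, mB hw⟩] at e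
    exact congrArg Subtype.val (G.injective (Subtype.ext e))
  · by_cases m : z ∈ B
    · rw [g1 ⟨z, m⟩, GA ⟨z, m⟩ hz, hη, h3 z (by linarith)]
    · exact dif_neg m
  · rw [← h4]
    refine Subset.antisymm ?_ ?_
    · rintro _ ⟨z, hz, rfl⟩
      obtain ⟨w, e⟩ := η.surjective (G ⟨z, mB' hz⟩)
      refine ⟨w, mem_closedBall_zero_iff.2 (not_lt.1 fun c1 => ?_), by rw [g1 ⟨z, mB' hz⟩, ← e, hη]⟩
      rw [← GA w (by linarith)] at e
      rw [G.injective e] at c1
      exact absurd (mem_closedBall_zero_iff.1 hz) (not_le.2 c1)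
    · rintro _ ⟨z, hz, rfl⟩
      obtain ⟨w, e⟩ := G.surjective (η ⟨z, mB' hz⟩)
      refine ⟨w, mem_closedBall_zero_iff.2 (not_lt.1 fun c1 => ?_), by rw [g1, e, hη]⟩
      rw [GA w (by linarith)] at e
      rw [η.injective e] at c1
      exact absurd (mem_closedBall_zero_iff.1 hz) (not_le.2 c1)

end Crest.Agent.X212.Sm25
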