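import Crest.Agent.X212.Sm25.Disc
import Crest.Agent.X212.Flo26.More
import Crest.Agent.X212.Lad50.Alex
import Crest.Agent.X212.Smo49.Wrap
import Crest.Agent.X212.Sol49.Top
import Crest.Agent.X212.Thk1.PL
import Crest.Agent.R105.Iod1_690
import Crest.Agent.R096.Pb1_715
import Crest.Agent.R096.Cb3_609

-- ▼ part X212/Sm25/Imm
section

/-!
Row 212, layer H, package FILL (helper25), part 1: immersions, global flows, and the disc theorem
in a regular level surface of `ℝ³`.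
-/

set_option autoImplicit false
set_option linter.style.longLine false
set_option linter.unusedSectionVars false

open Set Filter Topology Function Metric
open scoped ContDiff Manifold
open Crest.Agent.X212.Glue52

noncomputable section

namespace Crest.Agent.X212.Sm25

section Imm
variable {E F G : Type*} [NormedAddCommGroup E] [NormedSpace ℝ E] [NormedAddCommGroup F]
  [NormedSpace ℝ F] [NormedAddCommGroup G] [NormedSpace ℝ G]

/-- smooth near `z`, injective differential at `z` -/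
def Imm (g : E → F) (z : E) : Prop :=
  (∀ᶠ y in 𝓝 z, ContDiffAt ℝ ∞ g y) ∧ Injective (fderiv ℝ g z)

variable {f : E → F} {g : F → G} {z : E}

theorem Imm.cd (h : Imm f z) : ContDiffAt ℝ ∞ f z := h.1.self_of_nhds

theorem Imm.df (h : Imm f z) : DifferentiableAt ℝ f z := h.cd.differentiableAt (by simp)

theorem Imm.congr {f' : E → F} (h : Imm f z) (e : f' =ᶠ[𝓝 z] f) : Imm f' z := by
  refine ⟨?_, by rw [e.fderiv_eq]; exact h.2⟩
  filter_upwards [h.1, e.eventually_nhds] with y hy ey using hy.congr_of_eventuallyEq ey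

theorem Imm.comp (hg : Imm g (f z)) (hf : Imm f z) : Imm (g ∘ f) z := by
  refine ⟨?_, by rw [fderiv_comp z hg.df hf.df]; exact hg.2.comp hf.2⟩
  filter_upwards [hf.1, hf.cd.continuousAt.eventually hg.1] with y a b using b.comp y a

theorem Imm.of_comp (hf : ∀ᶠ y in 𝓝 z, ContDiffAt ℝ ∞ f y) (hg : DifferentiableAt ℝ g (f z))
    (h : Injective (fderiv ℝ (g ∘ f) z)) : Imm f z := by
  rw [fderiv_comp z hg (hf.self_of_nhds.differentiableAt (by simp))] at h
  exact ⟨hf, Injective.of_comp (f := fderiv ℝ g (f z)) h⟩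

theorem imm_of_ld (h : IsLocalDiffeomorphAt 𝓘(ℝ, E) 𝓘(ℝ, F) ∞ f z) : Imm f z := by
  refine ⟨?_, ?_⟩
  · filter_upwards [(isOpen_ld f).mem_nhds h] with y hy
      using contMDiffAt_iff_contDiffAt.1 hy.contMDiffAt
  · have e2 := h.mfderivToContinuousLinearEquiv_coe (by simp)
    rw [mfderiv_eq_fderiv] at e2
    rw [← e2]
    exact (h.mfderivToContinuousLinearEquiv (by simp)).injective

theorem Imm.ld [FiniteDimensional ℝ E] [FiniteDimensional ℝ F] (h : Imm f z)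
    (hd : Module.finrank ℝ E = Module.finrank ℝ F) :
    IsLocalDiffeomorphAt 𝓘(ℝ, E) 𝓘(ℝ, F) ∞ f z := by
  obtain ⟨s, hs, so, xs⟩ := _root_.eventually_nhds_iff.1 h.1
  refine ld_of_injective_mfderiv hd so xs
    (contMDiffOn_iff_contDiffOn.2 fun y hy => (hs y hy).contDiffWithinAt) ?_
  rw [mfderiv_eq_fderiv]
  exact h.2

theorem Imm.ev [FiniteDimensional ℝ E] (h : Imm f z) : ∀ᶠ y in 𝓝 z, Imm f y := by
  have h1 : ContinuousAt (fderiv ℝ f) z := (h.cd.fderiv_right (m := 0) (by simp)).continuousAt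
  filter_upwards [h.1.eventually_nhds, h1.eventually
    (ContinuousLinearMap.isOpen_injective.mem_nhds h.2)] with y a b using ⟨a, b⟩

theorem ld_inj {H H' M N : Type*} [TopologicalSpace H] [TopologicalSpace H']
    {I : ModelWithCorners ℝ E H} {J : ModelWithCorners ℝ F H'} [TopologicalSpace M]
    [ChartedSpace H M] [TopologicalSpace N] [ChartedSpace H' N] {f : M → N} {x : M}
    (h : IsLocalDiffeomorphAt I J ∞ f x) : (∃ u ∈ 𝓝 x, InjOn f u) ∧ map f (𝓝 x) = 𝓝 (f x) := by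
  obtain ⟨Φ, hx, e⟩ := h
  have m := Φ.open_source.mem_nhds hx
  refine ⟨⟨_, m, fun a ha b hb h => Φ.injOn ha hb (by rw [← e ha, ← e hb]; exact h)⟩, ?_⟩
  rw [map_congr (e.eventuallyEq_of_mem m), e hx]
  exact Φ.toOpenPartialHomeomorph.map_nhds_eq hx

theorem fderiv_zero_of_const {l : F → ℝ} {c : ℝ} (hl : DifferentiableAt ℝ l (f z))
    (hf : DifferentiableAt ℝ f z) (h : ∀ᶠ y in 𝓝 z, l (f y) = c) (w : E) :
    fderiv ℝ l (f z) (fderiv ℝ f z w) = 0 := by
  have h1 : fderiv ℝ (l ∘ f) z = 0 := by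
    rw [EventuallyEq.fderiv_eq (f₁ := l ∘ f) (f := fun _ => c) h]; simp
  rw [fderiv_comp z hl hf] at h1
  exact congrArg (fun A : E →L[ℝ] ℝ => A w) h1

/-- a global smooth flow -/
structure Fw (X : F → F) (φ : ℝ → F → F) : Prop where
  sm : ContDiff ℝ ∞ fun q : ℝ × F => φ q.1 q.2
  zero : ∀ x, φ 0 x = x
  add : ∀ s t x, φ (s + t) x = φ s (φ t x)
  der : ∀ x t, HasDerivAt (fun s => φ s x) (X (φ t x)) t

theorem exists_fw [CompleteSpace F] {X : F → F} (hX : ContDiff ℝ ∞ X) {K : Set F}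
    (hK : IsCompact K) (h0 : ∀ x ∉ K, X x = 0) : ∃ φ, Fw X φ := by
  have hv : Flo26.SmV 𝓘(ℝ, F) X := Flo26.smV_model.2 hX
  have hc : Flo26.Cpl (I := 𝓘(ℝ, F)) X := Flo26.complete_of_compact hv hK h0
  refine ⟨Flo26.fl (I := 𝓘(ℝ, F)) X, ?_, Flo26.fl_zero hv, hc.add hv, fun x t =>
    hasMFDerivAt_iff_hasFDerivAt.1 (hc.curve hv x t)⟩
  have := hc.contMDiff hv
  rw [← modelWithCornersSelf_prod, chartedSpaceSelf_prod] at this
  exact this.contDiff

namespace Fw
variable {X : F → F} {φ : ℝ → F → F} (h : Fw X φ)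
include h

theorem neg (t : ℝ) (x : F) : φ (-t) (φ t x) = x := by rw [← h.add, neg_add_cancel, h.zero]

theorem cd (t : ℝ) : ContDiff ℝ ∞ (φ t) := h.sm.comp (f := fun x => (t, x)) (by fun_prop)

theorem imm (t : ℝ) (x : F) : Imm (φ t) x :=
  .of_comp (g := φ (-t)) (Eventually.of_forall fun _ => (h.cd t).contDiffAt)
    ((h.cd _).differentiable (by simp) _) (by
      rw [show φ (-t) ∘ φ t = id from funext (h.neg t), fderiv_id]; exact injective_id)

theorem cdAt {τ : E → ℝ} (hτ : ContDiffAt ℝ ∞ τ z) (hf : ContDiffAt ℝ ∞ f z) :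
    ContDiffAt ℝ ∞ (fun y => φ (τ y) (f y)) z :=
  h.sm.contDiffAt.comp (f := fun y => (τ y, f y)) z (hτ.prodMk hf)

/-- a function with constant derivative along the field -/
theorem ev_add {l : F → ℝ} {κ : ℝ} (hf : ContinuousAt f z)
    (hl : ∀ᶠ y in 𝓝 (f z), DifferentiableAt ℝ l y ∧ fderiv ℝ l y (X y) = κ) :
    ∀ᶠ q : E × ℝ in 𝓝 (z, 0), l (φ q.2 (f q.1)) = l (f q.1) + q.2 * κ := by
  have c : ContinuousAt (fun q : E × ℝ => φ q.2 (f q.1)) (z, 0) :=
    h.sm.continuous.continuousAt.comp (f := fun q : E × ℝ => (q.2, f q.1))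
      (continuousAt_snd.prodMk (ContinuousAt.comp (f := Prod.fst) hf continuousAt_fst))
  have h1 := c.eventually (by simpa only [h.zero] using hl)
  rw [nhds_prod_eq] at h1 ⊢
  obtain ⟨A, hA, T, hT, h2⟩ := eventually_prod_iff.1 h1
  obtain ⟨ε, hε, h3⟩ := Metric.eventually_nhds_iff_ball.1 hT
  filter_upwards [prod_mem_prod hA (ball_mem_nhds 0 hε)] with ⟨y, a⟩ ⟨h4, h5⟩
  have h6 : ∀ s ∈ ball (0 : ℝ) ε, HasDerivWithinAt (fun s => l (φ s (f y)) - s * κ) 0 (ball 0 ε) s :=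
    fun s hs => by
      obtain ⟨b1, b2⟩ := h2 h4 (h3 s hs)
      have := (b1.hasFDerivAt.comp_hasDerivAt s (h.der (f y) s)).sub ((hasDerivAt_id s).mul_const κ)
      rw [b2, one_mul, sub_self] at this
      exact this.hasDerivWithinAt
  have h7 := (convex_ball (0 : ℝ) ε).norm_image_sub_le_of_norm_hasDerivWithin_le (C := 0) h6
    (fun _ _ => by simp) (mem_ball_self hε) h5
  simp only [h.zero, zero_mul, sub_zero, norm_le_zero_iff] at h7
  linarith

/-- thickening of an immersion along a transverse field -/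
theorem thick (hf : Imm f z) {l : F →L[ℝ] ℝ} (h1 : ∀ w, l (fderiv ℝ f z w) = 0)
    (h2 : l (X (f z)) ≠ 0) (a : ℝ) : Imm (fun q : E × ℝ => φ q.2 (f q.1)) (z, a) := by
  have sm : ∀ᶠ q : E × ℝ in 𝓝 (z, 0), ContDiffAt ℝ ∞ (fun q : E × ℝ => φ q.2 (f q.1)) q := by
    filter_upwards [(continuousAt_fst (p := (z, (0 : ℝ)))).eventually hf.1] with q hq
      using h.cdAt contDiffAt_snd (hq.comp q contDiffAt_fst)
  have i0 : Imm (fun q : E × ℝ => φ q.2 (f q.1)) (z, 0) := by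
    refine ⟨sm, (injective_iff_map_eq_zero _).2 fun w hw => ?_⟩
    have d := (sm.self_of_nhds.differentiableAt (by simp)).hasFDerivAt
    set D := fderiv ℝ (fun q : E × ℝ => φ q.2 (f q.1)) (z, 0)
    have d1 : HasFDerivAt f (D.comp (ContinuousLinearMap.inl ℝ E ℝ)) z := by
      simpa only [comp_def, h.zero] using
        d.comp (f := fun e : E => (e, (0 : ℝ))) z (hasFDerivAt_prodMk_left (𝕜 := ℝ) z (0 : ℝ))
    have d2 : HasDerivAt (fun s => φ s (f z)) (D (0, 1)) 0 :=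
      d.comp_hasDerivAt (f := fun s : ℝ => (z, s)) 0
        ((hasDerivAt_const _ z).prodMk (hasDerivAt_id _))
    have e2 : D (0, 1) = X (f z) := by rw [d2.unique (h.der _ 0), h.zero]
    have e3 : D w = fderiv ℝ f z w.1 + w.2 • X (f z) := by
      rw [d1.fderiv, ← e2, ← map_smul, ContinuousLinearMap.comp_apply, ← map_add]
      simp
    rw [e3] at hw
    have e4 := congrArg l hw
    rw [map_add, h1, map_smul, zero_add, map_zero, smul_eq_zero] at e4
    have e5 := e4.resolve_right h2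
    rw [e5, zero_smul, add_zero] at hw
    exact Prod.ext ((injective_iff_map_eq_zero _).1 hf.2 _ hw) e5
  have i1 : Imm (fun q : E × ℝ => q - (0, a)) (z, a) :=
    ⟨Eventually.of_forall fun _ => by fun_prop, by
      rw [fderiv_sub_const, fderiv_fun_id]; exact injective_id⟩
  refine ((h.imm a _).comp (Imm.comp (by simpa using i0) i1)).congr
    (Eventually.of_forall fun q => ?_)
  simp [← h.add]

end Fw

/-- a compactly supported smooth solution of convex conditions near a compact set -/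
theorem exists_field [FiniteDimensional ℝ E] {K : Set E} (hK : IsCompact K) {t : E → Set F}
    (ht : ∀ y, Convex ℝ (t y))
    (h : ∀ x ∈ K, ∃ V ∈ 𝓝 x, ∃ g : E → F, ContDiffOn ℝ ∞ g V ∧ ∀ y ∈ V, g y ∈ t y) :
    ∃ (X : E → F) (K' : Set E), ContDiff ℝ ∞ X ∧ IsCompact K' ∧ (∀ y ∉ K', X y = 0) ∧
      ∀ᶠ y in 𝓝ˢ K, X y ∈ t y := by
  have hO : IsOpen {x | ∃ V ∈ 𝓝 x, ∃ g : E → F, ContDiffOn ℝ ∞ g V ∧ ∀ y ∈ V, g y ∈ t y} :=
    isOpen_iff_mem_nhds.2 fun x ⟨V, hV, r⟩ => by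
      filter_upwards [eventually_mem_nhds_iff.2 hV] with y hy using ⟨V, hy, r⟩
  obtain ⟨K1, a1, a2, a3⟩ := exists_compact_between hK hO h
  obtain ⟨K2, b1, b2, -⟩ := exists_compact_between a1 isOpen_univ (subset_univ _)
  obtain ⟨g, hg⟩ := exists_contMDiffMap_forall_mem_convex_of_local (n := (⊤ : ℕ∞)) 𝓘(ℝ, E)
    (t := fun y => {w : F | (y ∈ K1 → w ∈ t y) ∧ (y ∉ K2 → w = 0)})
    (fun y w hw w' hw' a b ha hb hab => ⟨fun m => ht y (hw.1 m) (hw'.1 m) ha hb hab,
      fun m => by rw [hw.2 m, hw'.2 m]; simp⟩) fun x => by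
      by_cases hx : x ∈ K1
      · obtain ⟨V, hV, g, g1, g2⟩ := a3 hx
        exact ⟨_, inter_mem hV (mem_interior_iff_mem_nhds.1 (b2 hx)), g,
          (g1.mono inter_subset_left).contMDiffOn, fun y hy => ⟨fun _ => g2 y hy.1,
            fun m => absurd hy.2 m⟩⟩
      · exact ⟨_, a1.isClosed.isOpen_compl.mem_nhds hx, fun _ => 0, contMDiffOn_const,
          fun y hy => ⟨fun m => absurd m hy, fun _ => rfl⟩⟩
  refine ⟨g, K2, g.contMDiff.contDiff, b1, fun y => (hg y).2, ?_⟩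
  filter_upwards [isOpen_interior.mem_nhdsSet.2 a2] with y hy using (hg y).1 (interior_subset hy)

/-- cut-off functions -/
theorem exists_bump [FiniteDimensional ℝ E] {K O : Set E} (hK : IsCompact K) (hO : IsOpen O)
    (h : K ⊆ O) : ∃ (χ : E → ℝ) (K' : Set E), ContDiff ℝ ∞ χ ∧ IsCompact K' ∧ K' ⊆ O ∧
      (∀ y, χ y ∈ Icc (0 : ℝ) 1) ∧ (∀ y ∉ K', χ y = 0) ∧ ∀ᶠ y in 𝓝ˢ K, χ y = 1 := by
  obtain ⟨K', a1, a2, a3⟩ := exists_compact_between hK hO h
  obtain ⟨f, b1, b2, b3⟩ := exists_contMDiffMap_one_nhds_of_subset_interior (n := (⊤ : ℕ∞))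
    𝓘(ℝ, E) hK.isClosed a2
  exact ⟨f, K', f.contMDiff.contDiff, a1, a3, b3, b2, b1⟩

end Imm

open Crest.Agent.X212.Glb47 (E3)

section Level
variable {f : E3 → ℝ} {O : Set E3} {c : ℝ}

theorem exists_chart (hO : IsOpen O) (hf : ContDiffOn ℝ ∞ f O) (h0 : ∀ y ∈ O, fderiv ℝ f y ≠ 0)
    (x : {y // y ∈ O ∧ f y = c}) :
    ∃ (e : OpenPartialHomeomorph {y // y ∈ O ∧ f y = c} E2) (L : E3 →L[ℝ] E2), x ∈ e.source ∧
      (∀ y, e y = L y) ∧ ContDiffOn ℝ ∞ (fun z => (e.symm z : E3)) e.target ∧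
      ∀ w, L w = 0 → fderiv ℝ f x w = 0 → w = 0 := by
  classical
  set D := fderiv ℝ f x with hD
  have hk : Module.finrank ℝ (LinearMap.ker D.toLinearMap) = Module.finrank ℝ E2 := by
    have := Module.Dual.finrank_ker_add_one_of_ne_zero (f := D.toLinearMap)
      fun h => h0 _ x.2.1 (ContinuousLinearMap.coe_injective h)
    simp only [finrank_euclideanSpace, Fintype.card_fin] at this ⊢
    omega
  let L : E3 →L[ℝ] E2 := (ContinuousLinearEquiv.ofFinrankEq hk : _ →L[ℝ] E2).comp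
    (LinearMap.ker D.toLinearMap).orthogonalProjectionOnto
  have hL : ∀ w, L w = 0 → D w = 0 → w = 0 := fun w h1 h2 => by
    have h3 : (LinearMap.ker D.toLinearMap).orthogonalProjectionOnto w = 0 :=
      (ContinuousLinearEquiv.ofFinrankEq hk).map_eq_zero_iff.1 h1
    exact congrArg Subtype.val ((Submodule.orthogonalProjectionOnto_mem_subspace_eq_self
      (K := LinearMap.ker D.toLinearMap) ⟨w, h2⟩).symm.trans h3)
  have d := ((hf.contDiffAt (hO.mem_nhds x.2.1)).differentiableAt (by simp)).hasFDerivAt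
  have i : Imm (fun y => (L y, f y - c)) x := by
    refine ⟨?_, ?_⟩
    · filter_upwards [hO.mem_nhds x.2.1] with y hy using
        L.contDiff.contDiffAt.prodMk ((hf.contDiffAt (hO.mem_nhds hy)).sub contDiffAt_const)
    · rw [(L.hasFDerivAt.prodMk (d.sub_const c)).fderiv]
      exact (injective_iff_map_eq_zero _).2 fun w hw =>
        hL w (congrArg Prod.fst hw) (congrArg Prod.snd hw)
  obtain ⟨Φ0, x0, e0⟩ := i.ld (by simp)
  let Φ := pdRestr Φ0 O hO
  have e : ∀ y ∈ Φ.source, Φ y = (L y, f y - c) := fun y hy => (e0 hy.1).symm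
  have r : ∀ z, (z, (0 : ℝ)) ∈ Φ.target → (L (Φ.symm (z, 0)), f (Φ.symm (z, 0)) - c) = (z, 0) :=
    fun z hz => (e _ (Φ.map_target hz)).symm.trans (Φ.right_inv hz)
  let k : E2 → {y // y ∈ O ∧ f y = c} := fun z => if hz : (z, (0 : ℝ)) ∈ Φ.target then
    ⟨Φ.symm (z, 0), (Φ.map_target hz).2, sub_eq_zero.1 (congrArg Prod.snd (r z hz))⟩ else x
  have kv : ∀ z, (z, (0 : ℝ)) ∈ Φ.target → (k z : E3) = Φ.symm (z, 0) := fun z hz =>
    congrArg Subtype.val (dif_pos hz)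
  have e' : ∀ y : {y // y ∈ O ∧ f y = c}, (y : E3) ∈ Φ.source → Φ y = (L y, 0) := fun y hy => by
    rw [e _ hy, y.2.2, sub_self]
  have sm : ContDiffOn ℝ ∞ (fun z => (k z : E3)) {z | (z, (0 : ℝ)) ∈ Φ.target} :=
    ((contMDiffOn_iff_contDiffOn.1 Φ.contMDiffOn_invFun).comp (f := fun z : E2 => (z, (0 : ℝ)))
      (by fun_prop) fun z hz => hz).congr kv
  refine ⟨{ toFun := fun y => L y, invFun := k, source := Subtype.val ⁻¹' Φ.source
            target := {z | (z, (0 : ℝ)) ∈ Φ.target}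
            map_source' := fun y hy => by
              show _ ∈ Φ.target
              rw [← e' y hy]; exact Φ.map_source hy
            map_target' := fun z hz => by
              show _ ∈ Φ.source
              rw [kv z hz]; exact Φ.map_target hz
            left_inv' := fun y hy => Subtype.ext (by
              rw [kv _ (by rw [← e' y hy]; exact Φ.map_source hy), ← e' y hy]; exact Φ.left_inv hy)
            right_inv' := fun z hz => by rw [kv z hz]; exact congrArg Prod.fst (r z hz)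
            open_source := Φ.open_source.preimage continuous_subtype_val
            open_target := Φ.open_target.preimage (by fun_prop)
            continuousOn_toFun := (L.continuous.comp continuous_subtype_val).continuousOn
            continuousOn_invFun := IsInducing.subtypeVal.continuousOn_iff.2 sm.continuousOn },
    L, ⟨x0, x.2.1⟩, fun _ => rfl, sm, hL⟩

/-- **DISC** in a regular level surface -/
theorem disc3 (hO : IsOpen O) (hf : ContDiffOn ℝ ∞ f O) (h0 : ∀ y ∈ O, fderiv ℝ f y ≠ 0)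
    {a k : ℂ → E3} {ε : ℝ} (hε : 0 < ε)
    (ha : ∀ z ∈ An (1 - ε) (1 + ε), Imm a z ∧ a z ∈ O ∧ f (a z) = c)
    (hai : InjOn a (An (1 - ε) (1 + ε)))
    (hk : ContinuousOn k (closedBall 0 1)) (hki : InjOn k (closedBall 0 1))
    (hkm : ∀ z ∈ closedBall (0 : ℂ) 1, k z ∈ O ∧ f (k z) = c)
    (hb : k '' sphere 0 1 = a '' sphere 0 1)
    (ho : ∀ z ∈ An 1 (1 + ε), a z ∉ k '' closedBall 0 1) :
    ∃ δ > 0, ∃ g : ℂ → E3, (∀ z ∈ ball (0 : ℂ) (1 + δ), Imm g z ∧ f (g z) = c) ∧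
      InjOn g (ball 0 (1 + δ)) ∧ (∀ z ∈ An (1 - δ) (1 + δ), g z = a z) ∧
      g '' closedBall 0 1 = k '' closedBall 0 1 := by
  classical
  choose e L e1 e2 e3 e4 using exists_chart (c := c) hO hf h0
  let A : Atl E2 {y // y ∈ O ∧ f y = c} {y // y ∈ O ∧ f y = c} :=
    ⟨e, fun x => ⟨x, e1 x⟩, fun i j => (((L j).contDiff.comp_contDiffOn (e3 i)).mono
      fun z hz => hz.1).congr fun z _ => e2 j _⟩
  let _ := A.cs
  have := A.mf
  let up : (ℂ → E3) → ℂ → {y // y ∈ O ∧ f y = c} := fun u z =>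
    if h : u z ∈ O ∧ f (u z) = c then ⟨u z, h⟩ else ⟨k 0, hkm 0 (by simp)⟩
  have upv : ∀ u z, u z ∈ O ∧ f (u z) = c → (up u z : E3) = u z := fun u z h =>
    congrArg Subtype.val (dif_pos h)
  have hS : sphere (0 : ℂ) 1 ⊆ An (1 - ε) (1 + ε) := fun w hw => by
    have := mem_sphere_zero_iff_norm.1 hw
    constructor <;> linarith
  have im : ∀ (u : ℂ → E3) (s : Set ℂ), (∀ z ∈ s, u z ∈ O ∧ f (u z) = c) →
      Subtype.val '' (up u '' s) = u '' s := fun u s h => by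
    rw [image_image]; exact image_congr fun z hz => upv u z (h z hz)
  obtain ⟨δ, d0, d1, g, g1, g2, g3, g4⟩ := disc (I := 𝓘(ℝ, E2)) (.refl ℝ E2) (c := up a)
    (k := up k) hε (fun z hz => by
      have ev : ∀ᶠ w in 𝓝 z, (up a w : E3) = a w ∧ f (a w) = c := by
        filter_upwards [(isOpen_An _ _).mem_nhds hz] with w hw
          using ⟨upv a w (ha w hw).2, (ha w hw).2.2⟩
      refine A.ld_of_chart (IsInducing.subtypeVal.continuousAt_iff.2
        ((ha z hz).1.cd.continuousAt.congr (ev.mono fun w hw => hw.1.symm))) (up a z) (e1 _)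
        (Imm.ld (Imm.congr (f := L (up a z) ∘ a) ⟨?_, ?_⟩ ?_) (by simp))
      · filter_upwards [(ha z hz).1.1] with w hw using (L _).contDiff.contDiffAt.comp w hw
      · rw [fderiv_comp z (L _).differentiableAt (ha z hz).1.df, ContinuousLinearMap.fderiv]
        refine (injective_iff_map_eq_zero _).2 fun w hw =>
          (injective_iff_map_eq_zero _).1 (ha z hz).1.2 w (e4 _ _ hw ?_)
        rw [ev.self_of_nhds.1]
        exact fderiv_zero_of_const ((hf.contDiffAt (hO.mem_nhds (ha z hz).2.1)).differentiableAt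
          (by simp)) (ha z hz).1.df (ev.mono fun w hw => hw.2) w
      · filter_upwards [ev] with w hw
        show e _ (up a w) = L _ (a w)
        rw [e2, hw.1])
    (fun z hz w hw h => hai hz hw (by
      rw [← upv a z (ha z hz).2, h, upv a w (ha w hw).2]))
    (IsInducing.subtypeVal.continuousOn_iff.2 (hk.congr fun z hz => upv k z (hkm z hz)))
    (fun z hz w hw h => hki hz hw (by rw [← upv k z (hkm z hz), h, upv k w (hkm w hw)]))
    (Subtype.val_injective.image_injective (by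
      rw [im k _ fun z hz => hkm z (sphere_subset_closedBall hz), im a _ fun z hz => (ha z (hS hz)).2,
        hb])) fun z hz h => ho z hz (by
      rw [← im k _ hkm, ← upv a z (ha z ⟨by linarith [hz.1], hz.2⟩).2]
      exact mem_image_of_mem _ h)
  refine ⟨δ, d0, fun z => g z, fun z hz => ⟨?_, (g z).2.2⟩,
    fun z hz w hw h => g2 hz hw (Subtype.ext h), fun z hz => ?_, by
      rw [← im k _ hkm, ← g4, image_image]⟩
  · have i := imm_of_ld ((g1 z hz).comp _ _ (A.ld_e (g z) (e1 _)))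
    have c1 := (g1 z hz).contMDiffAt.continuousAt
    refine Imm.of_comp (g := L (g z)) ?_ (L _).differentiableAt ?_
    · filter_upwards [i.1, (c1.eventually ((e (g z)).open_source.mem_nhds (e1 _))).eventually_nhds]
        with w a1 a2
      refine (((e3 (g z)).contDiffAt ((e _).open_target.mem_nhds
        ((e _).map_source a2.self_of_nhds))).comp w a1).congr_of_eventuallyEq ?_
      filter_upwards [a2] with u hu using congrArg Subtype.val ((e _).left_inv hu).symm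
    · rw [show (L (g z) ∘ fun z => (g z : E3)) = A.e (g z) ∘ g from funext fun w => (e2 _ _).symm]
      exact i.2
  · simp only [g3 z hz.1.le]
    exact upv a z (ha z ⟨by linarith [hz.1], by linarith [hz.2]⟩).2

end Level

end Crest.Agent.X212.Sm25
end
end

-- ▼ part X212/Sm25/Cor
section

/-!
Row 212, layer H, package FILL (helper25), part 2: the corner `{p = c, m = c}` is a smooth circle
with a collar in `{p = c}`.
-/

set_option autoImplicit false
set_option linter.style.longLine false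
set_option linter.unusedSectionVars false

open Set Filter Topology Function Metric
open scoped ContDiff Manifold
open Crest.Agent.X212.Glue52

noncomputable section

namespace Crest.Agent.X212.Sm25

section Gen
variable {E F G : Type*} [NormedAddCommGroup E] [NormedSpace ℝ E] [NormedAddCommGroup F]
  [NormedSpace ℝ F] [NormedAddCommGroup G] [NormedSpace ℝ G]

theorem Imm.of_ld {f : E → F} {g : F → G} {z : E}
    (hf : IsLocalDiffeomorphAt 𝓘(ℝ, E) 𝓘(ℝ, F) ∞ f z) (h : Imm (g ∘ f) z) : Imm g (f z) := by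
  have h1 : Imm (g ∘ f) (hf.localInverse (f z)) := by
    rwa [hf.localInverse_left_inv hf.localInverse_mem_target]
  refine (h1.comp (imm_of_ld hf.localInverse_isLocalDiffeomorphAt)).congr ?_
  filter_upwards [hf.localInverse_eventuallyEq_right] with y hy using (congrArg g hy).symm

theorem imm_graph {τ : E → ℝ} {z : E} (h : ∀ᶠ y in 𝓝 z, ContDiffAt ℝ ∞ τ y) :
    Imm (fun y => (y, τ y)) z :=
  .of_comp (g := Prod.fst) (h.mono fun _ hy => contDiffAt_id.prodMk hy) differentiableAt_fst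
    (by rw [show (Prod.fst ∘ fun y => (y, τ y)) = id from rfl, fderiv_id]; exact injective_id)

theorem Fw.ev_add' {X : F → F} {φ : ℝ → F → F} (h : Fw X φ) {f : E → F} {z : E} {l : F → ℝ} {κ : ℝ}
    (hf : ContinuousAt f z) (hl : ∀ᶠ y in 𝓝 (f z), DifferentiableAt ℝ l y ∧ fderiv ℝ l y (X y) = κ)
    {T : Type*} [TopologicalSpace T] {a : T → E} {τ : T → ℝ} {x : T} (ha : ContinuousAt a x)
    (hτ : ContinuousAt τ x) (e1 : a x = z) (e2 : τ x = 0) :
    ∀ᶠ y in 𝓝 x, l (φ (τ y) (f (a y))) = l (f (a y)) + τ y * κ :=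
  (ha.prodMk hτ).tendsto.eventually (by simpa only [e1, e2] using h.ev_add hf hl)

/-- a compact connected set which is locally one orbit is a periodic orbit -/
theorem Fw.circle {W : F → F} {φ : ℝ → F → F} (h : Fw W φ) {Γ : Set F} (hc : IsCompact Γ)
    (hp : IsPreconnected Γ) {x : F} (hx : x ∈ Γ) (inv : ∀ t, φ t x ∈ Γ) (ne : W x ≠ 0)
    (loc : ∀ y ∈ Γ, ∀ V ∈ 𝓝 (0 : ℝ), ∀ᶠ y' in 𝓝 y, y' ∈ Γ → ∃ t ∈ V, φ t y = y') :
    ∃ T : ℝ, T ≠ 0 ∧ (∀ s t, φ (s * T) x = φ (t * T) x ↔ ∃ n : ℤ, t = s + n) ∧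
      ∀ y ∈ Γ, ∃ t, φ (t * T) x = y := by
  have orb : ∀ y ∈ Γ, ∃ t, φ t x = y := fun y hy =>
    hp.induction₂' (fun a b => ∃ t, φ t a = b) (fun a ha => by
      filter_upwards [nhdsWithin_le_nhds (loc a ha univ univ_mem), self_mem_nhdsWithin] with b h1 h2
      obtain ⟨t, -, rfl⟩ := h1 h2
      exact ⟨⟨t, rfl⟩, -t, h.neg t a⟩)
      (by rintro a _ _ - - - ⟨s, rfl⟩ ⟨t, rfl⟩; exact ⟨t + s, h.add _ _ _⟩) hx hy
  have per : ∃ T, T ≠ 0 ∧ φ T x = x := by
    obtain ⟨n, hn⟩ := hc.elim_directed_cover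
      (fun n : ℕ => interior {y | y ∈ Γ → ∃ t ∈ Ioo (-(n : ℝ)) n, φ t x = y})
      (fun _ => isOpen_interior) (fun y hy => by
        obtain ⟨t, rfl⟩ := orb y hy
        obtain ⟨n, hn⟩ := exists_nat_gt |t|
        refine mem_iUnion.2 ⟨n, mem_interior_iff_mem_nhds.2 ?_⟩
        have h1 : (fun s => s + t) ⁻¹' Ioo (-(n : ℝ)) n ∈ 𝓝 (0 : ℝ) :=
          (isOpen_Ioo.preimage (by fun_prop)).mem_nhds (by simpa using abs_lt.1 hn)
        filter_upwards [loc _ hy _ h1] with y hy e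
        obtain ⟨s, h2, h3⟩ := hy e
        exact ⟨s + t, h2, by rw [h.add, h3]⟩)
      (Monotone.directed_le fun n m h => interior_mono fun y hy e => by
        obtain ⟨t, h1, h2⟩ := hy e
        have : (n : ℝ) ≤ m := by exact_mod_cast h
        exact ⟨t, ⟨by linarith [h1.1], by linarith [h1.2]⟩, h2⟩)
    obtain ⟨t, h1, h2⟩ := interior_subset (hn (inv n)) (inv n)
    exact ⟨-t + n, by linarith [h1.2], by rw [h.add, ← h2, h.neg]⟩
  let S : AddSubgroup ℝ :=
    { carrier := {t | φ t x = x}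
      zero_mem' := h.zero x
      add_mem' := fun {a b} ha hb => by
        show φ (a + b) x = x
        rw [h.add, hb, ha]
      neg_mem' := fun {a} ha => by
        show φ (-a) x = x
        conv_lhs => rw [← show φ a x = x from ha]
        exact h.neg a x }
  obtain ⟨a, ha⟩ := S.dense_or_cyclic.resolve_left fun hd => by
    obtain ⟨V, h1, h2, h3⟩ := mem_nhdsWithin.1 ((h.der x 0).eventually_ne (c := x) (by rwa [h.zero]))
    obtain ⟨t, h4, h5⟩ := hd.exists_mem_open (h1.inter isOpen_compl_singleton)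
      (dense_compl_singleton (0 : ℝ) |>.inter_open_nonempty _ h1 ⟨0, h2⟩)
    exact h3 h5 h4
  have hS : ∀ t, φ t x = x ↔ ∃ n : ℤ, n • a = t := fun t =>
    (show t ∈ S ↔ _ by rw [ha, AddSubgroup.mem_closure_singleton])
  have a0 : a ≠ 0 := fun h0 => by
    obtain ⟨T, h1, h2⟩ := per
    obtain ⟨n, hn⟩ := (hS T).1 h2
    exact h1 (by rw [← hn, h0, smul_zero])
  refine ⟨a, a0, fun s t => ?_, fun y hy => ?_⟩
  · have h1 : φ (s * a) x = φ (t * a) x ↔ φ (-(s * a) + t * a) x = x := by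
      rw [h.add]
      exact ⟨fun e => by rw [← e, h.neg], fun e => by
        conv_lhs => rw [← e]
        rw [← h.add, add_neg_cancel, h.zero]⟩
    rw [h1, hS]
    exact exists_congr fun n => ⟨fun e => mul_right_cancel₀ a0 (by
      rw [zsmul_eq_mul] at e; linarith), fun e => by rw [e, zsmul_eq_mul]; ring⟩
  · obtain ⟨t, rfl⟩ := orb y hy
    exact ⟨t / a, by rw [div_mul_cancel₀ _ a0]⟩

variable {U : Set E} {p m : E → ℝ}

theorem cd_app (hU : IsOpen U) (hp : ContDiffOn ℝ ∞ p U) {g : E → E} (hg : ContDiffOn ℝ ∞ g U) :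
    ContDiffOn ℝ ∞ (fun y => fderiv ℝ p y (g y)) U :=
  (hp.fderiv_of_isOpen hU (by simp)).clm_apply hg

/-- local fields with prescribed derivatives of two independent functions -/
theorem loc2 (hU : IsOpen U) (hp : ContDiffOn ℝ ∞ p U) (hm : ContDiffOn ℝ ∞ m U) {x : E} (hx : x ∈ U)
    {v w : E} (h : fderiv ℝ p x v * fderiv ℝ m x w - fderiv ℝ p x w * fderiv ℝ m x v ≠ 0) (α β : ℝ) :
    ∃ V ∈ 𝓝 x, ∃ g : E → E, ContDiffOn ℝ ∞ g V ∧
      ∀ y ∈ V, fderiv ℝ p y (g y) = α ∧ fderiv ℝ m y (g y) = β := by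
  have c1 := fun u : E => cd_app hU hp (g := fun _ => u) contDiffOn_const
  have c2 := fun u : E => cd_app hU hm (g := fun _ => u) contDiffOn_const
  let d : E → ℝ := fun y => fderiv ℝ p y v * fderiv ℝ m y w - fderiv ℝ p y w * fderiv ℝ m y v
  have c3 : ContDiffOn ℝ ∞ d U := ((c1 v).mul (c2 w)).sub ((c1 w).mul (c2 v))
  refine ⟨U ∩ {y | d y ≠ 0}, inter_mem (hU.mem_nhds hx)
    ((c3.continuousOn.continuousAt (hU.mem_nhds hx)).eventually_ne h), fun y => (d y)⁻¹ •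
      ((α * fderiv ℝ m y w - β * fderiv ℝ p y w) • v + (β * fderiv ℝ p y v - α * fderiv ℝ m y v) • w),
    ((c3.mono inter_subset_left).inv fun y hy => hy.2).smul (ContDiffOn.mono (by fun_prop)
      inter_subset_left), fun y hy => ⟨?_, ?_⟩⟩ <;>
  · have := hy.2
    simp only [map_smul, map_add, smul_eq_mul]
    rw [inv_mul_eq_iff_eq_mul₀ this]
    simp only [d]; ring

theorem exists_An {P : ℂ → Prop} (h : ∀ z ∈ sphere (0 : ℂ) 1, ∀ᶠ w in 𝓝 z, P w) :
    ∃ ε > 0, ε < 1 ∧ ∀ z ∈ An (1 - ε) (1 + ε), P z := by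
  obtain ⟨δ, d0, d1⟩ := (isCompact_sphere (0 : ℂ) 1).exists_thickening_subset_open isOpen_interior
    fun z hz => mem_interior_iff_mem_nhds.2 (h z hz)
  refine ⟨min δ (1 / 2), by positivity, (min_le_right _ _).trans_lt (by norm_num), fun z hz =>
    interior_subset (d1 (mem_thickening_iff.2 ⟨(‖z‖⁻¹ : ℝ) • z, ?_, ?_⟩))⟩
  all_goals have z0 : 0 < ‖z‖ := by linarith [hz.1, min_le_right δ (1 / 2)]
  · rw [mem_sphere_zero_iff_norm, norm_smul, norm_inv, norm_norm, inv_mul_cancel₀ z0.ne']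
  · rw [dist_eq_norm, show z - (‖z‖⁻¹ : ℝ) • z = (1 - ‖z‖⁻¹ : ℝ) • z by rw [sub_smul, one_smul],
      norm_smul, ← abs_norm z, Real.norm_eq_abs, ← abs_mul, abs_norm, sub_mul,
      inv_mul_cancel₀ z0.ne', one_mul, abs_lt]
    constructor <;> linarith [hz.1, hz.2, min_le_left δ (1 / 2)]

end Gen

open Crest.Agent.X212.Glb47 (E3)
open scoped Real

variable {U : Set E3} {p m : E3 → ℝ} {c : ℝ}

theorem lin_E3 (l : E3 →L[ℝ] ℝ) (w : E3) : l w = w 0 * l (EuclideanSpace.single 0 1) +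
    w 1 * l (EuclideanSpace.single 1 1) + w 2 * l (EuclideanSpace.single 2 1) := by
  conv_lhs => rw [show w = w 0 • EuclideanSpace.single 0 1 + w 1 • EuclideanSpace.single 1 1 +
    w 2 • EuclideanSpace.single 2 1 by ext i; fin_cases i <;> simp]
  simp only [map_add, map_smul, smul_eq_mul]

/-- the cross product of two forms -/
def crs (a b : E3 →L[ℝ] ℝ) : E3 :=
  (a (.single 1 1) * b (.single 2 1) - a (.single 2 1) * b (.single 1 1)) • EuclideanSpace.single 0 1 +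
  (a (.single 2 1) * b (.single 0 1) - a (.single 0 1) * b (.single 2 1)) • EuclideanSpace.single 1 1 +
  (a (.single 0 1) * b (.single 1 1) - a (.single 1 1) * b (.single 0 1)) • EuclideanSpace.single 2 1

theorem crs_l (a b : E3 →L[ℝ] ℝ) : a (crs a b) = 0 ∧ b (crs a b) = 0 := by
  simp only [crs, map_add, map_smul, smul_eq_mul]
  constructor <;> ring

theorem crs_ne {a b : E3 →L[ℝ] ℝ} {v w : E3} (h : a v * b w - a w * b v ≠ 0) : crs a b ≠ 0 := by
  intro h0
  have h1 := congrArg (fun u : E3 => u 0) h0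
  have h2 := congrArg (fun u : E3 => u 1) h0
  have h3 := congrArg (fun u : E3 => u 2) h0
  simp [crs] at h1 h2 h3
  refine h ?_
  rw [lin_E3 a v, lin_E3 a w, lin_E3 b v, lin_E3 b w]
  linear_combination (v 1 * w 2 - v 2 * w 1) * h1 + (v 2 * w 0 - v 0 * w 2) * h2 +
    (v 0 * w 1 - v 1 * w 0) * h3

/-- **the corner is a smooth circle with a collar** -/
theorem corner (hU : IsOpen U) (hp : ContDiffOn ℝ ∞ p U) (hm : ContDiffOn ℝ ∞ m U)
    (hc : IsCompact {y | y ∈ U ∧ p y = c ∧ m y = c})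
    (hn : IsConnected {y | y ∈ U ∧ p y = c ∧ m y = c})
    (hi : ∀ y ∈ U, p y = c → m y = c →
      ∃ v w, fderiv ℝ p y v * fderiv ℝ m y w - fderiv ℝ p y w * fderiv ℝ m y v ≠ 0) :
    ∃ ε > 0, ∃ a : ℂ → E3, (∀ z ∈ An (1 - ε) (1 + ε),
      Imm a z ∧ a z ∈ U ∧ p (a z) = c ∧ m (a z) = c + 2 * (‖z‖ ^ 2 - 1)) ∧
      InjOn a (An (1 - ε) (1 + ε)) ∧ a '' sphere 0 1 = {y | y ∈ U ∧ p y = c ∧ m y = c} := by
  set Γ := {y | y ∈ U ∧ p y = c ∧ m y = c} with hΓ
  have dp : ∀ y ∈ Γ, ∀ᶠ u in 𝓝 y, DifferentiableAt ℝ p u := fun y hy => by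
    filter_upwards [hU.mem_nhds hy.1] with u hu
      using (hp.contDiffAt (hU.mem_nhds hu)).differentiableAt (by simp)
  have dm : ∀ y ∈ Γ, ∀ᶠ u in 𝓝 y, DifferentiableAt ℝ m u := fun y hy => by
    filter_upwards [hU.mem_nhds hy.1] with u hu
      using (hm.contDiffAt (hU.mem_nhds hu)).differentiableAt (by simp)
  have fw : ∀ (α β : ℝ) (t : E3 → Set E3), (∀ y, Convex ℝ (t y)) → (∀ y, ∀ w ∈ t y, y ∈ U →
      fderiv ℝ p y w = α ∧ fderiv ℝ m y w = β) → (∀ x ∈ Γ, ∃ V ∈ 𝓝 x, ∃ g : E3 → E3,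
      ContDiffOn ℝ ∞ g V ∧ ∀ y ∈ V, g y ∈ t y) → ∃ X φ, Fw X φ ∧ ∀ y ∈ Γ, X y ∈ t y ∧
      (∀ᶠ u in 𝓝 y, DifferentiableAt ℝ p u ∧ fderiv ℝ p u (X u) = α) ∧
      (∀ᶠ u in 𝓝 y, DifferentiableAt ℝ m u ∧ fderiv ℝ m u (X u) = β) := fun α β t h1 h2 h3 => by
    obtain ⟨X, K, a1, a2, a3, a4⟩ := exists_field hc h1 h3
    obtain ⟨φ, hφ⟩ := exists_fw a1 a2 a3
    refine ⟨X, φ, hφ, fun y hy => ?_⟩
    have a5 : ∀ᶠ u in 𝓝 y, X u ∈ t u := nhds_le_nhdsSet hy a4
    refine ⟨a5.self_of_nhds, ?_, ?_⟩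
    · filter_upwards [a5, dp y hy, hU.mem_nhds hy.1] with u b1 b2 b3 using ⟨b2, (h2 u _ b1 b3).1⟩
    · filter_upwards [a5, dm y hy, hU.mem_nhds hy.1] with u b1 b2 b3 using ⟨b2, (h2 u _ b1 b3).2⟩
  have fw2 := fun α β : ℝ => fw α β (fun y => {w | fderiv ℝ p y w = α ∧ fderiv ℝ m y w = β})
    (fun y => ((convex_singleton α).linear_preimage (fderiv ℝ p y).toLinearMap).inter
      ((convex_singleton β).linear_preimage (fderiv ℝ m y).toLinearMap)) (fun _ _ h _ => h)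
    fun x hx => let ⟨_, _, h⟩ := hi x hx.1 hx.2.1 hx.2.2; loc2 hU hp hm hx.1 h α β
  obtain ⟨X, φX, fX, hX⟩ := fw2 1 0
  obtain ⟨Y, φY, fY, hY⟩ := fw2 0 1
  obtain ⟨W, φ, fW, hW⟩ := fw 0 0 (fun y => {crs (fderiv ℝ p y) (fderiv ℝ m y)})
    (fun _ => convex_singleton _) (fun y w hw _ => by rw [hw]; exact crs_l _ _) fun x hx =>
      ⟨U, hU.mem_nhds hx.1, _, by
        have c1 := fun u : E3 => cd_app hU hp (g := fun _ => u) contDiffOn_const
        have c2 := fun u : E3 => cd_app hU hm (g := fun _ => u) contDiffOn_const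
        unfold crs
        fun_prop, fun y _ => rfl⟩
  have W0 : ∀ y ∈ Γ, W y ≠ 0 := fun y hy => by
    obtain ⟨v, w, h⟩ := hi y hy.1 hy.2.1 hy.2.2
    rw [(hW y hy).1]; exact crs_ne h
  have cW : ∀ x, Continuous fun t => φ t x := fun x =>
    fW.sm.continuous.comp (f := fun t => (t, x)) (by fun_prop)
  have inv : ∀ x ∈ Γ, ∀ t, φ t x ∈ Γ := fun x hx t => by
    refine eq_univ_iff_forall.1 (IsClopen.eq_univ ⟨hc.isClosed.preimage (cW x),
      isOpen_iff_mem_nhds.2 fun s hs => ?_⟩ ⟨0, by rwa [mem_preimage, fW.zero]⟩) t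
    have b := fun {l : E3 → ℝ} hl => fW.ev_add' (f := id) (l := l) (κ := 0) (z := φ s x)
      continuousAt_id hl (a := fun _ => φ s x) (τ := fun u => u - s) (x := s) continuousAt_const
      (by fun_prop) rfl (sub_self s)
    filter_upwards [b (hW _ hs).2.1, b (hW _ hs).2.2, (cW x).continuousAt.eventually
      (hU.mem_nhds hs.1)] with u b1 b2 b3
    simp only [id, ← fW.add, sub_add_cancel, mul_zero, add_zero] at b1 b2
    exact ⟨b3, b1.trans hs.2.1, b2.trans hs.2.2⟩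
  -- the collar along a curve in the corner
  have i1 : ∀ x ∈ Γ, ∀ (T : ℝ), T ≠ 0 → ∀ t b, Imm (fun q : ℝ × ℝ => φY q.2 (φ (q.1 * T) x)) (t, b) :=
    fun x hx T hT t b => by
      have d : HasDerivAt (fun s => φ (s * T) x) (T • W (φ (t * T) x)) t :=
        (fW.der x (t * T)).scomp (h := fun s => s * T) t (hasDerivAt_mul_const T)
      have i : Imm (fun s => φ (s * T) x) t := ⟨Eventually.of_forall fun s =>
        fW.cdAt (contDiffAt_id.mul contDiffAt_const) contDiffAt_const, by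
          rw [d.hasFDerivAt.fderiv]
          refine (injective_iff_map_eq_zero _).2 fun w hw => ?_
          simpa [hT, W0 _ (inv x hx _)] using hw⟩
      refine fY.thick i (l := fderiv ℝ m (φ (t * T) x)) (fderiv_zero_of_const
        (f := fun s => φ (s * T) x) (dm _ (inv x hx _)).self_of_nhds i.df (Eventually.of_forall fun s => (inv x hx _).2.2)) ?_ b
      rw [(hY _ (inv x hx _)).1.2]; exact one_ne_zero
  have e1 : ∀ {T : Type} [TopologicalSpace T] {a : T → E3} {τ : T → ℝ} {x : T}, ContinuousAt a x →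
      ContinuousAt τ x → τ x = 0 → (∀ y, a y ∈ Γ) →
      ∀ᶠ y in 𝓝 x, φY (τ y) (a y) ∈ U ∧ p (φY (τ y) (a y)) = c ∧ m (φY (τ y) (a y)) = c + τ y :=
    fun {T} _ {a τ x} h1 h2 h3 h4 => by
      have c1 : ContinuousAt (fun y => φY (τ y) (a y)) x :=
        fY.sm.continuous.continuousAt.comp (f := fun y => (τ y, a y)) (h2.prodMk h1)
      filter_upwards [fY.ev_add' (f := id) continuousAt_id (hY _ (h4 x)).2.1 h1 h2 rfl h3,
        fY.ev_add' (f := id) continuousAt_id (hY _ (h4 x)).2.2 h1 h2 rfl h3,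
        c1.eventually (hU.mem_nhds (by simpa only [h3, fY.zero] using (h4 x).1))] with y b1 b2 b3
      simp only [id, (h4 y).2.1, (h4 y).2.2, mul_zero, add_zero, mul_one] at b1 b2
      exact ⟨b3, b1, b2⟩
  have loc : ∀ y ∈ Γ, ∀ V ∈ 𝓝 (0 : ℝ), ∀ᶠ y' in 𝓝 y, y' ∈ Γ → ∃ t ∈ V, φ t y = y' :=
    fun y hy V hV => by
      have i := i1 y hy 1 one_ne_zero 0 0
      simp only [mul_one] at i
      have b1 := e1 (a := fun q : ℝ × ℝ => φ q.1 y) (τ := Prod.snd) (x := (0, 0))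
        ((cW y).comp continuous_fst).continuousAt continuousAt_snd rfl fun q => inv y hy _
      have e0 : φY 0 (φ 0 y) = y := by rw [fY.zero, fW.zero]
      have i2 := fX.thick i (l := fderiv ℝ p (φY 0 (φ 0 y))) (fderiv_zero_of_const
        (by rw [e0]; exact (dp y hy).self_of_nhds) i.df (b1.mono fun q hq => hq.2.1))
        (by simp only [e0]; rw [(hX y hy).1.1]; exact one_ne_zero) 0
      have b2 := (ld_inj (i2.ld (by simp))).2
      simp only [fX.zero, e0] at b2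
      rw [← b2, eventually_map]
      filter_upwards [fX.ev_add i.cd.continuousAt (by simp only [e0]; exact (hX y hy).2.1),
        fX.ev_add i.cd.continuousAt (by simp only [e0]; exact (hX y hy).2.2),
        (continuousAt_fst (p := ((0, 0), (0 : ℝ)))).eventually b1,
        (continuousAt_fst.comp (f := Prod.fst) (continuousAt_fst (p := ((0, 0), (0 : ℝ))))).eventually
          hV] with q c1 c2 c3 c4 c5
      have c6 : q.2 = 0 := by linarith [c5.2.1, c3.2.1]
      have c7 : q.1.2 = 0 := by linarith [c5.2.2, c3.2.2]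
      exact ⟨_, c4, by rw [c6, c7, fX.zero, fY.zero]; rfl⟩
  obtain ⟨x, hx⟩ := hn.nonempty
  obtain ⟨T, T0, hT, hs⟩ := fW.circle hc hn.isPreconnected hx (inv x hx) (W0 x hx) loc
  have p2 : (2 * π) ≠ 0 := by positivity
  let γ : ℂ → E3 := fun z => φ (z.arg / (2 * π) * T) x
  have γe : ∀ w : ℂ, γ (Complex.exp w) = φ (w.im / (2 * π) * T) x := fun w =>
    (hT _ _).2 ⟨toIocDiv Real.two_pi_pos (-π) w.im, by
      rw [Complex.arg_exp, ← self_sub_toIocDiv_zsmul, zsmul_eq_mul]; field_simp; ring⟩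
  have le : ∀ w : ℂ, IsLocalDiffeomorphAt 𝓘(ℝ, ℂ) 𝓘(ℝ, ℂ) ∞ Complex.exp w := fun w =>
    Imm.ld ⟨Eventually.of_forall fun _ => Complex.contDiff_exp.contDiffAt, by
      rw [((Complex.hasDerivAt_exp w).hasFDerivAt.restrictScalars ℝ).fderiv]
      exact (injective_iff_map_eq_zero _).2 fun u hu => by simpa using hu⟩ rfl
  let a : ℂ → E3 := fun z => φY (2 * (‖z‖ ^ 2 - 1)) (γ z)
  have ia : ∀ z ≠ 0, Imm a z := fun z hz => by
    rw [← Complex.exp_log hz]
    set w := Complex.log z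
    have d : HasFDerivAt (fun u : ℂ => (u.im / (2 * π), 2 * (Real.exp (2 * u.re) - 1))) _ w :=
      (Complex.imCLM.hasFDerivAt.mul_const (2 * π)⁻¹).prodMk
        ((((Complex.reCLM.hasFDerivAt.const_mul 2).exp).sub_const 1).const_mul 2)
    refine .of_ld (le w) (((i1 x hx T T0 _ _).comp (f := fun u : ℂ =>
      (u.im / (2 * π), 2 * (Real.exp (2 * u.re) - 1))) ⟨Eventually.of_forall fun u => ?_, ?_⟩).congr
        (Eventually.of_forall fun u => ?_))
    · exact ((Complex.imCLM.contDiff.div_const _).prodMk (contDiff_const.mul ((contDiff_const.mul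
        Complex.reCLM.contDiff).exp.sub contDiff_const))).contDiffAt
    · rw [d.fderiv]
      refine (injective_iff_map_eq_zero _).2 fun u hu => ?_
      simpa [Complex.ext_iff, and_comm] using hu
    · simp only [comp, a, γe, Complex.norm_exp, ← Real.exp_nat_mul, Nat.cast_ofNat]
  have cγ : ∀ z ≠ 0, ContinuousAt γ z := fun z hz => by
    have : γ = fun z => φY (-(2 * (‖z‖ ^ 2 - 1))) (a z) := funext fun z => (fY.neg _ _).symm
    rw [this]
    exact fY.sm.continuous.continuousAt.comp (f := fun z => (-(2 * (‖z‖ ^ 2 - 1)), a z))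
      (ContinuousAt.prodMk (by fun_prop) (ia z hz).cd.continuousAt)
  obtain ⟨ε, ε0, ε1, hε⟩ := exists_An (P := fun z => a z ∈ U ∧ p (a z) = c ∧
    m (a z) = c + 2 * (‖z‖ ^ 2 - 1)) fun z hz => e1 (cγ z (ne_zero_of_mem_unit_sphere ⟨z, hz⟩))
      (by fun_prop) (by rw [mem_sphere_zero_iff_norm.1 hz]; norm_num) fun y => inv x hx _
  have n0 : ∀ z ∈ An (1 - ε) (1 + ε), z ≠ 0 := fun z hz => norm_pos_iff.1 (by linarith [hz.1])
  refine ⟨ε, ε0, a, fun z hz => ⟨ia z (n0 z hz), hε z hz⟩, fun z hz w hw h => ?_, ?_⟩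
  · have h1 : ‖z‖ ^ 2 = ‖w‖ ^ 2 := by linarith [(hε z hz).2.2, (hε w hw).2.2, congrArg m h]
    have h2 : γ z = γ w := by
      rw [← fY.neg (2 * (‖z‖ ^ 2 - 1)) (γ z), ← fY.neg (2 * (‖z‖ ^ 2 - 1)) (γ w)]
      exact congrArg _ (h.trans (by simp only [a, h1]))
    obtain ⟨n, h3⟩ := (hT _ _).1 h2
    refine Complex.ext_norm_arg ((pow_left_inj₀ (norm_nonneg _) (norm_nonneg _) two_ne_zero).1 h1)
      (Complex.arg_coe_angle_eq_iff.1 (Real.Angle.angle_eq_iff_two_pi_dvd_sub.2 ⟨-n, ?_⟩))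
    field_simp at h3
    push_cast; linarith
  · have ea : ∀ z ∈ sphere (0 : ℂ) 1, a z = γ z := fun z hz => by
      simp [a, mem_sphere_zero_iff_norm.1 hz, fY.zero]
    refine Subset.antisymm ?_ fun y hy => ?_
    · rintro _ ⟨z, hz, rfl⟩
      rw [ea z hz]; exact inv x hx _
    · obtain ⟨t, rfl⟩ := hs y hy
      have h1 : Complex.exp ((t * (2 * π) : ℝ) * Complex.I) ∈ sphere (0 : ℂ) 1 :=
        mem_sphere_zero_iff_norm.2 (Complex.norm_exp_ofReal_mul_I _)
      exact ⟨_, h1, by rw [ea _ h1, γe]; simp [p2]⟩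

end Crest.Agent.X212.Sm25
end
end

-- ▼ part X212/Sph1/Main
section

/-!
# X212 / H layer / SPH3 (helper1): the smooth Schoenflies theorem in three-space, relative to a
collar
-/

set_option autoImplicit false

open Set Metric Topology Filter
open scoped ContDiff

namespace Crest.Agent.X212.Sph1

open Crest.Agent.R096 Crest.Agent.R096.Ce_537 Crest.Agent.X212.Smo49 Crest.Agent.X212.Thk1
open Crest.Agent.R096.P5Spec_205 (HomeoOn)
open Crest.Agent.R105.Iod1_690 (isOpen_image_fd)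

/-- Euclidean three-space -/
abbrev E3 : Type := EuclideanSpace ℝ (Fin 3)

/-- a continuous injection of an open set is a homeomorphism onto an open set -/
theorem homeoOn_of_inj {h : E3 → E3} {U : Set E3} (hU : IsOpen U) (hc : ContinuousOn h U)
    (hi : InjOn h U) : HomeoOn h U (h '' U) ∧ IsOpen (h '' U) := by
  refine ⟨⟨hi.bijOn_image, hc, Function.invFunOn h U, ?_, fun x hx => hi.leftInvOn_invFunOn hx⟩,
    isOpen_image_fd rfl hU hc hi⟩
  rw [_root_.continuousOn_iff']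
  intro t ht
  refine ⟨h '' (U ∩ t), isOpen_image_fd rfl (hU.inter ht) (hc.mono inter_subset_left)
    (hi.mono inter_subset_left), ?_⟩
  ext y
  constructor
  · rintro ⟨h1, x, hx, rfl⟩
    rw [mem_preimage, hi.leftInvOn_invFunOn hx] at h1
    exact ⟨⟨x, ⟨hx, h1⟩, rfl⟩, x, hx, rfl⟩
  · rintro ⟨⟨x, hx, rfl⟩, h1⟩
    exact ⟨by rw [mem_preimage, hi.leftInvOn_invFunOn hx.1]; exact hx.2, h1⟩

/-- Alexander's theorem in Euclidean space -/
theorem alexE {Q dQ W : Set E3} {b : E3 → E3} (hQ : IsBall 3 Q dQ) (hb : PLOn b dQ)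
    (hi : InjOn b dQ) (hW : IsCompact W) (hf : frontier W ⊆ b '' dQ) (hn : ¬ W ⊆ b '' dQ) :
    ∃ e : PLEquiv Q W, EqOn e.f b dQ := by
  let L : E3 ≃L[ℝ] (Fin 3 → ℝ) := EuclideanSpace.equiv (Fin 3) ℝ
  let a : ∀ A : Set E3, PLEquiv A (L '' A) := fun A =>
    ⟨L, L.symm, pl_clm (L : E3 →L[ℝ] (Fin 3 → ℝ)) _, pl_clm (L.symm : (Fin 3 → ℝ) →L[ℝ] E3) _,
      fun x hx => ⟨x, hx, rfl⟩, by rintro _ ⟨x, hx, rfl⟩; simpa using hx,
      fun x _ => L.symm_apply_apply x, fun y _ => L.apply_symm_apply y⟩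
  have him : (fun y => L (b (L.symm y))) '' (L '' dQ) = L '' (b '' dQ) := by
    simp only [image_image, L.symm_apply_apply]
  obtain ⟨e, he⟩ := Lad50.alex (b := fun y => L (b (L.symm y))) (W := L '' W) (hQ.map (a Q))
    (pl_lin (hb.comp (a dQ).pg (a dQ).mg) (L : E3 →L[ℝ] (Fin 3 → ℝ)))
    (fun x hx y hy h => L.symm.injective (hi ((a dQ).mg hx) ((a dQ).mg hy) (L.injective h)))
    (hW.image L.continuous)
    (by
      change _ ⊆ (fun y => L (b (L.symm y))) '' (L '' dQ)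
      rw [him, ← L.coe_toHomeomorph, ← L.toHomeomorph.image_frontier]
      exact image_mono hf)
    (by
      change ¬ _ ⊆ (fun y => L (b (L.symm y))) '' (L '' dQ)
      rw [him, image_subset_image_iff L.injective]
      exact hn)
  refine ⟨((a Q).trans e).trans (a W).symm, fun x hx => ?_⟩
  show L.symm (e.f (L x)) = b x
  rw [he (show L x ∈ _ from ⟨x, hx, rfl⟩)]
  simp only [L.symm_apply_apply]

/-- **smooth Schoenflies relative to a collar**, with a PL ball `Q` inside the collar -/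
theorem sph3_of_ball {B Sh N Q dQ : Set E3} {e : E3 → E3} (hB : IsCompact B) (hSh : IsOpen Sh)
    (hQ : IsBall 3 Q dQ) (hQB : Q ⊆ interior B) (hBQ : B \ (Q \ dQ) ⊆ Sh) (hne : dQ.Nonempty)
    (hs : SmOn e Sh) (hi : InjOn e Sh) (hN : IsCompact N) (hf : frontier N ⊆ e '' Sh)
    (hside : ∀ x ∈ Sh, e x ∈ N ↔ x ∈ B) :
    ∃ (g : E3 → E3) (K : Set E3), IsCompact K ∧ K ⊆ interior B ∧ SmOn g (B ∪ Sh) ∧
      InjOn g (B ∪ Sh) ∧ (∀ x ∉ K, g x = e x) ∧ g '' B = N := by
  classical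
  have oQ : IsOpen (Q \ dQ) := by
    obtain ⟨a, ha⟩ := hQ
    rw [Cb_609.diff_eq_image a ha]
    exact isOpen_image_fd (by simp) isOpen_ball (a.pf.1.mono ball_subset_closedBall)
      (a.injOn.mono ball_subset_closedBall)
  have cQ := hQ.isClosed
  have QB : Q ⊆ B := hQB.trans interior_subset
  have dS : dQ ⊆ Sh := fun x hx => hBQ ⟨QB (hQ.subset hx), fun h => h.2 hx⟩
  obtain ⟨he, hLa⟩ := homeoOn_of_inj hSh hs.1.continuousOn hi
  have hU : IsOpen (Sh ∩ interior B) := hSh.inter isOpen_interior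
  obtain ⟨h₁, K₁, V, a1, a2, a3, a4, a5, a6, a7, a8⟩ := plize finrank_euclideanSpace_fin hSh hLa he
    hU inter_subset_left ⟨hs.1.mono inter_subset_left, fun x hx => hs.2 x hx.1⟩
    hQ.isCompact_bdry (fun x hx => ⟨dS hx, hQB (hQ.subset hx)⟩)
  have i1 : InjOn h₁ Sh := a1.bij.injOn
  have side1 : ∀ x ∈ Sh, h₁ x ∈ N ↔ x ∈ B := fun x hx => by
    by_cases hK : x ∈ K₁
    · refine iff_of_true ?_ (interior_subset (a3 hK).2)
      obtain ⟨y, hy, e1⟩ := a1.bij.mapsTo hx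
      rw [← e1, hside y hy]
      by_contra hyB
      have h1 : y ∉ K₁ := fun h => hyB (interior_subset (a3 h).2)
      rw [← a4 y h1] at e1
      exact h1 (i1 hy hx e1 ▸ hK)
    · rw [a4 x hK]; exact hside x hx
  have op : ∀ P, IsOpen P → P ⊆ Sh → IsOpen (h₁ '' P) := fun P h1 h2 => isOpen_image hLa a1 h1 h2
  set W := N \ h₁ '' (Sh \ Q) with hW
  have cW : IsCompact W := hN.diff (op _ (hSh.sdiff cQ) sdiff_subset)
  have inW : ∀ x ∈ Sh, x ∈ Q → h₁ x ∈ W := fun x hx hxQ =>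
    ⟨(side1 x hx).2 (QB hxQ), fun ⟨y, hy, e1⟩ => hy.2 (i1 hy.1 hx e1 ▸ hxQ)⟩
  have pb : PLOn h₁ dQ := Sol49.lpl_compact (A := V) (fun x hx => by
    obtain ⟨r, hr, S, h1, h2⟩ := a8 x hx
    exact ⟨r, hr, PLOn.mono ⟨h1, S, h2⟩ inter_subset_left⟩) hQ.isCompact_bdry a7
  obtain ⟨E, hE⟩ := alexE hQ pb (i1.mono dS) cW
    (fun p hp => by
      have hpW : p ∈ W := cW.isClosed.frontier_subset hp
      by_contra hpd
      refine hp.2 (mem_interior_iff_mem_nhds.2 ?_)
      by_cases hL : p ∈ e '' Sh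
      · obtain ⟨x, hx, rfl⟩ := a1.bij.surjOn hL
        have hxQ : x ∈ Q := by
          by_contra h
          exact hpW.2 ⟨x, ⟨hx, h⟩, rfl⟩
        refine mem_of_superset ((op _ (hSh.inter oQ) inter_subset_left).mem_nhds
          ⟨x, ⟨hx, hxQ, fun h => hpd ⟨x, h, rfl⟩⟩, rfl⟩) ?_
        rintro _ ⟨y, hy, rfl⟩
        exact inW y hy.1 hy.2.1
      · have h1 : p ∈ interior N := by
          by_contra h
          exact hL (hf ⟨subset_closure hpW.1, h⟩)
        have h2 : IsCompact (h₁ '' (B \ (Q \ dQ))) :=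
          (hB.diff oQ).image_of_continuousOn (a1.cont.mono hBQ)
        refine mem_of_superset ((isOpen_interior.sdiff h2.isClosed).mem_nhds
          ⟨h1, fun ⟨y, hy, e1⟩ => hL (e1 ▸ a1.bij.mapsTo (hBQ hy))⟩) ?_
        rintro q ⟨hq1, hq2⟩
        refine ⟨interior_subset hq1, ?_⟩
        rintro ⟨y, hy, rfl⟩
        exact hq2 ⟨y, ⟨(side1 y hy.1).1 (interior_subset hq1), fun h => hy.2 h.1⟩, rfl⟩)
    (fun h => by
      obtain ⟨z, hz⟩ := hne
      have h1 : z ∈ closure (Q \ dQ) := by rw [hQ.closure_diff]; exact hQ.subset hz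
      obtain ⟨x, hx, hx'⟩ := _root_.mem_closure_iff.1 h1 Sh hSh (dS hz)
      obtain ⟨y, hy, e1⟩ := h (inW x hx hx'.1)
      exact hx'.2 (i1 (dS hy) hx e1 ▸ hy))
  set h₂ := Q.piecewise E.f h₁ with hh₂
  have e1 : ∀ x ∈ Q, h₂ x = E.f x := fun x hx => piecewise_eq_of_mem _ _ _ hx
  have e2 : ∀ x, x ∉ Q \ dQ → h₂ x = h₁ x := fun x hx => by
    by_cases h : x ∈ Q
    · rw [e1 x h]; exact hE (by by_contra h'; exact hx ⟨h, h'⟩)
    · exact piecewise_eq_of_notMem _ _ _ h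
  have oO : IsOpen (B ∪ Sh) := by
    have : B ∪ Sh = (Q \ dQ) ∪ Sh := by
      refine Subset.antisymm (union_subset (fun x hx => ?_) subset_union_right)
        (union_subset_union_left _ (sdiff_subset.trans QB))
      by_cases h : x ∈ Q \ dQ
      · exact Or.inl h
      · exact Or.inr (hBQ ⟨hx, h⟩)
    rw [this]; exact oQ.union hSh
  have inS : ∀ x ∈ B ∪ Sh, x ∉ Q \ dQ → x ∈ Sh := fun x hx h => hx.elim (fun h' => hBQ ⟨h', h⟩) id
  have c2 : ContinuousOn h₂ (B ∪ Sh) := by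
    intro x hx
    have c1 : ContinuousWithinAt h₂ Q x := by
      by_cases h : x ∈ Q
      · exact (E.pf.1 x h).congr e1 (e1 x h)
      · exact continuousWithinAt_of_notMem_closure (by rwa [cQ.closure_eq])
    have c2 : ContinuousWithinAt h₂ (Q \ dQ)ᶜ x := by
      by_cases h : x ∈ Q \ dQ
      · exact continuousWithinAt_of_notMem_closure (by
          rw [oQ.isClosed_compl.closure_eq]; exact fun h' => h' h)
      · exact ((a1.cont.continuousAt (hSh.mem_nhds (inS x hx h))).continuousWithinAt).congr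
          e2 (e2 x h)
    refine (c1.union c2).mono fun y _ => ?_
    by_cases h : y ∈ Q
    · exact Or.inl h
    · exact Or.inr fun h' => h h'.1
  have i2 : InjOn h₂ (B ∪ Sh) := by
    have key : ∀ x ∈ Q, ∀ y ∈ B ∪ Sh, y ∉ Q → h₂ x ≠ h₂ y := fun x hx y hy hyQ e3 => by
      rw [e1 x hx, e2 y fun h => hyQ h.1] at e3
      exact (E.mf hx).2 ⟨y, ⟨inS y hy fun h => hyQ h.1, hyQ⟩, e3.symm⟩
    intro x hx y hy e3
    by_cases h : x ∈ Q <;> by_cases h' : y ∈ Q
    · rw [e1 x h, e1 y h'] at e3; exact E.injOn h h' e3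
    · exact absurd e3 (key x h y hy h')
    · exact absurd e3.symm (key y h' x hx h)
    · rw [e2 x fun k => h k.1, e2 y fun k => h' k.1] at e3
      exact i1 (inS x hx fun k => h k.1) (inS y hy fun k => h' k.1) e3
  obtain ⟨hh, hLa2⟩ := homeoOn_of_inj oO c2 i2
  have oP : IsOpen ((Q \ dQ) ∪ V ∩ (Sh ∩ interior B)) := oQ.union (a6.inter hU)
  have PB : (Q \ dQ) ∪ V ∩ (Sh ∩ interior B) ⊆ interior B :=
    union_subset (sdiff_subset.trans hQB) fun x hx => hx.2.2
  have BO : interior B ⊆ B ∪ Sh := interior_subset.trans subset_union_left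
  obtain ⟨G, hG, hQG, hGP⟩ := exists_compact_between hQ.isCompact oP (fun x hx => by
    by_cases h : x ∈ dQ
    · exact Or.inr ⟨a7 h, dS h, hQB hx⟩
    · exact Or.inl ⟨hx, h⟩)
  have near : ∀ x, x ∉ Q → h₂ =ᶠ[𝓝 x] h₁ := fun x hx => by
    filter_upwards [cQ.isOpen_compl.mem_nhds hx] with y hy
    exact e2 y fun h => hy h.1
  obtain ⟨g, b1, b2, b3, b4⟩ := stage finrank_euclideanSpace_fin R096.Ed_276.edgeB
    (R096.Rd_695.core_of_bel_spec R096.BelF_205.bel) hLa2 hh oP (PB.trans BO)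
    (fun x hx => by
      obtain ⟨r, hr, hr'⟩ := Metric.isOpen_iff.1 oO x (BO (PB hx))
      rcases hx with hx | hx
      · obtain ⟨s, hs, hs'⟩ := Metric.isOpen_iff.1 oQ x hx
        obtain ⟨h1, S, h2⟩ := (E.pf.congr e1).mono (hs'.trans sdiff_subset)
        exact ⟨s, hs, S, h1, h2⟩
      · obtain ⟨s, hs, S, -, h2⟩ := a8 x hx.1
        obtain ⟨-, T, h3⟩ := E.pf
        refine ⟨min r s, lt_min hr hs, S ∪ T,
          c2.mono ((ball_subset_ball (min_le_left _ _)).trans hr'), fun y hy => ?_⟩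
        by_cases h : y ∈ Q
        · obtain ⟨a, ha, e3⟩ := h3 y h
          exact ⟨a, Finset.mem_union_right _ ha, (e1 y h).trans e3⟩
        · obtain ⟨a, ha, e3⟩ := h2 y (ball_subset_ball (min_le_right _ _) hy)
          exact ⟨a, Finset.mem_union_left _ ha, (e2 y fun k => h k.1).trans e3⟩)
    (N := (interior G)ᶜ) isOpen_interior.isClosed_compl
    (fun x hx hxP => by
      have h1 : x ∉ Q := fun h => hx (hQG h)
      exact (a5 x ⟨inS x (BO (PB hxP)) fun h => h1 h.1, PB hxP⟩).congr (near x h1))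
  have g1 : ∀ x, x ∉ G → g x = h₁ x := fun x hx => by
    rw [b4 x fun h => hx (interior_subset h), e2 x fun h => hx (interior_subset (hQG h.1))]
  obtain ⟨g', K', d1, d2, d3, d4, -, d6⟩ := rm finrank_euclideanSpace_fin hLa2 b1 isOpen_interior BO
    (fun x hx => by
      by_cases h : x ∈ G
      · exact b2 x (hGP h)
      · refine (a5 x ⟨inS x (BO hx) fun k => h (interior_subset (hQG k.1)), hx⟩).congr ?_
        filter_upwards [hG.isClosed.isOpen_compl.mem_nhds h] with y hy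
        exact g1 y hy)
    (hG.union a2) isOpen_interior (union_subset (hGP.trans PB) fun x hx => (a3 hx).2)
    ((hs.1.mono fun x hx => inS x (BO hx.1) fun k =>
      hx.2 (Or.inl (interior_subset (hQG k.1)))).congr fun x hx => by
        rw [g1 x fun h => hx.2 (Or.inl h), a4 x fun h => hx.2 (Or.inr h)])
  have cK : IsCompact ((G ∪ K₁) ∪ K') := (hG.union a2).union d3
  have KB : (G ∪ K₁) ∪ K' ⊆ interior B :=
    union_subset (union_subset (hGP.trans PB) fun x hx => (a3 hx).2) d4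
  have ge : ∀ x ∉ (G ∪ K₁) ∪ K', g' x = e x := fun x hx => by
    rw [d6 x fun h => hx (Or.inr h), g1 x fun h => hx (Or.inl (Or.inl h)),
      a4 x fun h => hx (Or.inl (Or.inr h))]
  have loc : ∀ x ∈ B ∪ Sh, x ∉ interior B → x ∈ Sh ∧ g' =ᶠ[𝓝 x] e := fun x hx h =>
    ⟨inS x hx fun k => h (hQB k.1), by
      filter_upwards [cK.isClosed.isOpen_compl.mem_nhds fun k => h (KB k)] with y hy
      exact ge y hy⟩
  refine ⟨g', _, cK, KB, ⟨fun x hx => ?_, fun x hx => ?_⟩, d1.bij.injOn, ge, ?_⟩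
  · by_cases h : x ∈ interior B
    · exact (d2.1.contDiffAt (isOpen_interior.mem_nhds h)).contDiffWithinAt
    · exact ((hs.1.contDiffAt (hSh.mem_nhds (loc x hx h).1)).congr_of_eventuallyEq
        (loc x hx h).2).contDiffWithinAt
  · by_cases h : x ∈ interior B
    · exact d2.2 x h
    · rw [(loc x hx h).2.fderiv_eq]; exact hs.2 x (loc x hx h).1
  · have out : ∀ x ∈ B ∪ Sh, x ∉ B → g' x = h₂ x ∧ g' x ∉ N := fun x hx h => by
      have h1 := loc x hx fun k => h (interior_subset k)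
      rw [h1.2.self_of_nhds, e2 x fun k => h (QB k.1), a4 x fun k => h (interior_subset (a3 k).2)]
      exact ⟨rfl, fun k => h ((hside x h1.1).1 k)⟩
    apply Subset.antisymm
    · rintro _ ⟨x, hx, rfl⟩
      obtain ⟨y, hy, e3⟩ := d1.bij.mapsTo (Or.inl hx)
      by_cases h : y ∈ B
      · rw [← e3]
        by_cases h' : y ∈ Q
        · rw [e1 y h']; exact (E.mf h').1
        · rw [e2 y fun k => h' k.1]
          exact (side1 y (inS y hy fun k => h' k.1)).2 h
      · rw [← (out y hy h).1] at e3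
        exact absurd (d1.bij.injOn hy (Or.inl hx) e3 ▸ hx) h
    · intro p hp
      have h1 : p ∈ h₂ '' (B ∪ Sh) := by
        by_cases h : p ∈ W
        · exact ⟨E.g p, Or.inl (QB (E.mg h)), by rw [e1 _ (E.mg h), E.ri p h]⟩
        · obtain ⟨y, hy, rfl⟩ : p ∈ h₁ '' (Sh \ Q) := by
            by_contra h'
            exact h ⟨hp, h'⟩
          exact ⟨y, Or.inr hy.1, e2 y fun k => hy.2 k.1⟩
      obtain ⟨x, hx, rfl⟩ := d1.bij.surjOn h1
      refine ⟨x, ?_, rfl⟩
      by_contra h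
      exact (out x hx h).2 hp

/-- a polytope between a compact set and the boundary of a convex body -/
theorem exists_polytope {B C : Set E3} (hB : IsCompact B) (hc : Convex ℝ B) {z : E3}
    (hz : z ∈ interior B) (hC : IsCompact C) (hCB : C ⊆ interior B) :
    ∃ Q dQ : Set E3, IsBall 3 Q dQ ∧ Q ⊆ interior B ∧ C ⊆ Q \ dQ ∧ dQ.Nonempty := by
  classical
  have hC' : IsCompact (insert z C) := hC.insert z
  have hsep : ∀ p : frontier B, ∃ l : E3 →L[ℝ] ℝ, (∀ y ∈ insert z C, l (y - z) < 1) ∧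
      1 < l (p - z) := by
    rintro ⟨p, hp⟩
    obtain ⟨f, hf⟩ := geometric_hahn_banach_open_point hc.interior isOpen_interior hp.2
    obtain ⟨m, hm, hm'⟩ := hC'.exists_isMaxOn (insert_nonempty z C) f.continuous.continuousOn
    have h1 : f m < f p := hf m (insert_subset hz hCB hm)
    have h2 : f z ≤ f m := hm' (mem_insert z C)
    have h3 : 0 < (f m + f p) / 2 - f z := by linarith
    refine ⟨((f m + f p) / 2 - f z)⁻¹ • f, fun y hy => ?_, ?_⟩
    · have h4 : f y ≤ f m := hm' hy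
      rw [smul_apply, smul_eq_mul, inv_mul_lt_iff₀ h3, map_sub]
      linarith
    · rw [smul_apply, smul_eq_mul, lt_inv_mul_iff₀ h3, map_sub]
      linarith
  choose l hl1 hl2 using hsep
  have cF : IsCompact (frontier B) := hB.of_isClosed_subset isClosed_frontier
    hB.isClosed.frontier_subset
  obtain ⟨T, hT⟩ := cF.elim_nhds_subcover' (fun p hp => {y | 1 < l ⟨p, hp⟩ (y - z)})
    (fun p hp => (isOpen_lt continuous_const (by fun_prop)).mem_nhds (hl2 ⟨p, hp⟩))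
  set Q : Set E3 := {y | ∀ f ∈ T.image l, f (y - z) ≤ 1} with hQ
  have cv : Convex ℝ Q := by
    intro x hx y hy a b ha hb hab f hf
    have : a • x + b • y - z = a • (x - z) + b • (y - z) := by
      rw [smul_sub, smul_sub, sub_add_sub_comm, ← add_smul, hab, one_smul]
    rw [this, map_add, map_smul, map_smul, smul_eq_mul, smul_eq_mul]
    nlinarith [hx f hf, hy f hf]
  have zQ : z ∈ Q := fun f _ => by simp
  have QB : Q ⊆ interior B := by
    refine cv.isPreconnected.subset_of_closure_inter_subset isOpen_interior ⟨z, zQ, hz⟩ ?_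
    rintro x ⟨hx, hxQ⟩
    by_contra h
    obtain ⟨p, hp, hxp⟩ := mem_iUnion₂.1 (hT ⟨closure_mono interior_subset hx, h⟩)
    exact absurd (hxQ _ (Finset.mem_image_of_mem l hp)) (not_le.2 hxp)
  have hb := Pb_715.isBall_core z ⊤ (T.image l) (K := Q)
    (dK := {y | y ∈ Q ∧ ∃ f ∈ T.image l, f (y - z) = 1}) (fun y => by simp [hQ])
    (fun y => Iff.rfl) (hB.isBounded.subset (QB.trans interior_subset))
  rw [finrank_top, finrank_euclideanSpace_fin] at hb
  refine ⟨Q, _, hb, QB, fun y hy => ⟨fun f hf => ?_, ?_⟩, ?_⟩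
  · obtain ⟨p, -, rfl⟩ := Finset.mem_image.1 hf
    exact (hl1 p y (Or.inr hy)).le
  · rintro ⟨-, f, hf, e⟩
    obtain ⟨p, -, rfl⟩ := Finset.mem_image.1 hf
    exact (hl1 p y (Or.inr hy)).ne e
  · obtain ⟨a, ha⟩ := hb
    rw [← ha]
    exact (NormedSpace.sphere_nonempty.2 zero_le_one).image _

/-- **(SPH3) smooth Schoenflies theorem relative to a collar.**  `B` is a convex body, `e` a smooth
embedding of a neighbourhood `Sh` of its boundary which carries the inside to the inside of a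
compact set `N`; then `e` extends, after a change on a compact part of the interior, to a smooth
embedding of `B ∪ Sh` which maps `B` onto `N`. -/
theorem sph3 {B Sh N : Set E3} {e : E3 → E3} (hB : IsCompact B) (hc : Convex ℝ B)
    (hne : (interior B).Nonempty) (hSh : IsOpen Sh) (hBS : frontier B ⊆ Sh)
    (hs : SmOn e Sh) (hi : InjOn e Sh) (hN : IsCompact N) (hf : frontier N ⊆ e '' Sh)
    (hside : ∀ x ∈ Sh, e x ∈ N ↔ x ∈ B) :
    ∃ (g : E3 → E3) (K : Set E3), IsCompact K ∧ K ⊆ interior B ∧ SmOn g (B ∪ Sh) ∧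
      InjOn g (B ∪ Sh) ∧ (∀ x ∉ K, g x = e x) ∧ g '' B = N := by
  obtain ⟨z, hz⟩ := hne
  obtain ⟨Q, dQ, h1, h2, h3, h4⟩ := exists_polytope hB hc hz (hB.diff hSh) (fun x hx => by
    by_contra h
    exact hx.2 (hBS ⟨subset_closure hx.1, h⟩))
  exact sph3_of_ball hB hSh h1 h2 (fun x hx => by
    by_contra h
    exact hx.2 (h3 ⟨hx.1, h⟩)) h4 hs hi hN hf hside

end Crest.Agent.X212.Sph1
end

-- ▼ part X212/Sm25/Fill

/-!
Row 212, layer H, package FILL (helper25), part 3: a ball with one corner circle carries a gradient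
like field without zeros which agrees with the given one near the boundary.
-/

set_option autoImplicit false
set_option linter.style.longLine false
set_option linter.unusedSectionVars false

open Set Filter Topology Function Metric
open scoped ContDiff Manifold
open Crest.Agent.X212.Glue52 Crest.Agent.X212.Glb47

noncomputable section

namespace Crest.Agent.X212.Sm25

/-- the filling theorem with an arbitrary model, as an inverse chart -/
theorem ball3 {F : Type*} [NormedAddCommGroup F] [NormedSpace ℝ F] [FiniteDimensional ℝ F]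
    (hd : Module.finrank ℝ E3 = Module.finrank ℝ F) {B S : Set F} {e : F → E3} {N : Set E3}
    (hB : IsCompact B) (hc : Convex ℝ B) (hne : (interior B).Nonempty) (hS : IsCompact S)
    (hBS : frontier B ⊆ S) (hSB : ∀ x ∈ S, x ∉ interior B) (hi : ∀ x ∈ S, Imm e x) (inj : InjOn e S)
    (hN : IsCompact N) (hf : frontier N ⊆ e '' S)
    (side : ∀ x ∈ S, ∀ᶠ x' in 𝓝 x, e x' ∈ N ↔ x' ∈ B) :
    ∃ H : E3 → F, (∀ y ∈ N, Imm H y) ∧ ∀ x ∈ S, ∀ᶠ x' in 𝓝 x, H (e x') = x' := by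
  let J : E3 ≃L[ℝ] F := .ofFinrankEq hd
  have iJ : ∀ x, Imm J x := fun x => ⟨Eventually.of_forall fun _ => J.contDiff.contDiffAt, by
    rw [J.fderiv]; exact J.injective⟩
  obtain ⟨V, V1, V2, V3⟩ := inj.exists_isOpen_superset hS (fun x hx => (hi x hx).cd.continuousAt)
    fun x hx => (ld_inj ((hi x hx).ld hd.symm)).1
  let Sh := V ∩ interior {x | Imm e x ∧ (e x ∈ N ↔ x ∈ B)}
  have s1 : S ⊆ Sh := fun x hx =>
    ⟨V2 hx, mem_interior_iff_mem_nhds.2 ((hi x hx).ev.and (side x hx))⟩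
  have s2 : IsOpen (J ⁻¹' Sh) := (V1.inter isOpen_interior).preimage J.continuous
  have s3 : ∀ x ∈ J ⁻¹' Sh, Sm (e ∘ J) x := fun x hx =>
    sm_iff_ld.2 (((interior_subset hx.2).1.comp (iJ x)).ld rfl)
  have s4 : interior (J ⁻¹' B) = J ⁻¹' interior B := (J.toHomeomorph.preimage_interior B).symm
  have s5 : frontier (J ⁻¹' B) ⊆ J ⁻¹' Sh := fun x hx =>
    s1 (hBS ((J.toHomeomorph.preimage_frontier B).symm.subset hx))
  obtain ⟨g, K, a1, a2, a3, a4, a5, a6⟩ := Sph1.sph3 (B := J ⁻¹' B) (e := e ∘ J)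
    (J.toHomeomorph.isCompact_preimage.2 hB) (hc.linear_preimage (J : E3 →ₗ[ℝ] F))
    (by rw [s4]; exact hne.preimage J.surjective) s2 s5
    ⟨fun x hx => (s3 x hx).1.self_of_nhds.contDiffWithinAt, fun x hx => (s3 x hx).2⟩
    (fun x hx y hy h => J.injective (V3 hx.1 hy.1 h)) hN
    (fun y hy => by
      obtain ⟨x, hx, rfl⟩ := hf hy
      exact ⟨J.symm x, by simpa using s1 hx, by simp⟩)
    fun x hx => (interior_subset hx.2).2
  have o : ∀ x ∈ J ⁻¹' B ∪ J ⁻¹' Sh, J ⁻¹' B ∪ J ⁻¹' Sh ∈ 𝓝 x := fun x hx => by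
    by_cases h : x ∈ J ⁻¹' Sh
    · exact mem_of_superset (s2.mem_nhds h) subset_union_right
    · refine mem_of_superset (mem_interior_iff_mem_nhds.1 ?_) subset_union_left
      by_contra h'
      exact h (s5 ⟨subset_closure (hx.resolve_right h), h'⟩)
  refine ⟨J ∘ invFunOn g (J ⁻¹' B ∪ J ⁻¹' Sh), fun y hy => ?_, fun x hx => ?_⟩
  · obtain ⟨x, hx, rfl⟩ := a6.symm.subset hy
    refine .of_ld (sm_iff_ld.1 ⟨?_, a3.2 x (.inl hx)⟩) ((iJ x).congr ?_)
    · filter_upwards [eventually_mem_nhds_iff.2 (o x (.inl hx))] with u hu using a3.1.contDiffAt hu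
    · filter_upwards [o x (.inl hx)] with u hu using congrArg J (a4.leftInvOn_invFunOn hu)
  · have h1 : J.symm x ∈ Kᶜ := fun h => hSB x hx (by simpa [s4] using a2 h)
    filter_upwards [J.symm.continuous.continuousAt.eventually (a1.isClosed.isOpen_compl.mem_nhds h1),
      (V1.inter isOpen_interior).mem_nhds (s1 hx)] with u h2 h3
    have h4 : e u = g (J.symm u) := by rw [a5 _ h2]; simp
    rw [h4, comp_apply, a4.leftInvOn_invFunOn (.inr (by rwa [mem_preimage, J.apply_symm_apply])), J.apply_symm_apply]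

theorem sig_der (x : ℝ) : HasDerivAt expNegInvGlue (x⁻¹ ^ 2 * expNegInvGlue x) x := by
  simpa using expNegInvGlue.hasDerivAt_polynomial_eval_inv_mul 1 x

theorem sig_mul {x a : ℝ} (h : 0 < x → 0 < a) : 0 ≤ x⁻¹ ^ 2 * expNegInvGlue x * a ∧
    (0 < x → 0 < x⁻¹ ^ 2 * expNegInvGlue x * a) := by
  have h1 : 0 < x → 0 < x⁻¹ ^ 2 * expNegInvGlue x * a := fun hx => by
    have := expNegInvGlue.pos_of_pos hx
    have := h hx
    positivity
  refine ⟨?_, h1⟩
  rcases le_or_gt x 0 with hx | hx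
  · simp [expNegInvGlue.zero_of_nonpos hx]
  · exact (h1 hx).le

/-- the data of the last stage -/
structure Dat (U : Set E3) (v : E3 → E3) (p m : E3 → ℝ) (c₀ c : ℝ) : Prop where
  op : IsOpen U
  sv : ContDiffOn ℝ ∞ v U
  sp : ContDiffOn ℝ ∞ p U
  sm : ContDiffOn ℝ ∞ m U
  lt : c₀ < c
  cpt : IsCompact {y | y ∈ U ∧ p y ≤ c ∧ m y ≤ c}
  vp : ∀ y ∈ U, c₀ < p y → 0 < fderiv ℝ p y (v y)
  vm : ∀ y ∈ U, c₀ < m y → fderiv ℝ m y (v y) < 0
  tr : ∀ y ∈ U, p y = c → m y = c → ∃ w, 0 < fderiv ℝ p y w ∧ 0 < fderiv ℝ m y w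

/-- the filling -/
def Fil (U : Set E3) (v : E3 → E3) (p m : E3 → ℝ) (c : ℝ) : Prop :=
  ∃ (v' : E3 → E3) (t : E3 → ℝ) (K : Set E3), IsCompact K ∧ (∀ y ∈ K, y ∈ U ∧ p y < c ∧ m y < c) ∧
    ContDiffOn ℝ ∞ v' U ∧ (∀ y ∉ K, v' y = v y) ∧ ContDiffOn ℝ ∞ t U ∧
    ∀ y ∈ U, 0 < fderiv ℝ t y (v' y)

variable {U : Set E3} {v : E3 → E3} {p m : E3 → ℝ} {c₀ c : ℝ}

theorem cpt_sub {N : Set E3} (hN : IsCompact N) {f : E3 → ℝ} (hf : ContinuousOn f N) {s : Set ℝ}
    (hs : IsClosed s) : IsCompact (N ∩ f ⁻¹' s) :=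
  hN.of_isClosed_subset (hf.preimage_isClosed_of_isClosed hN.isClosed hs) inter_subset_left

theorem conv_pos (l : E3 →L[ℝ] ℝ) (q : Prop) : Convex ℝ {w | q → 0 < l w} := by
  by_cases h : q
  · simp only [h, true_imp_iff]
    exact (convex_Ioi (0 : ℝ)).linear_preimage l.toLinearMap
  · simpa [h] using convex_univ

theorem conv_eq (l : E3 →L[ℝ] ℝ) (q : Prop) (a : ℝ) : Convex ℝ {w | q → l w = a} := by
  by_cases h : q
  · simp only [h, true_imp_iff]
    exact (convex_singleton a).linear_preimage l.toLinearMap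
  · simpa [h] using convex_univ

theorem Dat.finish (D : Dat U v p m c₀ c) {τ : E3 → ℝ}
    (hτ : ∀ y ∈ U, p y ≤ c → m y ≤ c → (∀ᶠ u in 𝓝 y, ContDiffAt ℝ ∞ τ u) ∧ ∃ w, 0 < fderiv ℝ τ y w ∧
      (p y = c → 0 < fderiv ℝ p y w) ∧ (m y = c → fderiv ℝ m y w < 0)) : Fil U v p m c := by
  set N := {y | y ∈ U ∧ p y ≤ c ∧ m y ≤ c} with hN
  have NU : N ⊆ U := fun y hy => hy.1
  have ev : ∀ {f : E3 → ℝ} {x w : E3}, x ∈ U → ContDiffOn ℝ ∞ f U → f x ≤ c → ∀ s : ℝ,
      (f x = c → 0 < s * fderiv ℝ f x w) → ∀ᶠ y in 𝓝 x, c ≤ f y → 0 < s * fderiv ℝ f y w :=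
    fun {f x w} hx hf h1 s h2 => by
      rcases h1.eq_or_lt with h | h
      · filter_upwards [(continuousAt_const.mul ((cd_app D.op hf (g := fun _ => w) contDiffOn_const
          ).continuousOn.continuousAt (D.op.mem_nhds hx))).eventually (lt_mem_nhds (h2 h))]
          with y hy _ using hy
      · filter_upwards [(hf.continuousOn.continuousAt (D.op.mem_nhds hx)).eventually (gt_mem_nhds h)]
          with y hy h' using absurd hy h'.not_gt
  obtain ⟨u, -, u1, -, -, u2⟩ := exists_field D.cpt (t := fun y => {w | True → 0 < fderiv ℝ τ y w} ∩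
    ({w | c ≤ p y → 0 < fderiv ℝ p y w} ∩ {w | c ≤ m y → 0 < (-fderiv ℝ m y) w}))
    (fun y => (conv_pos _ _).inter ((conv_pos _ _).inter (conv_pos _ _))) fun x hx => by
      obtain ⟨h1, w, h2, h3, h4⟩ := hτ x hx.1 hx.2.1 hx.2.2
      have h5 : ContinuousAt (fun y => fderiv ℝ τ y w) x :=
        (h1.self_of_nhds.fderiv_right (m := 0) (by simp)).continuousAt.clm_apply continuousAt_const
      exact ⟨_, (h5.eventually (lt_mem_nhds h2)).and ((ev (w := w) hx.1 D.sp hx.2.1 1 (by simpa using h3)).and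
        (ev (w := w) hx.1 D.sm hx.2.2 (-1) (by simpa using h4))), fun _ => w, contDiffOn_const,
        fun y hy => ⟨fun _ => hy.1, by simpa using hy.2.1, by simpa using hy.2.2⟩⟩
  have u3 := fun y (hy : y ∈ N) => (show ∀ᶠ z in 𝓝 y, _ from nhds_le_nhdsSet hy u2).self_of_nhds
  have lev : ∀ {f : E3 → ℝ}, ContDiffOn ℝ ∞ f U → (∀ y ∈ N, f y ≤ c) → ∀ s : ℝ,
      (∀ y ∈ N, c ≤ f y → 0 < s * fderiv ℝ f y (u y)) →
      ∃ c' < c, ∀ y ∈ N, c' < f y → 0 < s * fderiv ℝ f y (u y) := fun {f} hf h1 s h2 => by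
    obtain ⟨a, a1, a2⟩ := (cpt_sub D.cpt ((continuousOn_const (c := s)).mul ((cd_app D.op hf
      u1.contDiffOn).continuousOn.mono NU)) isClosed_Iic).exists_forall_le' (f := fun y => -f y)
      (a := -c) ((hf.continuousOn.mono fun y hy => hy.1.1).neg) fun y hy =>
        neg_lt_neg ((h1 y hy.1).lt_of_ne fun h => (h2 y hy.1 h.ge).not_ge hy.2)
    exact ⟨-a, by linarith, fun y hy h => not_le.1 fun h' => by linarith [a2 y ⟨hy, h'⟩]⟩
  obtain ⟨c1, c1l, h1⟩ := lev D.sp (fun y hy => hy.2.1) 1 fun y hy => by simpa using (u3 y hy).2.1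
  obtain ⟨c2, c2l, h2⟩ := lev D.sm (fun y hy => hy.2.2) (-1) fun y hy => by simpa using (u3 y hy).2.2
  set c' := max c₀ (max c1 c2) with hc'
  have l0 : c₀ ≤ c' := le_max_left _ _
  have l1 : c1 ≤ c' := (le_max_left _ _).trans (le_max_right _ _)
  have l2 : c2 ≤ c' := (le_max_right _ _).trans (le_max_right _ _)
  have l3 : c' < c := max_lt D.lt (max_lt c1l c2l)
  obtain ⟨χ, K, k1, k2, k3, k4, k5, k6⟩ := exists_bump
    (cpt_sub (cpt_sub D.cpt (D.sp.continuousOn.mono NU) (isClosed_Iic (a := c')))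
      (D.sm.continuousOn.mono fun y hy => hy.1.1) (isClosed_Iic (a := c')))
    ((D.sp.continuousOn.isOpen_inter_preimage D.op (isOpen_Iio (a := c))).inter
      (D.sm.continuousOn.isOpen_inter_preimage D.op (isOpen_Iio (a := c))))
    fun y hy => ⟨⟨hy.1.1.1, l3.trans_le' hy.1.2⟩, hy.1.1.1, l3.trans_le' hy.2⟩
  have KN : K ⊆ N := fun y hy => ⟨(k3 hy).1.1, le_of_lt (k3 hy).1.2, le_of_lt (k3 hy).2.2⟩
  let v' : E3 → E3 := fun y => (1 - χ y) • v y + χ y • u y
  have s1 : ContDiffOn ℝ ∞ v' U :=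
    ((contDiffOn_const.sub k1.contDiffOn).smul D.sv).add (k1.smul u1).contDiffOn
  have s2 : ∀ y ∉ K, v' y = v y := fun y hy => by simp [v', k5 y hy]
  have s3 : ∀ (l : E3 →L[ℝ] ℝ) y, 0 < l (v y) → (y ∈ N → 0 < l (u y)) → 0 < l (v' y) :=
    fun l y a1 a2 => by
      by_cases hy : y ∈ K
      · exact conv_pos l True (fun _ => a1) (fun _ => a2 (KN hy)) (sub_nonneg.2 (k4 y).2) (k4 y).1
          (sub_add_cancel _ _) trivial
      · rwa [s2 y hy]
  let f : E3 → ℝ := fun y => expNegInvGlue (p y - c') - expNegInvGlue (m y - c')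
  have f1 : ContDiffOn ℝ ∞ f U :=
    (expNegInvGlue.contDiff.comp_contDiffOn (D.sp.sub contDiffOn_const)).sub
      (expNegInvGlue.contDiff.comp_contDiffOn (D.sm.sub contDiffOn_const))
  have f2 : ∀ y ∈ U, 0 ≤ fderiv ℝ f y (v' y) ∧ (c' < p y ∨ c' < m y → 0 < fderiv ℝ f y (v' y)) :=
    fun y hy => by
      have d := fun {g : E3 → ℝ} (hg : ContDiffOn ℝ ∞ g U) => (sig_der (g y - c')).comp_hasFDerivAt y
        (((hg.contDiffAt (D.op.mem_nhds hy)).differentiableAt (by simp)).hasFDerivAt.sub_const c')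
      have b1 := sig_mul (x := p y - c') fun h => s3 _ y (D.vp y hy (by linarith))
        fun h' => by simpa using h1 y h' (by linarith)
      have b2 := sig_mul (x := m y - c') fun h => s3 (-fderiv ℝ m y) y
        (by simpa using D.vm y hy (by linarith)) fun h' => by simpa using h2 y h' (by linarith)
      rw [show fderiv ℝ f y = _ from ((d D.sp).sub (d D.sm)).fderiv]
      simp only [ContinuousLinearMap.sub_apply, ContinuousLinearMap.smul_apply, smul_eq_mul,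
        ContinuousLinearMap.neg_apply] at b1 b2 ⊢
      exact ⟨by linarith [b1.1, b2.1], fun h => h.elim
        (fun h => by linarith [b1.2 (by linarith), b2.1]) fun h => by linarith [b1.1, b2.2 (by linarith)]⟩
  have z1 : ∀ y ∉ K, (fun y => χ y * τ y) =ᶠ[𝓝 y] fun _ => 0 := fun y hy => by
    filter_upwards [k2.isClosed.isOpen_compl.mem_nhds hy] with z hz using by simp [k5 z hz]
  have g1 : ContDiff ℝ ∞ fun y => χ y * τ y := contDiff_iff_contDiffAt.2 fun y => by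
    by_cases hy : y ∈ K
    · exact k1.contDiffAt.mul (hτ y (KN hy).1 (KN hy).2.1 (KN hy).2.2).1.self_of_nhds
    · exact contDiffAt_const.congr_of_eventuallyEq (z1 y hy)
  have f3 : ∀ y ∈ U, y ∉ interior {y | χ y = 1} → 0 < fderiv ℝ f y (v' y) := fun y hy h =>
    (f2 y hy).2 (by
      by_contra! h'
      exact h (mem_interior_iff_mem_nhds.2 (nhds_le_nhdsSet (by exact ⟨⟨⟨hy, by linarith [h'.1],
        by linarith [h'.2]⟩, h'.1⟩, h'.2⟩) k6)))
  obtain ⟨A, hA⟩ := (k2.diff (isOpen_interior (s := {y | χ y = 1}))).bddAbove_image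
    (f := fun y => -fderiv ℝ (fun y => χ y * τ y) y (v' y) / fderiv ℝ f y (v' y))
    (((cd_app D.op g1.contDiffOn s1).continuousOn.mono fun y hy => (KN hy.1).1).neg.div
      ((cd_app D.op f1 s1).continuousOn.mono fun y hy => (KN hy.1).1)
      fun y hy => (f3 y (KN hy.1).1 hy.2).ne')
  refine ⟨v', fun y => (|A| + 1) * f y + χ y * τ y, K, k2, fun y hy => ⟨(k3 hy).1.1, (k3 hy).1.2,
    (k3 hy).2.2⟩, s1, s2, (contDiffOn_const.mul f1).add g1.contDiffOn, fun y hy => ?_⟩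
  rw [((((f1.contDiffAt (D.op.mem_nhds hy)).differentiableAt (by simp)).hasFDerivAt.const_mul
    (|A| + 1)).fun_add (g1.differentiable (by simp) y).hasFDerivAt).fderiv]
  simp only [ContinuousLinearMap.add_apply, ContinuousLinearMap.smul_apply, smul_eq_mul]
  have A0 := abs_nonneg A
  by_cases h : y ∈ interior {y | χ y = 1}
  · have e1 : χ y = 1 := interior_subset (s := {y | χ y = 1}) h
    have e2 : (fun y => χ y * τ y) =ᶠ[𝓝 y] τ := by
      filter_upwards [mem_interior_iff_mem_nhds.1 h] with z hz using by rw [hz, one_mul]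
    have e3 := (u3 y (KN (by_contra fun h' => by simpa [e1] using k5 y h'))).1 trivial
    have e4 : v' y = u y := by simp [v', e1]
    rw [e2.fderiv_eq]
    nlinarith [(f2 y hy).1, e4 ▸ e3]
  · have e1 := f3 y hy h
    by_cases hK : y ∈ K
    · have e2 := (div_le_iff₀ e1).1 (hA ⟨y, ⟨hK, h⟩, rfl⟩)
      nlinarith [le_abs_self A]
    · rw [(z1 y hK).fderiv_eq]
      simpa using mul_pos (by linarith) e1

theorem Fw.lens {X : E3 → E3} {φ : ℝ → E3 → E3} (h : Fw X φ) {g : ℂ → E3} {l : E3 → ℝ} {κ : ℝ}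
    {x : ℂ × ℝ} (hg : Imm g x.1) (h1 : ∀ᶠ z in 𝓝 x.1, l (g z) = c) (hκ : κ ≠ 0)
    (h2 : ∀ᶠ y in 𝓝 (g x.1), DifferentiableAt ℝ l y ∧ fderiv ℝ l y (X y) = κ) {τ : ℂ → ℝ}
    (hτ : ContDiff ℝ ∞ τ) (h0 : x.2 + τ x.1 = 0) :
    Imm (fun q : ℂ × ℝ => φ (q.2 + τ q.1) (g q.1)) x ∧
      ∀ᶠ q : ℂ × ℝ in 𝓝 x, l (φ (q.2 + τ q.1) (g q.1)) = c + (q.2 + τ q.1) * κ := by
  have c1 : ContDiff ℝ ∞ fun q : ℂ × ℝ => q.2 + τ q.1 := by fun_prop
  constructor
  · refine (h.thick hg (fderiv_zero_of_const h2.self_of_nhds.1 hg.df h1)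
      (by rwa [h2.self_of_nhds.2]) _).comp (f := fun q : ℂ × ℝ => (q.1, q.2 + τ q.1))
      (.of_comp (g := fun q : ℂ × ℝ => (q.1, q.2 - τ q.1))
        (Eventually.of_forall fun _ => (contDiff_fst.prodMk c1).contDiffAt)
        (((by fun_prop : ContDiff ℝ ∞ fun q : ℂ × ℝ => (q.1, q.2 - τ q.1))).differentiable (by simp) _) ?_)
    rw [show ((fun q : ℂ × ℝ => (q.1, q.2 - τ q.1)) ∘ fun q : ℂ × ℝ => (q.1, q.2 + τ q.1)) = id from
      funext fun q => by simp, fderiv_id]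
    exact injective_id
  · filter_upwards [h.ev_add' hg.cd.continuousAt h2 continuousAt_fst c1.continuous.continuousAt rfl h0,
      continuousAt_fst.eventually h1] with q a1 a2 using by rw [a1, a2]

theorem der_vert {e : ℂ × ℝ → E3} {f : E3 → ℝ} {x : ℂ × ℝ} (hf : DifferentiableAt ℝ f (e x))
    (he : DifferentiableAt ℝ e x) {g : ℂ → ℝ} {κ : ℝ}
    (h : ∀ᶠ q : ℂ × ℝ in 𝓝 x, f (e q) = g q.1 + q.2 * κ) :
    fderiv ℝ f (e x) (fderiv ℝ e x (0, 1)) = κ := by
  have d0 : HasDerivAt (fun s : ℝ => (x.1, s)) (0, 1) x.2 :=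
    (hasDerivAt_const _ _).prodMk (hasDerivAt_id _)
  have d1 := (hf.hasFDerivAt.comp x he.hasFDerivAt).comp_hasDerivAt (f := fun s : ℝ => (x.1, s)) x.2 d0
  exact d1.unique (((hasDerivAt_mul_const κ).const_add (g x.1)).congr_of_eventuallyEq
    (d0.continuousAt.eventually h))

/-- **FILL** -/
theorem Dat.fill (D : Dat U v p m c₀ c) {kp km : ℂ → E3}
    (pc : ContinuousOn kp (closedBall 0 1)) (pi : InjOn kp (closedBall 0 1))
    (pb : kp '' closedBall 0 1 = {y | y ∈ U ∧ p y = c ∧ m y ≤ c})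
    (ps : kp '' sphere 0 1 = {y | y ∈ U ∧ p y = c ∧ m y = c})
    (mc : ContinuousOn km (closedBall 0 1)) (mi : InjOn km (closedBall 0 1))
    (mb : km '' closedBall 0 1 = {y | y ∈ U ∧ m y = c ∧ p y ≤ c})
    (ms : km '' sphere 0 1 = {y | y ∈ U ∧ p y = c ∧ m y = c}) : Fil U v p m c := by
  classical
  have lt := D.lt
  have hi : ∀ y ∈ U, p y = c → m y = c → ∃ w,
      fderiv ℝ p y (v y) * fderiv ℝ m y w - fderiv ℝ p y w * fderiv ℝ m y (v y) ≠ 0 :=
    fun y hy h1 h2 => by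
      obtain ⟨w, h3, h4⟩ := D.tr y hy h1 h2
      have h5 := mul_pos (D.vp y hy (by linarith)) h4
      have h6 := mul_pos h3 (neg_pos.2 (D.vm y hy (by linarith)))
      exact ⟨w, ne_of_gt (by linarith)⟩
  have cp := (isCompact_closedBall _ _).image_of_continuousOn pc
  have cm := (isCompact_closedBall _ _).image_of_continuousOn mc
  rw [pb] at cp
  rw [mb] at cm
  -- the field `X`
  let G := {x | ∃ V ∈ 𝓝 x, ∃ g : E3 → E3, ContDiffOn ℝ ∞ g V ∧
    ∀ y ∈ V, fderiv ℝ p y (g y) = 1 ∧ fderiv ℝ m y (g y) = -1}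
  have G1 : IsOpen G := isOpen_iff_mem_nhds.2 fun x ⟨V, hV, r⟩ => by
    filter_upwards [eventually_mem_nhds_iff.2 hV] with y hy using ⟨V, hy, r⟩
  have G2 : ∀ y ∈ U, p y = c → m y = c → y ∈ G := fun y hy h1 h2 =>
    let ⟨_, h⟩ := hi y hy h1 h2; loc2 D.op D.sp D.sm hy h 1 (-1)
  obtain ⟨Vp, p1, p2, p3⟩ := exists_compact_between cp (cm.diff G1).isClosed.isOpen_compl
    fun y hy h => h.2 (G2 y hy.1 hy.2.1 h.1.2.1)
  obtain ⟨Vm, m1, m2, m3⟩ := exists_compact_between cm (cp.diff G1).isClosed.isOpen_compl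
    fun y hy h => h.2 (G2 y hy.1 h.1.2.1 hy.2.1)
  have one : ∀ {f : E3 → ℝ} {x : E3} {V : Set E3} (κ : ℝ), ContDiffOn ℝ ∞ f U → x ∈ U → IsCompact V →
      x ∉ V → fderiv ℝ f x (v x) ≠ 0 → ∃ W ∈ 𝓝 x, ∃ g : E3 → E3, ContDiffOn ℝ ∞ g W ∧
        ∀ y ∈ W, fderiv ℝ f y (g y) = κ ∧ y ∉ V := fun {f x V} κ hf hx hV h1 h2 => by
    have c1 := cd_app D.op hf D.sv
    refine ⟨(U ∩ {y | fderiv ℝ f y (v y) ≠ 0}) ∩ Vᶜ, inter_mem (inter_mem (D.op.mem_nhds hx)
      ((c1.continuousOn.continuousAt (D.op.mem_nhds hx)).eventually_ne h2))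
      (hV.isClosed.isOpen_compl.mem_nhds h1), fun y => (κ * (fderiv ℝ f y (v y))⁻¹) • v y,
      (contDiffOn_const.mul ((c1.mono fun y hy => hy.1.1).inv fun y hy => hy.1.2)).smul
        (D.sv.mono fun y hy => hy.1.1), fun y hy => ⟨?_, hy.2⟩⟩
    rw [map_smul, smul_eq_mul, mul_assoc, inv_mul_cancel₀ hy.1.2, mul_one]
  obtain ⟨X, K, X1, X2, X3, X4⟩ := exists_field (cp.union cm)
    (t := fun y => {w | y ∈ Vp → fderiv ℝ p y w = 1} ∩ {w | y ∈ Vm → fderiv ℝ m y w = -1})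
    (fun y => (conv_eq _ _ _).inter (conv_eq _ _ _)) fun x hx => by
      by_cases h : x ∈ G
      · obtain ⟨V, a1, g, a2, a3⟩ := h
        exact ⟨V, a1, g, a2, fun y hy => ⟨fun _ => (a3 y hy).1, fun _ => (a3 y hy).2⟩⟩
      rcases hx with hx | hx
      · obtain ⟨V, a1, g, a2, a3⟩ := one 1 D.sp hx.1 m1 (fun h' => m3 h' ⟨hx, h⟩)
          (D.vp x hx.1 (by linarith [hx.2.1])).ne'
        exact ⟨V, a1, g, a2, fun y hy => ⟨fun _ => (a3 y hy).1, fun h => absurd h (a3 y hy).2⟩⟩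
      · obtain ⟨V, a1, g, a2, a3⟩ := one (-1) D.sm hx.1 p1 (fun h' => p3 h' ⟨hx, h⟩)
          (D.vm x hx.1 (by linarith [hx.2.1])).ne
        exact ⟨V, a1, g, a2, fun y hy => ⟨fun h => absurd h (a3 y hy).2, fun _ => (a3 y hy).1⟩⟩
  obtain ⟨φ, fX⟩ := exists_fw X1 X2 X3
  have df : ∀ {f : E3 → ℝ}, ContDiffOn ℝ ∞ f U → ∀ y ∈ U, DifferentiableAt ℝ f y := fun hf y hy =>
    (hf.contDiffAt (D.op.mem_nhds hy)).differentiableAt (by simp)
  have Xp : ∀ y ∈ U, p y = c → m y ≤ c →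
      ∀ᶠ u in 𝓝 y, DifferentiableAt ℝ p u ∧ fderiv ℝ p u (X u) = 1 := fun y h1 h2 h3 => by
    filter_upwards [nhds_le_nhdsSet (by exact .inl ⟨h1, h2, h3⟩) X4, D.op.mem_nhds h1,
      mem_interior_iff_mem_nhds.1 (p2 ⟨h1, h2, h3⟩)] with u a1 a2 a3 using ⟨df D.sp u a2, a1.1 a3⟩
  have Xm : ∀ y ∈ U, m y = c → p y ≤ c →
      ∀ᶠ u in 𝓝 y, DifferentiableAt ℝ m u ∧ fderiv ℝ m u (X u) = -1 := fun y h1 h2 h3 => by
    filter_upwards [nhds_le_nhdsSet (by exact .inr ⟨h1, h2, h3⟩) X4, D.op.mem_nhds h1,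
      mem_interior_iff_mem_nhds.1 (m2 ⟨h1, h2, h3⟩)] with u a1 a2 a3 using ⟨df D.sm u a2, a1.2 a3⟩
  -- the two collars
  obtain ⟨ε, ε0, a, a1, a2, a3⟩ := corner D.op D.sp D.sm
    (ps ▸ (isCompact_sphere _ _).image_of_continuousOn (pc.mono sphere_subset_closedBall))
    (ps ▸ (isConnected_sphere (by simp) _ zero_le_one).image _ (pc.mono sphere_subset_closedBall))
    fun y hy h1 h2 => ⟨_, hi y hy h1 h2⟩
  have n2 : ContDiff ℝ ∞ fun z : ℂ => ‖z‖ ^ 2 := contDiff_norm_sq ℝ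
  have sA : ∀ {δ : ℝ}, 0 < δ → ∀ z : ℂ, ‖z‖ = 1 → z ∈ An (1 - δ) (1 + δ) := fun h z hz =>
    ⟨by linarith, by linarith⟩
  let b : ℂ → E3 := fun z => φ (2 * (‖z‖ ^ 2 - 1)) (a z)
  obtain ⟨η, η0, -, b1⟩ := exists_An (P := fun z => z ∈ An (1 - ε) (1 + ε) ∧ Imm b z ∧ b z ∈ U ∧
      p (b z) = c + 2 * (‖z‖ ^ 2 - 1) ∧ m (b z) = c) fun z hz => by
    have z1 := mem_sphere_zero_iff_norm.1 hz
    have z2 := (isOpen_An _ _).mem_nhds (sA ε0 z z1)
    obtain ⟨c1, c2, c3, c4⟩ := a1 z (sA ε0 z z1)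
    have z3 : 2 * (‖z‖ ^ 2 - 1) = 0 := by rw [z1]; norm_num
    rw [z3, add_zero] at c4
    have c5 : ContDiff ℝ ∞ fun z : ℂ => 2 * (‖z‖ ^ 2 - 1) := by fun_prop
    have c6 : Imm b z := (fX.thick c1 (fderiv_zero_of_const (c := c) (df D.sp _ c2) c1.df
      (by filter_upwards [z2] with w hw using (a1 w hw).2.2.1))
      (by rw [(Xp _ c2 c3 c4.le).self_of_nhds.2]; exact one_ne_zero) _).comp
      (f := fun y : ℂ => (y, 2 * (‖y‖ ^ 2 - 1))) (imm_graph (Eventually.of_forall fun _ => c5.contDiffAt))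
    filter_upwards [z2, c6.ev, c6.cd.continuousAt.eventually (D.op.mem_nhds
      (by simpa only [b, z3, fX.zero] using c2)),
      fX.ev_add' c1.cd.continuousAt (Xp _ c2 c3 c4.le) continuousAt_id c5.continuous.continuousAt rfl z3,
      fX.ev_add' c1.cd.continuousAt (Xm _ c2 c4 c3.le) continuousAt_id c5.continuous.continuousAt rfl z3]
      with w d1 d2 d3 d4 d5
    exact ⟨d1, d2, d3, by simpa [(a1 w d1).2.2.1] using d4, by simpa [(a1 w d1).2.2.2] using d5⟩
  have ab : ∀ z ∈ sphere (0 : ℂ) 1, b z = a z := fun z hz => by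
    simp [b, mem_sphere_zero_iff_norm.1 hz, fX.zero]
  have q1 : ∀ z : ℂ, 1 < ‖z‖ → 0 < 2 * (‖z‖ ^ 2 - 1) := fun z hz => by nlinarith
  -- the two discs
  obtain ⟨δ, δ0, gp, gp1, gp2, gp3, gp4⟩ := disc3 (f := p) (c := c) (O := U ∩ p ⁻¹' Ioi c₀) (k := kp)
    (D.sp.continuousOn.isOpen_inter_preimage D.op isOpen_Ioi) (D.sp.mono inter_subset_left)
    (fun y hy h => by simpa [h] using D.vp y hy.1 hy.2) ε0
    (fun z hz => ⟨(a1 z hz).1, ⟨(a1 z hz).2.1, lt.trans_eq (a1 z hz).2.2.1.symm⟩, (a1 z hz).2.2.1⟩) a2 pc pi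
    (fun z hz => have h := pb.subset (mem_image_of_mem _ hz); ⟨⟨h.1, lt.trans_eq h.2.1.symm⟩, h.2.1⟩)
    (ps.trans a3.symm) fun z hz h => by
      linarith [(pb.subset h).2.2, (a1 z ⟨by linarith [hz.1], hz.2⟩).2.2.2, q1 z hz.1]
  obtain ⟨δ', δ0', gm, gm1, gm2, gm3, gm4⟩ := disc3 (f := m) (c := c) (O := U ∩ m ⁻¹' Ioi c₀) (k := km)
    (a := b) (D.sm.continuousOn.isOpen_inter_preimage D.op isOpen_Ioi) (D.sm.mono inter_subset_left)
    (fun y hy h => by simpa [h] using D.vm y hy.1 hy.2) η0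
    (fun z hz => ⟨(b1 z hz).2.1, ⟨(b1 z hz).2.2.1, lt.trans_eq (b1 z hz).2.2.2.2.symm⟩, (b1 z hz).2.2.2.2⟩)
    (fun z hz w hw h => a2 (b1 z hz).1 (b1 w hw).1 (by
      have h1 : ‖z‖ ^ 2 = ‖w‖ ^ 2 := by
        linarith [(b1 z hz).2.2.2.1, (b1 w hw).2.2.2.1, congrArg p h]
      rw [← fX.neg (2 * (‖z‖ ^ 2 - 1)) (a z), ← fX.neg (2 * (‖z‖ ^ 2 - 1)) (a w)]
      exact congrArg _ (h.trans (by simp only [b, h1])))) mc mi
    (fun z hz => have h := mb.subset (mem_image_of_mem _ hz); ⟨⟨h.1, lt.trans_eq h.2.1.symm⟩, h.2.1⟩)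
    (ms.trans (a3.symm.trans (image_congr ab).symm)) fun z hz h => by
      linarith [(mb.subset h).2.2, (b1 z ⟨by linarith [hz.1], hz.2⟩).2.2.2.1, q1 z hz.1]
  rw [pb] at gp4
  rw [mb] at gm4
  have bl : ∀ {δ : ℝ}, 0 < δ → ∀ z : ℂ, ‖z‖ ≤ 1 → z ∈ ball (0 : ℂ) (1 + δ) := fun h z hz =>
    mem_ball_zero_iff.2 (by linarith)
  have gp5 : ∀ z : ℂ, ‖z‖ ≤ 1 → gp z ∈ U ∧ p (gp z) = c ∧ m (gp z) ≤ c := fun z hz =>
    gp4.subset (mem_image_of_mem _ (mem_closedBall_zero_iff.2 hz))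
  have gm5 : ∀ z : ℂ, ‖z‖ ≤ 1 → gm z ∈ U ∧ m (gm z) = c ∧ p (gm z) ≤ c := fun z hz =>
    gm4.subset (mem_image_of_mem _ (mem_closedBall_zero_iff.2 hz))
  have gp6 : ∀ z : ℂ, ‖z‖ < 1 → m (gp z) < c := fun z hz => (gp5 z hz.le).2.2.lt_of_ne fun h => by
    obtain ⟨w, h1, h2⟩ := a3.symm.subset ⟨(gp5 z hz.le).1, (gp5 z hz.le).2.1, h⟩
    have h3 := mem_sphere_zero_iff_norm.1 h1
    rw [← gp2 (bl δ0 w h3.le) (bl δ0 z hz.le) ((gp3 w (sA δ0 w h3)).trans h2)] at hz
    exact hz.ne h3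
  have gm6 : ∀ z : ℂ, ‖z‖ < 1 → p (gm z) < c := fun z hz => (gm5 z hz.le).2.2.lt_of_ne fun h => by
    obtain ⟨w, h1, h2⟩ := a3.symm.subset ⟨(gm5 z hz.le).1, h, (gm5 z hz.le).2.1⟩
    have h3 := mem_sphere_zero_iff_norm.1 h1
    rw [← gm2 (bl δ0' w h3.le) (bl δ0' z hz.le) (((gm3 w (sA δ0' w h3)).trans (ab w h1)).trans h2)] at hz
    exact hz.ne h3
  -- the lens
  let P : ℂ × ℝ → ℝ := fun q => q.2 + (‖q.1‖ ^ 2 - 1)
  let M : ℂ × ℝ → ℝ := fun q => (q.2 + (1 - ‖q.1‖ ^ 2)) * -1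
  have cP : Continuous P := by fun_prop
  have cM : Continuous M := by fun_prop
  let ep : ℂ × ℝ → E3 := fun q => φ (q.2 + (‖q.1‖ ^ 2 - 1)) (gp q.1)
  let em : ℂ × ℝ → E3 := fun q => φ (q.2 + (1 - ‖q.1‖ ^ 2)) (gm q.1)
  let e : ℂ × ℝ → E3 := fun q => if 0 ≤ q.2 then ep q else em q
  let B := {q | P q ≤ 0 ∧ M q ≤ 0}
  let S := {q | q ∈ B ∧ (P q = 0 ∨ M q = 0)}
  have n1 : ∀ q ∈ B, ‖q.1‖ ≤ 1 := fun q hq => by
    have := hq.1; have := hq.2; simp only [P, M] at *; nlinarith [norm_nonneg q.1]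
  have n3 : ∀ q ∈ B, q.2 ≠ 0 → ‖q.1‖ < 1 := fun q hq h => (n1 q hq).lt_of_ne fun h' => h (by
    have := hq.1; have := hq.2; simp only [P, M, h'] at *; linarith)
  have top : ∀ x ∈ B, P x = 0 → e =ᶠ[𝓝 x] ep → Imm e x ∧ e x = gp x.1 ∧
      ∀ᶠ q in 𝓝 x, p (e q) = c + P q := fun x hx h0 h => by
    obtain ⟨c1, c2, c3⟩ := gp5 _ (n1 x hx)
    obtain ⟨d1, d2⟩ := fX.lens (c := c) (gp1 _ (bl δ0 _ (n1 x hx))).1 (by
      filter_upwards [isOpen_ball.mem_nhds (bl δ0 _ (n1 x hx))] with z hz using (gp1 z hz).2)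
      one_ne_zero (Xp _ c1 c2 c3) (n2.sub contDiff_const) h0
    refine ⟨d1.congr h, h.self_of_nhds.trans ((congrArg (φ · _) h0).trans (fX.zero _)), ?_⟩
    filter_upwards [h, d2] with q e1 e2 using by rw [e1, e2, mul_one]
  have bot : ∀ x ∈ B, M x = 0 → e =ᶠ[𝓝 x] em → Imm e x ∧ e x = gm x.1 ∧
      ∀ᶠ q in 𝓝 x, m (e q) = c + M q := fun x hx h0 h => by
    obtain ⟨c1, c2, c3⟩ := gm5 _ (n1 x hx)
    have h1 : x.2 + (1 - ‖x.1‖ ^ 2) = 0 := by simp only [M] at h0; linarith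
    obtain ⟨d1, d2⟩ := fX.lens (c := c) (gm1 _ (bl δ0' _ (n1 x hx))).1 (by
      filter_upwards [isOpen_ball.mem_nhds (bl δ0' _ (n1 x hx))] with z hz using (gm1 z hz).2)
      (by norm_num) (Xm _ c1 c2 c3) (contDiff_const.sub n2) h1
    refine ⟨d1.congr h, h.self_of_nhds.trans ((congrArg (φ · _) h1).trans (fX.zero _)), ?_⟩
    filter_upwards [h, d2] with q e1 e2 using by rw [e1, e2]
  have key : ∀ x ∈ S, Imm e x ∧ (P x = 0 → e x = gp x.1) ∧ (M x = 0 → e x = gm x.1) ∧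
      ((P x = 0 ∧ ∀ᶠ q in 𝓝 x, p (e q) = c + P q) ∨ (p (e x) < c ∧ P x < 0)) ∧
      ((M x = 0 ∧ ∀ᶠ q in 𝓝 x, m (e q) = c + M q) ∨ (m (e x) < c ∧ M x < 0)) := fun x hx => by
    have h1 := hx.1.1
    have h2 := hx.1.2
    rcases lt_trichotomy x.2 0 with h | h | h
    · have h3 : P x < 0 := by simp only [P, M] at *; linarith
      have h4 := hx.2.resolve_left h3.ne
      obtain ⟨c1, c2, c3⟩ := bot x hx.1 h4 (by
        filter_upwards [continuousAt_snd.eventually (gt_mem_nhds h)] with q hq using if_neg hq.not_ge)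
      exact ⟨c1, fun h => absurd h h3.ne, fun _ => c2, .inr ⟨c2 ▸ gm6 _ (n3 x hx.1 h.ne), h3⟩,
        .inl ⟨h4, c3⟩⟩
    · have h3 : P x = 0 ∧ M x = 0 := by
        have := hx.2
        simp only [P, M, h] at *
        constructor <;> rcases this with h | h <;> linarith
      have h4 : ‖x.1‖ = 1 := by
        have := h3.1
        simp only [P, h] at this
        nlinarith [norm_nonneg x.1]
      have h5 : em =ᶠ[𝓝 x] ep := by
        filter_upwards [continuousAt_fst.eventually ((isOpen_An _ _).mem_nhds (sA δ0 _ h4)),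
          continuousAt_fst.eventually ((isOpen_An _ _).mem_nhds (sA δ0' _ h4))] with q e1 e2
        simp only [em, ep, gp3 _ e1, gm3 _ e2, b, ← fX.add]
        congr 1; ring
      have h6 : e =ᶠ[𝓝 x] ep := by
        filter_upwards [h5] with q hq using by simp only [e, hq, ite_self]
      obtain ⟨c1, c2, c3⟩ := top x hx.1 h3.1 h6
      obtain ⟨-, d2, d3⟩ := bot x hx.1 h3.2 (h6.trans h5.symm)
      exact ⟨c1, fun _ => c2, fun _ => d2, .inl ⟨h3.1, c3⟩, .inl ⟨h3.2, d3⟩⟩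
    · have h3 : M x < 0 := by simp only [P, M] at *; linarith
      have h4 := hx.2.resolve_right h3.ne
      obtain ⟨c1, c2, c3⟩ := top x hx.1 h4 (by
        filter_upwards [continuousAt_snd.eventually (lt_mem_nhds h)] with q hq using if_pos hq.le)
      exact ⟨c1, fun _ => c2, fun h => absurd h h3.ne, .inl ⟨h4, c3⟩,
        .inr ⟨c2 ▸ gp6 _ (n3 x hx.1 h.ne'), h3⟩⟩
  have eU : ∀ x ∈ S, e x ∈ U := fun x hx => hx.2.elim
    (fun h => (key x hx).2.1 h ▸ (gp5 _ (n1 x hx.1)).1) fun h => (key x hx).2.2.1 h ▸ (gm5 _ (n1 x hx.1)).1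
  have sur : ∀ y ∈ U, p y ≤ c → m y ≤ c → ¬(p y < c ∧ m y < c) → y ∈ e '' S := fun y h1 h2 h3 h4 => by
    by_cases h : p y = c
    · obtain ⟨z, z1, rfl⟩ := gp4.symm.subset ⟨h1, h, h3⟩
      have z2 := mem_closedBall_zero_iff.1 z1
      have z3 : (z, 1 - ‖z‖ ^ 2) ∈ S := ⟨⟨by simp [P], by
        simp only [M]; nlinarith [norm_nonneg z]⟩, .inl (by simp [P])⟩
      exact ⟨_, z3, (key _ z3).2.1 (by simp [P])⟩
    · obtain ⟨z, z1, rfl⟩ := gm4.symm.subset ⟨h1, h3.eq_of_not_lt fun h' => h4 ⟨h2.lt_of_ne h, h'⟩, h2⟩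
      have z2 := mem_closedBall_zero_iff.1 z1
      have z3 : (z, ‖z‖ ^ 2 - 1) ∈ S := ⟨⟨by
        simp only [P]; nlinarith [norm_nonneg z], by simp [M]⟩, .inr (by simp [M])⟩
      exact ⟨_, z3, (key _ z3).2.2.1 (by simp [M])⟩
  have cB : IsClosed B := (isClosed_le cP continuous_const).inter (isClosed_le cM continuous_const)
  have kB : IsCompact B := (isCompact_closedBall 0 1).of_isClosed_subset cB fun q hq => by
    have := hq.1; have := hq.2
    simp only [P, M] at *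
    exact mem_closedBall_zero_iff.2 (norm_prod_le_iff.2 ⟨n1 q hq, abs_le.2
      ⟨by nlinarith, by nlinarith⟩⟩)
  have iB : {q | P q < 0 ∧ M q < 0} ⊆ interior B := interior_maximal (fun q hq => ⟨hq.1.le, hq.2.le⟩)
    ((isOpen_lt cP continuous_const).inter (isOpen_lt cM continuous_const))
  have sd : ∀ {f : E3 → ℝ} {Q : ℂ × ℝ → ℝ} {x}, x ∈ S → ContDiffOn ℝ ∞ f U → Continuous Q →
      ((Q x = 0 ∧ ∀ᶠ q in 𝓝 x, f (e q) = c + Q q) ∨ (f (e x) < c ∧ Q x < 0)) →
      ∀ᶠ q in 𝓝 x, f (e q) ≤ c ↔ Q q ≤ 0 := fun {f Q x} hx hf hQ h => by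
    rcases h with h | h
    · filter_upwards [h.2] with q hq using by rw [hq, add_le_iff_nonpos_right]
    · filter_upwards [((df hf _ (eU x hx)).continuousAt.comp (key x hx).1.cd.continuousAt).eventually
        (gt_mem_nhds h.1), hQ.continuousAt.eventually (gt_mem_nhds h.2)] with q e1 e2
        using iff_of_true e1.le e2.le
  obtain ⟨H, H1, H2⟩ := ball3 (B := B) (S := S) (e := e) (by simp) kB
    (fun x hx y hy s t hs ht hst => by
      have h1 := hx.1; have h2 := hx.2; have h3 := hy.1; have h4 := hy.2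
      have h5 := (convexOn_univ_norm.pow (fun (z : ℂ) _ => norm_nonneg z) 2).2 (mem_univ x.1)
        (mem_univ y.1) hs ht hst
      simp only [P, M, B, mem_setOf_eq, Prod.fst_add, Prod.smul_fst, Prod.snd_add, Prod.smul_snd,
        smul_eq_mul, Pi.pow_apply] at *
      constructor <;> nlinarith)
    ⟨0, iB (by simp [P, M])⟩
    (kB.of_isClosed_subset (cB.inter ((isClosed_eq cP continuous_const).union
      (isClosed_eq cM continuous_const))) fun _ h => h.1)
    (fun x hx => ⟨cB.frontier_subset hx, by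
      by_contra! h
      exact hx.2 (iB ⟨(cB.frontier_subset hx).1.lt_of_ne h.1, (cB.frontier_subset hx).2.lt_of_ne h.2⟩)⟩)
    (fun x hx h => by
      have h1 : ContinuousAt (fun t : ℝ => (x.1, x.2 + t)) 0 := by fun_prop
      obtain ⟨r, r0, h2⟩ := Metric.eventually_nhds_iff_ball.1
        (h1.eventually (p := (· ∈ B)) (by
          simp only [add_zero]; exact mem_interior_iff_mem_nhds.1 h))
      have h3 := (h2 (r / 2) (by simp [abs_of_pos r0, r0])).1
      have h4 := (h2 (-(r / 2)) (by simp [abs_of_pos r0, r0])).2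
      have := hx.2
      simp only [P, M] at *
      rcases this with h | h <;> linarith)
    (fun x hx => (key x hx).1)
    (fun x hx y hy h => by
      have z : ∀ x ∈ S, ∀ y ∈ S, e x = e y → P x = 0 → P y = 0 := fun x hx y hy h h0 =>
        ((key y hy).2.2.2.1.resolve_right fun h' => h'.1.ne (by
          rw [← h, (key x hx).2.1 h0]; exact (gp5 _ (n1 x hx.1)).2.1)).1
      by_cases h0 : P x = 0
      · have h1 := z x hx y hy h h0
        have h2 := gp2 (bl δ0 _ (n1 x hx.1)) (bl δ0 _ (n1 y hy.1))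
          (by rw [← (key x hx).2.1 h0, h, (key y hy).2.1 h1])
        exact Prod.ext h2 (by simp only [P, h2] at h0 h1; linarith)
      · have h1 := hx.2.resolve_left h0
        have h2 := hy.2.resolve_left fun h' => h0 (z y hy x hx h.symm h')
        have h3 := gm2 (bl δ0' _ (n1 x hx.1)) (bl δ0' _ (n1 y hy.1))
          (by rw [← (key x hx).2.2.1 h1, h, (key y hy).2.2.1 h2])
        exact Prod.ext h3 (by simp only [M, h3] at h1 h2; linarith))
    D.cpt
    (fun y hy => by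
      obtain ⟨h1, h2, h3⟩ := D.cpt.isClosed.frontier_subset hy
      refine sur y h1 h2 h3 fun h => hy.2 (mem_interior_iff_mem_nhds.2 ?_)
      filter_upwards [D.op.mem_nhds h1, (df D.sp y h1).continuousAt.eventually (gt_mem_nhds h.1),
        (df D.sm y h1).continuousAt.eventually (gt_mem_nhds h.2)] with u e1 e2 e3
        using ⟨e1, e2.le, e3.le⟩)
    fun x hx => by
      filter_upwards [(key x hx).1.cd.continuousAt.eventually (D.op.mem_nhds (eU x hx)),
        sd hx D.sp cP (key x hx).2.2.2.1, sd hx D.sm cM (key x hx).2.2.2.2] with q e1 e2 e3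
      exact ⟨fun h => ⟨e2.1 h.2.1, e3.1 h.2.2⟩, fun h => ⟨e1, e2.2 h.1, e3.2 h.2⟩⟩
  refine D.finish (τ := fun y => (H y).2) fun y h1 h2 h3 => ?_
  have i := H1 y ⟨h1, h2, h3⟩
  refine ⟨i.1.mono fun u hu => hu.snd, ?_⟩
  by_cases h : p y < c ∧ m y < c
  · obtain ⟨w, hw⟩ := (LinearMap.injective_iff_surjective_of_finrank_eq_finrank
      (f := (fderiv ℝ H y).toLinearMap) (by simp)).1 i.2 (0, 1)
    refine ⟨w, ?_, fun h' => absurd h' h.1.ne, fun h' => absurd h' h.2.ne⟩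
    rw [i.df.hasFDerivAt.snd.fderiv]
    simp [show fderiv ℝ H y w = (0, 1) from hw]
  · obtain ⟨x, hx, rfl⟩ := sur y h1 h2 h3 h
    have d := (key x hx).1.df
    refine ⟨fderiv ℝ e x (0, 1), ?_, fun h' => ?_, fun h' => ?_⟩
    · rw [der_vert i.df.snd d (g := fun _ => 0) (κ := 1) ((H2 x hx).mono fun q hq => by simp [hq])]
      exact one_pos
    · rw [der_vert (df D.sp _ h1) d (g := fun z => c + (‖z‖ ^ 2 - 1)) (κ := 1)
        (((key x hx).2.2.2.1.resolve_right fun h => h.1.ne h').2.mono fun q hq => by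
          rw [hq]; simp only [P]; ring)]
      exact one_pos
    · rw [der_vert (df D.sm _ h1) d (g := fun z => c + (‖z‖ ^ 2 - 1)) (κ := -1)
        (((key x hx).2.2.2.2.resolve_right fun h => h.1.ne h').2.mono fun q hq => by
          rw [hq]; simp only [M]; ring)]
      norm_num

/-- finitely many components -/
theorem fills {ι : Type*} [Finite ι] {V : ι → Set E3} (hd : Pairwise (Disjoint on V))
    (ho : ∀ i, IsOpen (V i)) (h : ∀ i, Fil (V i) v p m c) : Fil (⋃ i, V i) v p m c := by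
  classical
  choose v' t K h1 h2 h3 h4 h5 h6 using h
  have gl : ∀ {F : Type} (f : ι → E3 → F) (d : E3 → F), ∃ g : E3 → F,
      (∀ i, ∀ y ∈ V i, g =ᶠ[𝓝 y] f i) ∧ ∀ y ∉ ⋃ i, V i, g y = d y := fun f d =>
    ⟨fun y => if h : ∃ i, y ∈ V i then f h.choose y else d y, fun i y hy => by
      filter_upwards [(ho i).mem_nhds hy] with z hz
      have e : ∃ i, z ∈ V i := ⟨i, hz⟩
      rw [dif_pos e, by_contra fun h' : e.choose ≠ i => disjoint_left.1 (hd h') e.choose_spec hz],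
      fun y hy => dif_neg (by simpa using hy)⟩
  obtain ⟨w, w1, w2⟩ := gl v' v
  obtain ⟨s, s1, -⟩ := gl t 0
  refine ⟨w, s, ⋃ i, K i, isCompact_iUnion h1, fun y hy => ?_, fun y hy => ?_, fun y hy => ?_,
    fun y hy => ?_, fun y hy => ?_⟩
  · obtain ⟨i, hi⟩ := mem_iUnion.1 hy
    exact ⟨mem_iUnion.2 ⟨i, (h2 i y hi).1⟩, (h2 i y hi).2⟩
  · obtain ⟨i, hi⟩ := mem_iUnion.1 hy
    exact (((h3 i).contDiffAt ((ho i).mem_nhds hi)).congr_of_eventuallyEq (w1 i y hi)).contDiffWithinAt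
  · by_cases h : y ∈ ⋃ i, V i
    · obtain ⟨i, hi⟩ := mem_iUnion.1 h
      exact (w1 i y hi).self_of_nhds.trans (h4 i y fun h' => hy (mem_iUnion.2 ⟨i, h'⟩))
    · exact w2 y h
  · obtain ⟨i, hi⟩ := mem_iUnion.1 hy
    exact (((h5 i).contDiffAt ((ho i).mem_nhds hi)).congr_of_eventuallyEq (s1 i y hi)).contDiffWithinAt
  · obtain ⟨i, hi⟩ := mem_iUnion.1 hy
    rw [(s1 i y hi).fderiv_eq, (w1 i y hi).self_of_nhds]
    exact h6 i y hi

end Crest.Agent.X212.Sm25
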