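import Crest.Agent.X212.Nkp12.Stab
import Crest.Agent.X212.Nkp12.Dg
import Crest.Agent.X212.Rad94.Wka
import Crest.Agent.X212.Rad94.Wkc
import Crest.Agent.X212.Rad94.Wkb
import Crest.Agent.X212.Map77.IsB
import Crest.Agent.X212.Rad94.Wkd
import Crest.Agent.X212.Rad94.Wke
import Crest.Agent.X212.Gnk23.MvF
import Crest.Agent.X212.Gnk23.MvY
import Crest.Agent.X212.Sm25.SlcA
import Crest.Agent.X212.Gnk23.Mv
import Crest.Agent.X212.Map77.IsC
import Crest.Agent.X212.Map77.IsD
import Crest.Agent.X212.Map77.Trs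
import Crest.Agent.X212.Sm25.Lft
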