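import Crest.Agent.X212.Conv33.Bas
import Crest.Agent.X212.Conv33.Main
import Crest.Agent.X212.Sf30.P2All
import Crest.Agent.X212.Ind26.Top
import Crest.Agent.X212.Alg36.NegP1
import Crest.Agent.X212.Alg36.NegP2
import Crest.Agent.X212.Hp13.P1
import Crest.Agent.X212.Kc37.Cur
import Crest.Agent.X212.Kc37.Dsk
import Crest.Agent.X212.Kc37.Dat
import Crest.Agent.X212.Kc37.Band
import Crest.Agent.X212.Kc37.Main
import Crest.Agent.X212.Hp13.HH
import Crest.Agent.X212.Top0.H
import Crest.Agent.X212.Nk6.Main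
import Crest.Agent.X212.Sm25.Nv
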